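import Mathlib

/-!
Herbrand quotients of endomorphisms of abelian groups.
-/

open Polynomial

namespace Vale.Agent.P011.ArP

section qmul

variable {B : Type} [AddCommGroup B]

/-- The Herbrand quotient is multiplicative. -/
theorem q_mul (f g : B →+ B) :
    (f.comp g).range.index * (Nat.card f.ker * Nat.card g.ker) =
      f.range.index * g.range.index * Nat.card (f.comp g).ker := by
  have e1 : (f.comp g).range.index = (g.range ⊔ f.ker).index * f.range.index := by
    have h1 : (f.comp g).range ≤ f.range := by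
      rintro _ ⟨x, rfl⟩
      exact ⟨g x, rfl⟩
    rw [← AddSubgroup.relIndex_mul_index h1]
    congr 1
    have h2 : (f.comp g).range = g.range.map f := by
      rw [AddMonoidHom.range_eq_map, AddMonoidHom.range_eq_map, AddSubgroup.map_map]
    rw [h2, AddMonoidHom.range_eq_map f, AddSubgroup.relIndex_map_map, top_sup_eq,
      AddSubgroup.relIndex_top_right]
  have e2 : g.range.index = (g.range ⊔ f.ker).index * (g.range ⊓ f.ker).relIndex f.ker := by
    rw [← AddSubgroup.relIndex_mul_index (le_sup_left : g.range ≤ g.range ⊔ f.ker), mul_comm]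
    congr 1
    rw [sup_comm, AddSubgroup.relIndex_sup_right, AddSubgroup.inf_relIndex_right]
  have e3 : Nat.card f.ker = Nat.card (g.range ⊓ f.ker : AddSubgroup B) *
      (g.range ⊓ f.ker).relIndex f.ker := by
    rw [← AddSubgroup.relIndex_bot_left f.ker, ← AddSubgroup.relIndex_bot_left (g.range ⊓ f.ker),
      AddSubgroup.relIndex_mul_relIndex _ _ _ bot_le inf_le_right]
  have e4 : Nat.card (f.comp g).ker = Nat.card g.ker * Nat.card (g.range ⊓ f.ker : AddSubgroup B) := by
    have h1 : g.ker ≤ (f.comp g).ker := by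
      intro x hx
      rw [AddMonoidHom.mem_ker] at hx ⊢
      rw [AddMonoidHom.comp_apply, hx, map_zero]
    rw [← AddSubgroup.relIndex_bot_left (f.comp g).ker,
      ← AddSubgroup.relIndex_mul_relIndex ⊥ g.ker _ bot_le h1, AddSubgroup.relIndex_bot_left]
    congr 1
    have h2 : (f.comp g).ker.map g = g.range ⊓ f.ker := by
      ext x
      constructor
      · rintro ⟨y, hy, rfl⟩
        exact ⟨⟨y, rfl⟩, hy⟩
      · rintro ⟨⟨y, rfl⟩, hy⟩
        exact ⟨y, hy, rfl⟩
    rw [← h2, ← AddSubgroup.relIndex_bot_left, ← (AddSubgroup.map_eq_bot_iff g.ker).mpr le_rfl,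
      AddSubgroup.relIndex_map_map, sup_idem, sup_eq_left.mpr h1]
  rw [e1, e4, e2, e3]
  ring

theorem ker_comp_ne_zero (f g : B →+ B) (hf : Nat.card f.ker ≠ 0) (hg : Nat.card g.ker ≠ 0) :
    Nat.card (f.comp g).ker ≠ 0 := by
  have h1 : g.ker ≤ (f.comp g).ker := by
    intro x hx
    rw [AddMonoidHom.mem_ker] at hx ⊢
    rw [AddMonoidHom.comp_apply, hx, map_zero]
  rw [← AddSubgroup.relIndex_bot_left (f.comp g).ker,
    ← AddSubgroup.relIndex_mul_relIndex ⊥ g.ker _ bot_le h1, AddSubgroup.relIndex_bot_left]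
  refine mul_ne_zero hg ?_
  have h2 : (f.comp g).ker.map g ≤ f.ker := by
    rintro _ ⟨y, hy, rfl⟩
    exact hy
  have h3 : g.ker.relIndex (f.comp g).ker = Nat.card ((f.comp g).ker.map g) := by
    rw [← AddSubgroup.relIndex_bot_left, ← (AddSubgroup.map_eq_bot_iff g.ker).mpr le_rfl,
      AddSubgroup.relIndex_map_map, sup_idem, sup_eq_left.mpr h1]
  rw [h3]
  have : Finite f.ker := Nat.finite_of_card_ne_zero hf
  have : Finite ((f.comp g).ker.map g) := Set.Finite.subset (Set.toFinite (f.ker : Set B)) h2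
  exact Nat.card_pos.ne'

end qmul

theorem cyc_dvd {p : ℕ} (hp : p.Prime) :
    ∃ Q : ℤ[X], ∏ i ∈ Finset.range (p - 1), (1 - X ^ (i + 1) : ℤ[X]) =
      (p : ℤ[X]) + Q * ∑ i ∈ Finset.range p, X ^ i := by
  have := Fact.mk hp
  rw [← cyclotomic_prime]
  have hμ := Complex.isPrimitiveRoot_exp p hp.ne_zero
  have h1 : cyclotomic p ℤ ∣ ∏ i ∈ Finset.range (p - 1), (1 - X ^ (i + 1) : ℤ[X]) - (p : ℤ[X]) := by
    rw [cyclotomic_eq_minpoly hμ hp.pos]
    apply minpoly.isIntegrallyClosed_dvd (hμ.isIntegral hp.pos)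
    have h2 : IsPrimitiveRoot (Complex.exp (2 * Real.pi * Complex.I / p)) (p - 1 + 1) := by
      rwa [Nat.sub_add_cancel hp.pos]
    have h3 := h2.prod_one_sub_pow_eq_order
    rw [map_sub, map_prod, map_natCast]
    simp only [map_sub, map_one, map_pow, aeval_X]
    rw [h3, ← Nat.cast_add_one, Nat.sub_add_cancel hp.pos, sub_self]
  obtain ⟨Q, hQ⟩ := h1
  exact ⟨Q, by rw [mul_comm, ← hQ]; ring⟩

/-- Index of the norms in the invariants for an endomorphism `s` with `s ^ p = 1` of an abelian
group, when the kernel of the norm is the image of `1 - s`. -/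
theorem herbrand {p : ℕ} (hp : p.Prime) {A : Type} [AddCommGroup A] (s : AddMonoid.End A)
    (hs : s ^ p = 1) (N : AddMonoid.End A) (hN : N = ∑ i ∈ Finset.range p, s ^ i)
    (h90 : ∀ g, N g = 0 → ∃ z, g = z - s z) (I : AddSubgroup A) (hI : ∀ g, g ∈ I ↔ s g = g)
    {α ρ : ℕ} (hα : (I.map (p • (1 : AddMonoid.End A))).relIndex I = p ^ α)
    (hρ : ((⊤ : AddSubgroup A).map (p • (1 : AddMonoid.End A))).index = p ^ ρ)
    (htors : Nat.card {g : A // p • g = 0} = p) (htors' : ∀ g : A, p • g = 0 → s g = g) :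
    (((⊤ : AddSubgroup A).map N).relIndex I) ^ (p - 1) * p ^ (ρ + (p - 1)) = p ^ (p * α) := by
  classical
  -- notation
  let D : A →+ A := (1 - s : AddMonoid.End A)
  let P : A →+ A := (p • (1 : AddMonoid.End A) : AddMonoid.End A)
  let N' : A →+ A := N
  have hD : ∀ x, D x = x - s x := fun x => rfl
  have hP : ∀ x, P x = p • x := fun x => rfl
  have hsI : ∀ x, s x = x → ∀ i : ℕ, (s ^ i) x = x := by
    intro x hx i
    induction i with
    | zero => rfl
    | succ i ih => rw [pow_succ, AddMonoid.End.coe_mul, Function.comp_apply, hx, ih]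
  have hNapp : ∀ x, N x = ∑ i ∈ Finset.range p, (s ^ i) x := by
    intro x
    rw [hN]
    exact AddMonoidHom.finsetSum_apply _ _ _
  have hNI : ∀ x ∈ I, N x = p • x := by
    intro x hx
    rw [hNapp, Finset.sum_congr rfl fun i _ => hsI x ((hI x).mp hx) i, Finset.sum_const,
      Finset.card_range]
  have hND : ∀ x, N (D x) = 0 := by
    have h1 : N * (1 - s) = 0 := by
      rw [hN, geom_sum_mul_neg, hs, sub_self]
    intro x
    exact DFunLike.congr_fun h1 x
  have hDN : ∀ x, D (N x) = 0 := by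
    have h1 : (1 - s) * N = 0 := by
      rw [hN, mul_neg_geom_sum, hs, sub_self]
    intro x
    exact DFunLike.congr_fun h1 x
  have hDP : ∀ x, D (P x) = P (D x) := fun x => by rw [hP, hP, map_nsmul]
  set K : AddSubgroup A := N'.ker with hK
  have hKD : K = (⊤ : AddSubgroup A).map D := by
    ext x
    constructor
    · intro hx
      obtain ⟨z, hz⟩ := h90 x hx
      exact ⟨z, trivial, by rw [hD]; exact hz.symm⟩
    · rintro ⟨z, -, rfl⟩
      exact hND z
  have hID : D.ker = I := by
    ext x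
    rw [AddMonoidHom.mem_ker, hI, hD, sub_eq_zero, eq_comm]
  set T : AddSubgroup A := P.ker with hT
  have hTI : T ≤ I := fun x hx => (hI x).mpr (htors' x hx)
  have hTK : T ≤ K := fun x hx => by
    change N x = 0
    rw [hNI x (hTI hx)]
    exact hx
  have hTc : Nat.card T = p := htors
  have hIP : I.map P = I.map N' := by
    ext x
    constructor
    · rintro ⟨y, hy, rfl⟩
      exact ⟨y, hy, hNI y hy⟩
    · rintro ⟨y, hy, rfl⟩
      exact ⟨y, hy, (hNI y hy).symm⟩
  have hNtop : (⊤ : AddSubgroup A).map N' ≤ I := by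
    rintro _ ⟨x, -, rfl⟩
    rw [← hID]
    exact hDN x
  -- part A
  set k := (I ⊔ K).index with hk
  have hA : k * ((⊤ : AddSubgroup A).map N').relIndex I = p ^ α := by
    have h1 : (I.map N').relIndex ((⊤ : AddSubgroup A).map N') = k := by
      rw [AddSubgroup.relIndex_map_map, top_sup_eq, AddSubgroup.relIndex_top_right]
    rw [← h1, AddSubgroup.relIndex_mul_relIndex _ _ _ (AddSubgroup.map_mono le_top) hNtop, ← hIP]
    exact hα
  have hkD : (K.map D).relIndex K = k := by
    nth_rewrite 2 [hKD]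
    rw [AddSubgroup.relIndex_map_map, top_sup_eq, AddSubgroup.relIndex_top_right, hID, sup_comm]
  -- part B
  have hB : (K.map P).relIndex K * p ^ α = p ^ ρ * p := by
    have h1 : ((⊤ : AddSubgroup A).map P).index = p ^ ρ := hρ
    have h2 : (K.map P).relIndex K = ((⊤ : AddSubgroup A).map P ⊔ I).index := by
      have h3 : K.map P = ((⊤ : AddSubgroup A).map P).map D := by
        rw [hKD, AddSubgroup.map_map, AddSubgroup.map_map]
        congr 1
        ext x
        exact (hDP x).symm
      rw [h3]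
      nth_rewrite 1 [hKD]
      rw [AddSubgroup.relIndex_map_map, top_sup_eq, AddSubgroup.relIndex_top_right, hID]
    have h4 : ((⊤ : AddSubgroup A).map P).relIndex ((⊤ : AddSubgroup A).map P ⊔ I) =
        ((⊤ : AddSubgroup A).map P ⊓ I).relIndex I := by
      rw [sup_comm, AddSubgroup.relIndex_sup_right, AddSubgroup.inf_relIndex_right]
    have h5 : (I.map P).relIndex ((⊤ : AddSubgroup A).map P ⊓ I) = p := by
      have h6 : (I.comap P).map P = (⊤ : AddSubgroup A).map P ⊓ I := by
        rw [AddSubgroup.map_comap_eq, AddMonoidHom.range_eq_map]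
      have h7 : I ≤ I.comap P := fun x hx => AddSubgroup.nsmul_mem _ hx p
      rw [← h6, AddSubgroup.relIndex_map_map, sup_eq_left.mpr hTI, sup_eq_left.mpr (hTI.trans h7)]
      have h8 : (I.map D).relIndex ((I.comap P).map D) = I.relIndex (I.comap P) := by
        rw [AddSubgroup.relIndex_map_map, hID, sup_idem, sup_eq_left.mpr h7]
      have h9 : I.map D = ⊥ := (AddSubgroup.map_eq_bot_iff I).mpr hID.ge
      have h10 : (I.comap P).map D = T := by
        ext x
        constructor
        · rintro ⟨y, hy, rfl⟩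
          change P (D y) = 0
          rw [← hDP]
          rw [← hID] at hy
          exact hy
        · intro hx
          have hx' := hTK hx
          rw [hKD] at hx'
          obtain ⟨y, -, rfl⟩ := hx'
          refine ⟨y, ?_, rfl⟩
          rw [← hID]
          change D (P y) = 0
          rw [hDP]
          exact hx
      rw [← h8, h9, h10, AddSubgroup.relIndex_bot_left, hTc]
    have h11 : (I.map P).relIndex ((⊤ : AddSubgroup A).map P ⊓ I) *
        ((⊤ : AddSubgroup A).map P ⊓ I).relIndex I = p ^ α := by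
      rw [AddSubgroup.relIndex_mul_relIndex _ _ _ _ inf_le_right]
      · exact hα
      · refine le_inf (AddSubgroup.map_mono le_top) ?_
        rintro _ ⟨y, hy, rfl⟩
        exact AddSubgroup.nsmul_mem _ hy p
    have h12 := AddSubgroup.relIndex_mul_index
      (le_sup_left : (⊤ : AddSubgroup A).map P ≤ (⊤ : AddSubgroup A).map P ⊔ I)
    rw [h1, h4] at h12
    rw [h5] at h11
    rw [h2, ← h12, ← h11]
    ring
  -- part C
  have hsK : ∀ x ∈ K, s x ∈ K := by
    intro x hx
    change N (s x) = 0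
    have h1 : N * s = s * N := by
      rw [hN, Finset.sum_mul, Finset.mul_sum]
      exact Finset.sum_congr rfl fun i _ => (pow_mul_comm' s i)
    have h2 := DFunLike.congr_fun h1 x
    change N (s x) = s (N x) at h2
    rw [h2, show N x = 0 from hx, map_zero]
  let s' : AddMonoid.End K :=
    { toFun := fun x => ⟨s x, hsK x x.2⟩
      map_zero' := Subtype.ext (by simp)
      map_add' := fun x y => Subtype.ext (by simp) }
  have hs'v : ∀ x : K, ((s' x : K) : A) = s x := fun x => rfl
  have hs'pow : ∀ (i : ℕ) (x : K), (((s' ^ i) x : K) : A) = (s ^ i) x := by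
    intro i
    induction i with
    | zero => intro x; rfl
    | succ i ih =>
      intro x
      rw [pow_succ, pow_succ, AddMonoid.End.coe_mul, AddMonoid.End.coe_mul, Function.comp_apply,
        Function.comp_apply, ih, hs'v]
  have hs'p : s' ^ p = 1 := by
    ext x
    rw [hs'pow, hs]
    rfl
  have hs'N : ∑ i ∈ Finset.range p, s' ^ i = 0 := by
    ext x
    have h1 : (∑ i ∈ Finset.range p, s' ^ i) x = ∑ i ∈ Finset.range p, (s' ^ i) x :=
      AddMonoidHom.finsetSum_apply _ _ _
    rw [h1, AddSubgroup.val_finsetSum, Finset.sum_congr rfl fun i _ => hs'pow i x, ← hNapp]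
    exact x.2
  let f : ℕ → AddMonoid.End K := fun i => aeval s' (1 - X ^ (i + 1) : ℤ[X])
  have hf : ∀ i, f i = 1 - s' ^ (i + 1) := fun i => by simp [f]
  have hf0 : ∀ i, i + 1 < p → (∃ U, f i = f 0 * U) ∧ (∃ U, f i = U * f 0) ∧
      (∃ V, f 0 = f i * V) ∧ (∃ V, f 0 = V * f i) := by
    intro i hi
    have hcop : Nat.Coprime (i + 1) p :=
      (Nat.coprime_of_lt_prime (Nat.succ_ne_zero i) hi hp).symm
    obtain ⟨j, hj⟩ : ∃ j, (i + 1) * j % p = 1 := by
      obtain ⟨j, hj⟩ := Nat.exists_mul_mod_eq_one_of_coprime hcop hp.one_lt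
      exact ⟨j, hj.2⟩
    have hsj : s' ^ ((i + 1) * j) = s' := by
      rw [← Nat.div_add_mod ((i + 1) * j) p, pow_add, pow_mul, hs'p, one_pow, hj, one_mul, pow_one]
    have h1 : f 0 * ∑ l ∈ Finset.range (i + 1), s' ^ l = f i := by
      rw [hf, hf, zero_add, pow_one, mul_neg_geom_sum]
    have h2 : (∑ l ∈ Finset.range (i + 1), s' ^ l) * f 0 = f i := by
      rw [hf, hf, zero_add, pow_one, geom_sum_mul_neg]
    have h3 : f i * ∑ l ∈ Finset.range j, (s' ^ (i + 1)) ^ l = f 0 := by
      rw [hf, hf, zero_add, pow_one, mul_neg_geom_sum, ← pow_mul, hsj]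
    have h4 : (∑ l ∈ Finset.range j, (s' ^ (i + 1)) ^ l) * f i = f 0 := by
      rw [hf, hf, zero_add, pow_one, geom_sum_mul_neg, ← pow_mul, hsj]
    exact ⟨⟨_, h1.symm⟩, ⟨_, h2.symm⟩, ⟨_, h3.symm⟩, ⟨_, h4.symm⟩⟩
  have hrange_le : ∀ (u v w : AddMonoid.End K), u = v * w →
      AddMonoidHom.range (u : K →+ K) ≤ AddMonoidHom.range (v : K →+ K) := by
    rintro _ v w rfl _ ⟨x, rfl⟩
    exact ⟨w x, rfl⟩
  have hker_le : ∀ (u v w : AddMonoid.End K), u = v * w →
      AddMonoidHom.ker (w : K →+ K) ≤ AddMonoidHom.ker (u : K →+ K) := by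
    rintro _ v w rfl x hx
    change v (w x) = 0
    rw [show w x = 0 from hx, map_zero]
  have hfr : ∀ i, i + 1 < p → AddMonoidHom.range (f i : K →+ K) = AddMonoidHom.range (f 0 : K →+ K) := by
    intro i hi
    obtain ⟨⟨U, h1⟩, ⟨U', h2⟩, ⟨V, h3⟩, ⟨V', h4⟩⟩ := hf0 i hi
    exact le_antisymm (hrange_le _ _ _ h1) (hrange_le _ _ _ h3)
  have hfk : ∀ i, i + 1 < p → AddMonoidHom.ker (f i : K →+ K) = AddMonoidHom.ker (f 0 : K →+ K) := by
    intro i hi
    obtain ⟨⟨U, h1⟩, ⟨U', h2⟩, ⟨V, h3⟩, ⟨V', h4⟩⟩ := hf0 i hi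
    exact le_antisymm (hker_le _ _ _ h4) (hker_le _ _ _ h2)
  -- the index and the kernel of `f 0`
  have hconv : ∀ (u : AddMonoid.End K) (v : A →+ A), (∀ x : K, ((u x : K) : A) = v x) →
      (AddMonoidHom.range (u : K →+ K)).index = (K.map v).relIndex K ∧
      Nat.card (AddMonoidHom.ker (u : K →+ K)) = Nat.card (v.ker ⊓ K : AddSubgroup A) := by
    intro u v huv
    constructor
    · rw [AddSubgroup.relIndex]
      congr 1
      ext x
      rw [AddSubgroup.mem_addSubgroupOf]
      constructor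
      · rintro ⟨y, rfl⟩
        exact ⟨y, y.2, (huv y).symm⟩
      · rintro ⟨y, hy, hyx⟩
        exact ⟨⟨y, hy⟩, Subtype.ext ((huv _).trans hyx)⟩
    · have h1 : AddMonoidHom.ker (u : K →+ K) = (v.ker ⊓ K).addSubgroupOf K := by
        ext x
        rw [AddSubgroup.mem_addSubgroupOf, AddSubgroup.mem_inf, AddMonoidHom.mem_ker,
          AddMonoidHom.mem_ker]
        constructor
        · intro h
          refine ⟨?_, x.2⟩
          rw [← huv]
          change ((u x : K) : A) = 0
          rw [show u x = 0 from h]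
          rfl
        · rintro ⟨h, -⟩
          rw [← huv] at h
          exact Subtype.ext h
      rw [h1]
      exact Nat.card_congr (AddSubgroup.addSubgroupOfEquivOfLe inf_le_right).toEquiv
  have hf0c := hconv (f 0) D (fun x => by
    rw [hf, zero_add, pow_one]
    change ((x - s' x : K) : A) = x - s x
    rw [AddSubgroup.coe_sub, hs'v])
  rw [hkD, hID] at hf0c
  have hIK : I ⊓ K = T := by
    ext x
    constructor
    · rintro ⟨h1, h2⟩
      have h3 := hNI x h1
      rw [show N x = 0 from h2] at h3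
      exact h3.symm
    · intro h
      exact ⟨hTI h, hTK h⟩
  rw [hIK, hTc] at hf0c
  -- the product
  have hprod : ∀ n, n ≤ p - 1 →
      (AddMonoidHom.range (aeval s' (∏ i ∈ Finset.range n, (1 - X ^ (i + 1) : ℤ[X])) : K →+ K)).index *
        p ^ n = k ^ n * Nat.card (AddMonoidHom.ker
          (aeval s' (∏ i ∈ Finset.range n, (1 - X ^ (i + 1) : ℤ[X])) : K →+ K)) ∧
      Nat.card (AddMonoidHom.ker
          (aeval s' (∏ i ∈ Finset.range n, (1 - X ^ (i + 1) : ℤ[X])) : K →+ K)) ≠ 0 := by
    intro n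
    induction n with
    | zero =>
      intro _
      rw [Finset.range_zero, Finset.prod_empty, map_one, pow_zero, pow_zero, mul_one, one_mul]
      have h1 : AddMonoidHom.range ((1 : AddMonoid.End K) : K →+ K) = ⊤ :=
        AddMonoidHom.range_eq_top.mpr fun x => ⟨x, rfl⟩
      have h2 : AddMonoidHom.ker ((1 : AddMonoid.End K) : K →+ K) = ⊥ :=
        (AddMonoidHom.ker_eq_bot_iff _).mpr fun x y h => h
      rw [h1, h2]
      simp
    | succ n ih =>
      intro hn
      obtain ⟨ih1, ih2⟩ := ih (by omega)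
      have hn1 : n + 1 < p := by omega
      rw [Finset.prod_range_succ, map_mul]
      set R : K →+ K := aeval s' (∏ i ∈ Finset.range n, (1 - X ^ (i + 1) : ℤ[X])) with hR
      have e : (aeval s' (∏ i ∈ Finset.range n, (1 - X ^ (i + 1) : ℤ[X])) *
        aeval s' (1 - X ^ (n + 1) : ℤ[X]) : AddMonoid.End K) = R.comp (f n : K →+ K) := rfl
      rw [e]
      have h1 := q_mul R (f n : K →+ K)
      have h2 : Nat.card (AddMonoidHom.ker (f n : K →+ K)) = p := by rw [hfk n hn1, hf0c.2]
      have h3 : (AddMonoidHom.range (f n : K →+ K)).index = k := by rw [hfr n hn1, hf0c.1]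
      rw [h2, h3] at h1
      refine ⟨?_, ker_comp_ne_zero _ _ ih2 (by rw [h2]; exact hp.ne_zero)⟩
      apply Nat.eq_of_mul_eq_mul_right (Nat.pos_of_ne_zero ih2)
      calc _ = ((R.comp (f n : K →+ K)).range.index * (Nat.card R.ker * p)) * p ^ n := by ring
        _ = (R.range.index * k * Nat.card (R.comp (f n : K →+ K)).ker) * p ^ n := by rw [h1]
        _ = (R.range.index * p ^ n) * (k * Nat.card (R.comp (f n : K →+ K)).ker) := by ring
        _ = _ := by rw [ih1]; ring
  obtain ⟨Q, hQ⟩ := cyc_dvd hp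
  have hC := (hprod (p - 1) le_rfl).1
  have hPp : (aeval s' (∏ i ∈ Finset.range (p - 1), (1 - X ^ (i + 1) : ℤ[X]))) =
      ((p : ℕ) : AddMonoid.End K) := by
    rw [hQ, map_add, map_mul, map_natCast, map_sum]
    simp only [map_pow, aeval_X]
    rw [hs'N, mul_zero, add_zero]
  rw [hPp] at hC
  have hPc := hconv ((p : ℕ) : AddMonoid.End K) P (fun x => by
    rw [AddMonoid.End.natCast_apply, AddSubgroup.coe_nsmul, hP])
  rw [hPc.1, hPc.2, ← hT, inf_eq_left.mpr hTK, hTc] at hC
  -- combine
  set n := ((⊤ : AddSubgroup A).map N').relIndex I with hn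
  change n ^ (p - 1) * p ^ (ρ + (p - 1)) = p ^ (p * α)
  set c := (K.map P).relIndex K
  have hp0 : 0 < p := hp.pos
  have h1 : k ^ (p - 1) * p ^ α = p ^ (ρ + (p - 1)) := by
    apply Nat.eq_of_mul_eq_mul_right hp0
    calc _ = (k ^ (p - 1) * p) * p ^ α := by ring
      _ = (c * p ^ α) * p ^ (p - 1) := by rw [← hC]; ring
      _ = _ := by rw [hB]; ring
  rw [← h1]
  calc _ = (k * n) ^ (p - 1) * p ^ α := by rw [mul_pow]; ring
    _ = p ^ (α * (p - 1) + α) := by rw [hA]; ring
    _ = _ := by
      congr 1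
      obtain ⟨q, rfl⟩ : ∃ q, p = q + 1 := ⟨p - 1, (Nat.sub_add_cancel hp0).symm⟩
      rw [Nat.add_sub_cancel]
      ring

end Vale.Agent.P011.ArP
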