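import Vale.Agent.P011.ArP.KumExt
import Vale.Agent.P011.ArP.Herb
import Vale.Agent.P011.Arith.QuadAlg

/-!
The norm index of the `S`-units of a Kummer extension of degree `p`.
-/

open NumberField IsDedekindDomain Polynomial

set_option linter.unusedSectionVars false

namespace Vale.Agent.P011.ArP

open Vale.Agent.P011.Arith (Z0 ov exists_above exists_below below_unique ov_finite val_eq_one_iff
  ordv exp_ordv ordv_finite finite_ne_one mem_unit exists_conj)

/-- The multiplicative form of `herbrand`. -/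
theorem herbrand_mul {p : ℕ} (hp : p.Prime) {G : Type} [CommGroup G] (s n : G →* G)
    (hs : ∀ g, s^[p] g = g) (hn : ∀ g, n g = ∏ i ∈ Finset.range p, s^[i] g)
    (h90 : ∀ g, n g = 1 → ∃ z, g = z / s z) (I : Subgroup G) (hI : ∀ g, g ∈ I ↔ s g = g)
    {α ρ : ℕ} (hα : (I.map (powMonoidHom p)).relIndex I = p ^ α)
    (hρ : (powMonoidHom p : G →* G).range.index = p ^ ρ)
    (htors : Nat.card {g : G // g ^ p = 1} = p) (htors' : ∀ g : G, g ^ p = 1 → s g = g) :
    (n.range.relIndex I) ^ (p - 1) * p ^ (ρ + (p - 1)) = p ^ (p * α) := by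
  let s' : AddMonoid.End (Additive G) := MonoidHom.toAdditive s
  let n' : AddMonoid.End (Additive G) := MonoidHom.toAdditive n
  have hpow : ∀ (i : ℕ) (g : Additive G), (s' ^ i) g = Additive.ofMul (s^[i] g.toMul) := by
    intro i
    induction i with
    | zero => intro g; rfl
    | succ i ih =>
      intro g
      rw [pow_succ, AddMonoid.End.coe_mul, Function.comp_apply, ih]
      rfl
  have h1 : s' ^ p = 1 := by
    ext g
    rw [hpow, hs]
    rfl
  have h2 : n' = ∑ i ∈ Finset.range p, s' ^ i := by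
    ext g
    have e1 : (∑ i ∈ Finset.range p, s' ^ i) g = ∑ i ∈ Finset.range p, (s' ^ i) g :=
      AddMonoidHom.finsetSum_apply _ _ _
    rw [e1, Finset.sum_congr rfl fun i _ => hpow i g]
    have e2 : n' g = Additive.ofMul (n g.toMul) := rfl
    rw [e2, hn, ofMul_prod]
  have hP : ∀ J : Subgroup G, (J.toAddSubgroup).map (p • (1 : AddMonoid.End (Additive G))) =
      (J.map (powMonoidHom p)).toAddSubgroup := by
    intro J
    ext g
    constructor
    · rintro ⟨x, hx, rfl⟩
      exact ⟨x.toMul, hx, rfl⟩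
    · rintro ⟨x, hx, rfl⟩
      exact ⟨Additive.ofMul x, hx, rfl⟩
  have hT : (⊤ : AddSubgroup (Additive G)) = (⊤ : Subgroup G).toAddSubgroup := rfl
  have h3 := herbrand hp s' h1 n' h2 (fun g hg => by
    obtain ⟨z, hz⟩ := h90 g.toMul hg
    exact ⟨Additive.ofMul z, hz⟩) I.toAddSubgroup (fun g => hI g.toMul) (α := α) (ρ := ρ)
    (by rw [hP, Subgroup.relIndex_toAddSubgroup]; exact hα)
    (by rw [hT, hP, Subgroup.index_toAddSubgroup, ← MonoidHom.range_eq_map]; exact hρ)
    (by exact htors) (fun g hg => htors' g.toMul hg)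
  have h4 : ((⊤ : AddSubgroup (Additive G)).map n').relIndex I.toAddSubgroup =
      n.range.relIndex I := by
    rw [← Subgroup.relIndex_toAddSubgroup]
    congr 1
    ext g
    constructor
    · rintro ⟨x, -, rfl⟩
      exact ⟨x.toMul, rfl⟩
    · rintro ⟨x, rfl⟩
      exact ⟨Additive.ofMul x, trivial, rfl⟩
  rw [h4] at h3
  exact h3

theorem prod_shift {A : Type} [CommGroup A] {n : ℕ} {g : ℕ → A} (hg : g n = g 0) :
    ∏ i ∈ Finset.range n, g (i + 1) = ∏ i ∈ Finset.range n, g i := by
  have h := (Finset.prod_range_succ' g n).symm.trans (Finset.prod_range_succ g n)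
  rw [hg] at h
  exact mul_right_cancel h

theorem exp_sum {ι : Type} (s : Finset ι) (f : ι → ℤ) :
    (WithZero.exp (∑ i ∈ s, f i) : Z0) = ∏ i ∈ s, WithZero.exp (f i) := by
  classical
  induction s using Finset.induction_on with
  | empty => rw [Finset.sum_empty, Finset.prod_empty, WithZero.exp_zero]
  | insert a s ha ih => rw [Finset.sum_insert ha, Finset.prod_insert ha, WithZero.exp_add, ih]

variable {p : ℕ} {F : Type} [Field F] [NumberField F] {E : Type} [Field E] [NumberField E]
  [Algebra F E]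

/-- Elements with prescribed orders outside `S`. -/
theorem exists_ord {S : Set (HeightOneSpectrum (𝓞 F))} (hS : Pr p S)
    (n : HeightOneSpectrum (𝓞 F) → ℤ) (hn : {v | v ∉ S ∧ n v ≠ 0}.Finite) :
    ∃ f : Fˣ, ∀ v ∉ S, v.valuation F (f : F) = WithZero.exp (n v) := by
  classical
  have hπ : ∀ v : HeightOneSpectrum (𝓞 F), ∃ π : Fˣ, v ∉ S →
      v.valuation F (π : F) = WithZero.exp (-1) ∧
      ∀ v' ∉ S, v' ≠ v → v'.valuation F (π : F) = 1 := by
    intro v
    by_cases hv : v ∈ S
    · exact ⟨1, fun h => absurd hv h⟩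
    · obtain ⟨β, h2⟩ := hS.2 v hv
      exact ⟨β, fun _ => h2⟩
  choose π hπ using hπ
  refine ⟨∏ v ∈ hn.toFinset, π v ^ (-n v), ?_⟩
  intro v hv
  have e1 : ((∏ v ∈ hn.toFinset, π v ^ (-n v) : Fˣ) : F) =
      ∏ v ∈ hn.toFinset, (π v : F) ^ (-n v) := by simp
  rw [e1, map_prod]
  by_cases hvT : v ∈ hn.toFinset
  · rw [Finset.prod_eq_single_of_mem v hvT]
    · rw [map_zpow₀, (hπ v hv).1, ← WithZero.exp_zsmul]
      congr 1
      simp
    · intro v' hv' hne
      have hv'S : v' ∉ S := (hn.mem_toFinset.mp hv').1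
      rw [map_zpow₀, (hπ v' hv'S).2 v hv hne.symm, one_zpow]
  · rw [Finset.prod_eq_one]
    · have : n v = 0 := by
        by_contra h1
        exact hvT (hn.mem_toFinset.mpr ⟨hv, h1⟩)
      rw [this, WithZero.exp_zero]
    · intro v' hv'
      have hv'S : v' ∉ S := (hn.mem_toFinset.mp hv').1
      have hne : v ≠ v' := fun h => hvT (h ▸ hv')
      rw [map_zpow₀, (hπ v' hv'S).2 v hv hne, one_zpow]

/-- The inclusion of the unit groups. -/
noncomputable def io (F E : Type) [Field F] [Field E] [Algebra F E] : Fˣ →* Eˣ :=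
  Units.map (algebraMap F E : F →* E)

theorem io_val (x : Fˣ) : ((io F E x : Eˣ) : E) = algebraMap F E (x : F) := rfl

theorem io_injective : Function.Injective (io F E) :=
  Units.map_injective (algebraMap F E).injective

/-- The automorphism on the unit group. -/
noncomputable def su (σ : E ≃ₐ[F] E) : Eˣ →* Eˣ := Units.map (σ.toAlgHom : E →* E)

theorem su_val (σ : E ≃ₐ[F] E) (z : Eˣ) : ((su σ z : Eˣ) : E) = σ z := rfl

theorem su_iter (σ : E ≃ₐ[F] E) (i : ℕ) (z : Eˣ) : (((su σ)^[i] z : Eˣ) : E) = (σ ^ i) z := by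
  induction i with
  | zero => rfl
  | succ i ih => rw [Function.iterate_succ_apply', su_val, ih, pow_succ']; rfl

/-- The norm as an endomorphism. -/
noncomputable def nm (p : ℕ) (σ : E ≃ₐ[F] E) : Eˣ →* Eˣ where
  toFun z := ∏ i ∈ Finset.range p, (su σ)^[i] z
  map_one' := Finset.prod_eq_one fun i _ => iterate_map_one _ _
  map_mul' z z' := by
    rw [← Finset.prod_mul_distrib]
    exact Finset.prod_congr rfl fun i _ => iterate_map_mul _ _ _ _

theorem nm_apply (σ : E ≃ₐ[F] E) (z : Eˣ) : nm p σ z = ∏ i ∈ Finset.range p, (su σ)^[i] z := rfl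

theorem nm_val (σ : E ≃ₐ[F] E) (z : Eˣ) :
    ((nm p σ z : Eˣ) : E) = ∏ i ∈ Finset.range p, (σ ^ i) z := by
  rw [nm_apply, Units.coe_prod]
  exact Finset.prod_congr rfl fun i _ => su_iter σ i z

variable {M : Mu p F} {a : Fˣ} {θ : E} {σ : E ≃ₐ[F] E}

/-- Everything the set `S` has to satisfy. -/
structure Big (p : ℕ) (a : Fˣ) (E : Type) [Field E] [NumberField E] [Algebra F E]
    (S : Set (HeightOneSpectrum (𝓞 F))) : Prop where
  fin : S.Finite
  pr : Pr p S
  prE : Pr p (ov E S)
  unit : a ∈ S.unit F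

theorem io_mem_unit {S : Set (HeightOneSpectrum (𝓞 F))} {x : Fˣ} :
    io F E x ∈ (ov E S).unit E ↔ x ∈ S.unit F := by
  rw [mem_unit, mem_unit]
  constructor
  · intro h v hv
    obtain ⟨w, hw⟩ := exists_above (E := E) v
    refine (val_eq_one_iff hw _).mp (h w ?_)
    rintro ⟨v', hv', h'⟩
    have : v = v' := HeightOneSpectrum.ext (hw.symm.trans h')
    exact hv (this ▸ hv')
  · intro h w hw
    obtain ⟨v, hv⟩ := exists_below (F := F) w
    exact (val_eq_one_iff hv _).mpr (h v fun hvS => hw ⟨v, hvS, hv⟩)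

/-- The conjugate primes. -/
theorem conj_prime (σ : E ≃ₐ[F] E) (S : Set (HeightOneSpectrum (𝓞 F)))
    (w : HeightOneSpectrum (𝓞 E)) (i : ℕ) : ∃ w' : HeightOneSpectrum (𝓞 E),
      (∀ z, w'.valuation E z = w.valuation E ((σ ^ i) z)) ∧ (w ∈ ov E S ↔ w' ∈ ov E S) := by
  obtain ⟨w', h1, h2⟩ := exists_conj_pow σ w i
  refine ⟨w', h1, ?_⟩
  constructor
  · rintro ⟨v, hv, h⟩
    exact ⟨v, hv, (h2 v).mp h⟩
  · rintro ⟨v, hv, h⟩
    exact ⟨v, hv, (h2 v).mpr h⟩

theorem su_mem {S : Set (HeightOneSpectrum (𝓞 F))} {m : Eˣ} (hm : m ∈ (ov E S).unit E) :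
    su σ m ∈ (ov E S).unit E := by
  intro w hw
  obtain ⟨w', h3, h4⟩ := conj_prime σ S w 1
  rw [su_val, ← pow_one σ, ← h3]
  exact hm w' fun h => hw (h4.mpr h)

theorem su_iter_mem {S : Set (HeightOneSpectrum (𝓞 F))} {m : Eˣ} (hm : m ∈ (ov E S).unit E)
    (i : ℕ) : (su σ)^[i] m ∈ (ov E S).unit E := by
  induction i with
  | zero => exact hm
  | succ i ih =>
    rw [Function.iterate_succ_apply']
    exact su_mem ih

theorem nm_mem_unit {S : Set (HeightOneSpectrum (𝓞 F))} {m : Eˣ} (hm : m ∈ (ov E S).unit E) :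
    nm p σ m ∈ (ov E S).unit E :=
  Subgroup.prod_mem _ fun i _ => su_iter_mem hm i

theorem KD.nm_su (Q : KD M a E θ σ) (z : Eˣ) : nm p σ (su σ z) = nm p σ z := by
  rw [nm_apply, nm_apply]
  have h1 : ∀ i, (su σ)^[i] (su σ z) = (su σ)^[i + 1] z := fun i => rfl
  rw [Finset.prod_congr rfl fun i _ => h1 i]
  refine prod_shift (g := fun i => (su σ)^[i] z) ?_
  ext
  rw [su_iter, Q.sigma_pow]
  rfl

/-- The norm is a value of the norm form. -/
theorem KD.nm_NF (Q : KD M a E θ σ) (m : Eˣ) : ∃ b ∈ NF M a, nm p σ m = io F E b := by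
  obtain ⟨h, hh⟩ := Q.exists_poly (m : E)
  have h1 : ((nm p σ m : Eˣ) : E) = algebraMap F E ((M.nf h).eval (a : F)) := by
    rw [nm_val, M.aeval_nf h Q.pow]
    refine Finset.prod_congr rfl fun i _ => ?_
    rw [hh, ← Q.sig_theta, Polynomial.aeval_algHom_apply (σ ^ i : E ≃ₐ[F] E)]
  have h0 : (M.nf h).eval (a : F) ≠ 0 := by
    intro h
    rw [h, map_zero] at h1
    exact (nm p σ m).ne_zero h1
  exact ⟨Units.mk0 _ h0, ⟨h, rfl⟩, Units.ext h1⟩

theorem KD.nm_mem (Q : KD M a E θ σ) {S : Set (HeightOneSpectrum (𝓞 F))} {m : Eˣ}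
    (hm : m ∈ (ov E S).unit E) : nm p σ m ∈ ((NF M a ⊓ S.unit F).map (io F E)) := by
  obtain ⟨b, hb, h⟩ := Q.nm_NF m
  refine ⟨b, ⟨hb, ?_⟩, h.symm⟩
  refine (io_mem_unit (E := E)).mp ?_
  rw [← h]
  exact nm_mem_unit hm

/-- The orders of the element which corrects a norm. -/
theorem sup_shift {P : ℕ → ℤ} {n : ℕ} (hn : 0 < n) (h : P n = P 0) :
    (Finset.range n).sup' (Finset.nonempty_range_iff.mpr hn.ne') (fun j => P (j + 1)) =
      (Finset.range n).sup' (Finset.nonempty_range_iff.mpr hn.ne') P := by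
  apply eq_of_forall_ge_iff
  intro k
  rw [Finset.sup'_le_iff, Finset.sup'_le_iff]
  constructor
  · intro h1 j hj
    rcases Nat.eq_zero_or_pos j with rfl | hj0
    · rw [← h]
      have := h1 (n - 1) (Finset.mem_range.mpr (by omega))
      rwa [Nat.sub_add_cancel hn] at this
    · have := h1 (j - 1) (Finset.mem_range.mpr (by
        rw [Finset.mem_range] at hj
        omega))
      rwa [Nat.sub_add_cancel hj0] at this
  · intro h1 j hj
    rw [Finset.mem_range] at hj
    rcases Nat.lt_or_ge (j + 1) n with h2 | h2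
    · exact h1 (j + 1) (Finset.mem_range.mpr h2)
    · have h3 : j + 1 = n := by omega
      rw [h3, h]
      exact h1 0 (Finset.mem_range.mpr hn)

/-- `S`-units which are norms are norms of `S`-units. -/
theorem KD.map_nm (Q : KD M a E θ σ) {S : Set (HeightOneSpectrum (𝓞 F))} (hS : Pr p (ov E S)) :
    ((ov E S).unit E).map (nm p σ) = (NF M a ⊓ S.unit F).map (io F E) := by
  apply le_antisymm
  · rintro _ ⟨m, hm, rfl⟩
    exact Q.nm_mem hm
  · rintro _ ⟨b, ⟨⟨h, hb⟩, hbS⟩, rfl⟩
    have hp0 := M.prime.pos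
    set z : E := aeval θ h with hz
    have hN : ∏ i ∈ Finset.range p, (σ ^ i) z = algebraMap F E b := by
      rw [hb, M.aeval_nf h Q.pow]
      refine Finset.prod_congr rfl fun i _ => ?_
      rw [hz, ← Q.sig_theta, Polynomial.aeval_algHom_apply (σ ^ i : E ≃ₐ[F] E)]
    have hz0 : z ≠ 0 := by
      intro h0
      rw [Finset.prod_eq_zero (Finset.mem_range.mpr hp0) (show (σ ^ 0) z = 0 from h0)] at hN
      exact b.ne_zero ((algebraMap F E).injective (hN.symm.trans (map_zero _).symm))
    let y : Eˣ := Units.mk0 z hz0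
    have hy : nm p σ y = io F E b := by
      ext
      rw [nm_val, io_val]
      exact hN
    have hne := Finset.nonempty_range_iff.mpr hp0.ne'
    let P : HeightOneSpectrum (𝓞 E) → ℕ → ℤ := fun w j =>
      ∑ i ∈ Finset.range j, ordv w (((su σ)^[i] y : Eˣ) : E)
    let m : HeightOneSpectrum (𝓞 E) → ℤ := fun w => (Finset.range p).sup' hne (P w)
    have hfin : {w | w ∉ ov E S ∧ m w ≠ 0}.Finite := by
      refine (Set.Finite.biUnion (Finset.finite_toSet (Finset.range p)) fun i _ =>
        ordv_finite ((su σ)^[i] y)).subset ?_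
      rintro w ⟨_, hw⟩
      by_contra hcon
      apply hw
      simp only [Set.mem_iUnion, Set.mem_ofPred_eq, not_exists, not_not] at hcon
      have h1 : ∀ j ∈ Finset.range p, P w j = 0 := by
        intro j hj
        refine Finset.sum_eq_zero fun i hi => hcon i ?_
        rw [Finset.mem_range] at hi hj
        rw [Finset.mem_coe, Finset.mem_range]
        omega
      change (Finset.range p).sup' hne (P w) = 0
      rw [Finset.sup'_congr hne rfl h1]
      exact Finset.sup'_const hne 0
    obtain ⟨f, hf⟩ := exists_ord hS m hfin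
    refine ⟨y * su σ f / f, ?_, ?_⟩
    · intro w hw
      obtain ⟨w', h3, h4⟩ := conj_prime σ S w 1
      have hw' : w' ∉ ov E S := fun h => hw (h4.mpr h)
      rw [pow_one] at h3
      have h5 : P w p = 0 := by
        have h6 : w.valuation E ((nm p σ y : Eˣ) : E) = 1 := by
          rw [hy]
          exact (io_mem_unit (E := E)).mpr hbS w hw
        have h7 : ∀ (s : Finset ℕ), w.valuation E ((∏ i ∈ s, (su σ)^[i] y : Eˣ) : E) =
            WithZero.exp (∑ i ∈ s, ordv w (((su σ)^[i] y : Eˣ) : E)) := by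
          intro s
          rw [exp_sum, Units.coe_prod, map_prod]
          exact Finset.prod_congr rfl fun i _ => exp_ordv w _
        rw [nm_apply, h7, ← WithZero.exp_zero] at h6
        exact WithZero.exp_injective h6
      have h6 : m w' = m w - ordv w z := by
        have h7 : ∀ j, P w' j = P w (j + 1) - ordv w z := by
          intro j
          change _ = (∑ i ∈ Finset.range (j + 1), ordv w (((su σ)^[i] y : Eˣ) : E)) - _
          rw [Finset.sum_range_succ']
          change _ = _ + ordv w z - ordv w z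
          rw [add_sub_cancel_right]
          refine Finset.sum_congr rfl fun i _ => ?_
          rw [Function.iterate_succ_apply', su_val]
          unfold ordv
          rw [h3]
        have h8 : m w' = (Finset.range p).sup' hne (fun j => P w (j + 1) - ordv w z) :=
          Finset.sup'_congr hne rfl fun j _ => h7 j
        have h9 : P w 0 = 0 := Finset.sum_range_zero _
        rw [h8, show m w = (Finset.range p).sup' hne (P w) from rfl,
          ← sup_shift hp0 (h5.trans h9.symm)]
        apply eq_of_forall_ge_iff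
        intro k
        rw [Finset.sup'_le_iff, sub_le_iff_le_add, Finset.sup'_le_iff]
        exact forall₂_congr fun j _ => sub_le_iff_le_add
      have e1 : w.valuation E z = WithZero.exp (ordv w z) := exp_ordv w y
      rw [Units.val_div_eq_div_val, Units.val_mul, map_div₀, map_mul, su_val, ← h3, hf w hw,
        hf w' hw', h6, show ((y : Eˣ) : E) = z from rfl, e1, ← WithZero.exp_add, ← WithZero.exp_sub,
        ← WithZero.exp_zero]
      congr 1
      omega
    · rw [_root_.map_div, map_mul, Q.nm_su, mul_div_assoc, div_self', mul_one, hy]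

/-- Hilbert 90 for the `S`-units. -/
theorem KD.hilbert90 (Q : KD M a E θ σ) {S : Set (HeightOneSpectrum (𝓞 F))} (hB : Big p a E S)
    {n : Eˣ} (hn : n ∈ (ov E S).unit E) (h1 : nm p σ n = 1) :
    ∃ z ∈ (ov E S).unit E, n = z / su σ z := by
  classical
  have := Q.fd
  have := Q.galois
  have hcyc : ∀ g : E ≃ₐ[F] E, g ∈ Subgroup.zpowers σ := by
    intro g
    obtain ⟨i, rfl⟩ := Q.pow_bij.2 g
    exact Subgroup.npow_mem_zpowers σ i
  have hcyc' : IsCyclic (E ≃ₐ[F] E) := ⟨⟨σ, hcyc⟩⟩
  have hN : Algebra.norm F (n : E) = 1 := by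
    apply (algebraMap F E).injective
    rw [Q.norm_eq, ← nm_val, h1, map_one, Units.val_one]
  obtain ⟨y, hy⟩ := groupCohomology.exists_div_of_norm_eq_one hcyc hN
  choose ab hab using fun v : HeightOneSpectrum (𝓞 F) => exists_above (E := E) v
  have habS : ∀ v ∉ S, ab v ∉ ov E S := by
    rintro v hv ⟨v', hv', h⟩
    have : v = v' := HeightOneSpectrum.ext ((hab v).symm.trans h)
    exact hv (this ▸ hv')
  have hσy0 : σ (y : E) ≠ 0 := (_root_.map_ne_zero σ).mpr y.ne_zero
  have hval : ∀ w ∉ ov E S, w.valuation E (σ y) = w.valuation E y := by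
    intro w hw
    have h : w.valuation E (y / σ y) = 1 := by rw [hy]; exact hn w hw
    rw [map_div₀, div_eq_one_iff_eq ((Valuation.ne_zero_iff _).mpr hσy0)] at h
    exact h.symm
  have hval' : ∀ w ∉ ov E S, ∀ i : ℕ, w.valuation E ((σ ^ i) y) = w.valuation E y := by
    intro w hw i
    induction i generalizing w with
    | zero => rfl
    | succ i ih =>
      obtain ⟨w', h3, h4⟩ := conj_prime σ S w 1
      rw [pow_one] at h3
      have hw' : w' ∉ ov E S := fun h => hw (h4.mpr h)
      rw [pow_succ', AlgEquiv.mul_apply, ← h3, ih w' hw', h3, hval w hw]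
  have hinj : Function.Injective ab := by
    intro v v' h
    apply HeightOneSpectrum.ext
    rw [← hab v, ← hab v', h]
  have hfin : {v | v ∉ S ∧ ordv (ab v) (y : E) ≠ 0}.Finite := by
    refine ((ordv_finite y).preimage hinj.injOn).subset ?_
    rintro v ⟨_, h⟩
    exact h
  obtain ⟨f, hf⟩ := exists_ord hB.pr (fun v => ordv (ab v) (y : E)) hfin
  refine ⟨y / io F E f, ?_, ?_⟩
  · intro w hw
    obtain ⟨v, hv⟩ := exists_below (F := F) w
    have hvS : v ∉ S := fun h => hw ⟨v, h, hv⟩
    have h2v : v.valuation F (p : F) = 1 := by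
      by_contra h
      exact hvS (hB.pr.1 v h)
    have hav := hB.unit v hvS
    rw [Units.val_div_eq_div_val, map_div₀, io_val, Q.val_unram hv h2v hav, hf v hvS,
      ← exp_ordv (ab v) y]
    have h3 : w.valuation E y = (ab v).valuation E y := by
      obtain ⟨i, hi⟩ := Q.transitive (hab v) hv
      rw [hi, hval' (ab v) (habS v hvS) i]
    rw [h3]
    exact div_self ((Valuation.ne_zero_iff _).mpr y.ne_zero)
  · ext
    rw [_root_.map_div, Units.val_div_eq_div_val, Units.val_div_eq_div_val, Units.val_div_eq_div_val,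
      su_val, su_val, io_val, AlgEquiv.commutes, ← hy]
    have hf0 : algebraMap F E f ≠ 0 := (_root_.map_ne_zero _).mpr f.ne_zero
    field_simp

/-- The number of `p`-th roots of unity in the `S`-units. -/
theorem card_tors (M : Mu p F) (T : Set (HeightOneSpectrum (𝓞 F))) :
    Nat.card {g : T.unit F // g ^ p = 1} = p := by
  have : NeZero p := ⟨M.prime.ne_zero⟩
  have e : {g : T.unit F // g ^ p = 1} ≃ rootsOfUnity p F :=
    { toFun := fun g => ⟨((g : T.unit F) : Fˣ), by
        rw [mem_rootsOfUnity]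
        exact congrArg Subtype.val g.2⟩
      invFun := fun u => ⟨⟨(u : Fˣ), fun v _ => by
        have h1 : ((u : Fˣ) : F) ^ p = 1 := by
          rw [← Units.val_pow_eq_pow_val, (mem_rootsOfUnity p _).mp u.2, Units.val_one]
        have h2 : v.valuation F ((u : Fˣ) : F) ^ p = 1 := by rw [← map_pow, h1, map_one]
        exact (pow_eq_one_iff_left M.prime.ne_zero).mp h2⟩, Subtype.ext u.2⟩
      left_inv := fun g => rfl
      right_inv := fun u => rfl }
  rw [Nat.card_congr e]
  exact M.prim.card_rootsOfUnity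

/-- The index formula. -/
theorem KD.index (Q : KD M a E θ σ) {S : Set (HeightOneSpectrum (𝓞 F))} (hB : Big p a E S) :
    (NF M a).relIndex (S.unit F) * p = p ^ tc M a S := by
  classical
  set U : Subgroup Eˣ := (ov E S).unit E with hU
  let s : U →* U := ((su σ).comp U.subtype).codRestrict U fun g => su_mem g.2
  have hsv : ∀ g : U, ((s g : U) : Eˣ) = su σ g := fun g => rfl
  have hsi : ∀ (i : ℕ) (g : U), ((s^[i] g : U) : Eˣ) = (su σ)^[i] g := by
    intro i g
    induction i with
    | zero => rfl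
    | succ i ih => rw [Function.iterate_succ_apply', Function.iterate_succ_apply', hsv, ih]
  let n : U →* U := ((nm p σ).comp U.subtype).codRestrict U fun g => nm_mem_unit g.2
  have hnv : ∀ g : U, ((n g : U) : Eˣ) = nm p σ g := fun g => rfl
  let I : Subgroup U :=
    { carrier := {g | s g = g}
      mul_mem' := fun {x y} hx hy => by
        change s (x * y) = x * y
        rw [map_mul, show s x = x from hx, show s y = y from hy]
      one_mem' := map_one s
      inv_mem' := fun {x} hx => by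
        change s x⁻¹ = x⁻¹
        rw [map_inv, show s x = x from hx] }
  have hI : ∀ g, g ∈ I ↔ s g = g := fun g => Iff.rfl
  have hImap : I.map U.subtype = (S.unit F).map (io F E) := by
    apply le_antisymm
    · rintro _ ⟨g, hg, rfl⟩
      have h1 : σ ((g : Eˣ) : E) = ((g : Eˣ) : E) := by
        rw [← su_val, ← hsv, (hI g).mp hg]
      obtain ⟨c, hc⟩ := Q.fixed h1
      have hc0 : c ≠ 0 := by
        rintro rfl
        rw [map_zero] at hc
        exact (g : Eˣ).ne_zero hc
      have h2 : io F E (Units.mk0 c hc0) = (g : Eˣ) := Units.ext hc.symm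
      refine ⟨Units.mk0 c hc0, ?_, h2⟩
      refine (io_mem_unit (E := E)).mp ?_
      rw [h2]
      exact g.2
    · rintro _ ⟨x, hx, rfl⟩
      refine ⟨⟨io F E x, io_mem_unit.mpr hx⟩, ?_, rfl⟩
      rw [SetLike.mem_coe, hI]
      apply Subtype.ext
      ext
      rw [hsv, su_val, io_val, AlgEquiv.commutes]
  have hnmap : n.range.map U.subtype = (NF M a ⊓ S.unit F).map (io F E) := by
    rw [← Q.map_nm hB.prE]
    ext x
    constructor
    · rintro ⟨_, ⟨g, rfl⟩, rfl⟩
      exact ⟨g, g.2, rfl⟩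
    · rintro ⟨g, hg, rfl⟩
      exact ⟨_, ⟨⟨g, hg⟩, rfl⟩, rfl⟩
  have hpmap : (I.map (powMonoidHom p)).map U.subtype = (Pw p F ⊓ S.unit F).map (io F E) := by
    have h1 : (I.map (powMonoidHom p)).map U.subtype = (I.map U.subtype).map (powMonoidHom p) := by
      rw [Subgroup.map_map, Subgroup.map_map]
      rfl
    rw [h1, hImap, Subgroup.map_map]
    ext x
    constructor
    · rintro ⟨y, hy, rfl⟩
      exact ⟨y ^ p, ⟨⟨y, rfl⟩, Subgroup.pow_mem _ hy p⟩, (map_pow _ _ _)⟩
    · rintro ⟨_, ⟨⟨y, rfl⟩, hy⟩, rfl⟩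
      refine ⟨y, ?_, (map_pow _ _ _).symm⟩
      intro v hv
      have h2 := hy v hv
      change v.valuation F ((y ^ p : Fˣ) : F) = 1 at h2
      rw [Units.val_pow_eq_pow_val, map_pow] at h2
      exact (pow_eq_one_iff_left M.prime.ne_zero).mp h2
  have hα : (I.map (powMonoidHom p)).relIndex I =
      p ^ (S.ncard + Fintype.card (InfinitePlace F)) := by
    rw [← Subgroup.relIndex_map_map_of_injective _ _ U.subtype_injective, hpmap, hImap,
      Subgroup.relIndex_map_map_of_injective _ _ io_injective, Subgroup.inf_relIndex_right]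
    exact Pw_relIndex_unit M S hB.fin
  have hρ : (powMonoidHom p : U →* U).range.index =
      p ^ ((ov E S).ncard + Fintype.card (InfinitePlace E)) :=
    pwIdx_Sunit (M.map E) (ov E S) (ov_finite hB.fin)
  have hmain := herbrand_mul M.prime s n
    (fun g => by
      apply Subtype.ext
      ext
      rw [hsi, su_iter, Q.sigma_pow])
    (fun g => by
      apply Subtype.ext
      rw [hnv, nm_apply, Subgroup.val_finsetProd]
      exact Finset.prod_congr rfl fun i _ => (hsi i g).symm)
    (fun g hg => by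
      obtain ⟨z, hz, h⟩ := Q.hilbert90 hB g.2 (congrArg Subtype.val hg)
      exact ⟨⟨z, hz⟩, Subtype.ext h⟩) I hI hα hρ (card_tors (M.map E) (ov E S))
    (fun g hg => by
      have : NeZero p := ⟨M.prime.ne_zero⟩
      have h1 : ((g : Eˣ) : E) ^ p = 1 := by
        have := congrArg (fun x : U => ((x : Eˣ) : E)) hg
        exact this
      obtain ⟨j, -, hj⟩ := (M.map E).prim.eq_pow_of_pow_eq_one h1
      apply Subtype.ext
      ext
      rw [hsv, su_val, ← hj, map_pow]
      congr 1
      exact AlgEquiv.commutes σ _)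
  have hidx : n.range.relIndex I = (NF M a).relIndex (S.unit F) := by
    rw [← Subgroup.relIndex_map_map_of_injective _ _ U.subtype_injective, hnmap, hImap,
      Subgroup.relIndex_map_map_of_injective _ _ io_injective, Subgroup.inf_relIndex_right]
  rw [hidx] at hmain
  set N := (NF M a).relIndex (S.unit F)
  have h1 := Q.card_ov hB.fin
  have h2 := Q.card_inf
  have hp0 : 0 < p := M.prime.pos
  have hp1 : p - 1 ≠ 0 := by
    have := M.prime.one_lt
    omega
  have h3 : (N * p) ^ (p - 1) = (p ^ tc M a S) ^ (p - 1) := by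
    apply Nat.eq_of_mul_eq_mul_right
      (show 0 < p ^ ((ov E S).ncard + Fintype.card (InfinitePlace E)) by positivity)
    calc _ = N ^ (p - 1) * p ^ ((ov E S).ncard + Fintype.card (InfinitePlace E) + (p - 1)) := by
          rw [mul_pow, pow_add]; ring
      _ = p ^ (p * (S.ncard + Fintype.card (InfinitePlace F))) := hmain
      _ = _ := by
        rw [← pow_mul, ← pow_add]
        congr 1
        rw [mul_add, ← h1, ← h2]
        ring
  exact Nat.pow_left_injective hp1 h3

theorem KD.good (Q : KD M a E θ σ) {S : Set (HeightOneSpectrum (𝓞 F))} (hB : Big p a E S) :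
    Good M a S where
  fin := hB.fin
  pr := hB.pr
  unit := hB.unit
  idx := Q.index hB
  split := by
    intro v hv hav
    obtain ⟨w, hw⟩ := exists_above (E := E) v
    have hov : ∀ {v' : HeightOneSpectrum (𝓞 F)} {w' : HeightOneSpectrum (𝓞 E)},
        w'.asIdeal.comap (algebraMap (𝓞 F) (𝓞 E)) = v'.asIdeal → v' ∉ S → w' ∉ ov E S := by
      rintro v' w' hw' hv' ⟨v'', hv'', h⟩
      have : v' = v'' := HeightOneSpectrum.ext (hw'.symm.trans h)
      exact hv' (this ▸ hv'')
    obtain ⟨ϖ, hϖ1, hϖ2⟩ := hB.prE.2 w (hov hw hv)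
    obtain ⟨b, hb, hbn⟩ := Q.nm_NF ϖ
    have hN : algebraMap F E (b : F) = ∏ i ∈ Finset.range p, (σ ^ i) (ϖ : E) := by
      rw [← nm_val, hbn, io_val]
    refine ⟨b, hb, ?_, ?_⟩
    · rw [← Q.val_split hw hav, hN, map_prod,
        Finset.prod_eq_single_of_mem 0 (Finset.mem_range.mpr M.prime.pos)]
      · exact hϖ1
      · intro i hi hi0
        obtain ⟨w', h3, h4⟩ := conj_prime σ S w i
        have hne : w' ≠ w := by
          rintro rfl
          refine Q.not_fixed hw hav (Q.val_fix_of_pow w' (i := i) ?_ fun z => (h3 z).symm)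
          intro hd
          exact absurd (Nat.le_of_dvd (Nat.pos_of_ne_zero hi0) hd)
            (not_le.mpr (Finset.mem_range.mp hi))
        rw [← h3, hϖ2 w' (fun h => hov hw hv (h4.mpr h)) hne]
    · intro v' hv' hne
      obtain ⟨w₁, hw₁⟩ := exists_above (E := E) v'
      rw [← val_eq_one_iff hw₁, hN, map_prod]
      refine Finset.prod_eq_one fun i _ => ?_
      obtain ⟨w', h3, h4⟩ := exists_conj_pow σ w₁ i
      have hw' := (h4 v').mp hw₁
      rw [← h3]
      refine hϖ2 w' (hov hw' hv') ?_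
      rintro rfl
      exact hne (HeightOneSpectrum.ext (hw'.symm.trans hw))

theorem exists_good (M : Mu p F) (a : Fˣ) (ha : a ∉ Pw p F) :
    ∃ S₁ : Set (HeightOneSpectrum (𝓞 F)), S₁.Finite ∧
      ∀ S, S₁ ⊆ S → S.Finite → Good M a S := by
  obtain ⟨E, _, _, _, θ, σ, Q⟩ := exists_kum M a ha
  obtain ⟨S₁, _, hS₁, hPr₁⟩ := exists_Pr (F := F) M.prime ∅ Set.finite_empty
  obtain ⟨S₂, _, hS₂, hPr₂⟩ := exists_Pr (F := E) M.prime ∅ Set.finite_empty
  choose be hbe using fun w : HeightOneSpectrum (𝓞 E) => exists_below (F := F) w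
  refine ⟨S₁ ∪ be '' S₂ ∪ {v | v.valuation F (a : F) ≠ 1},
    ((hS₁.union (hS₂.image _)).union (finite_ne_one a)), ?_⟩
  intro S hS hfin
  refine Q.good ⟨hfin, Pr.mono hPr₁ ?_, Pr.mono hPr₂ ?_, ?_⟩
  · exact (Set.subset_union_left.trans Set.subset_union_left).trans hS
  · intro w hw
    exact ⟨be w, hS (Or.inl (Or.inr ⟨w, hw, rfl⟩)), hbe w⟩
  · intro v hv
    by_contra h
    exact hv (hS (Or.inr h))

end Vale.Agent.P011.ArP
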