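import Vale.Agent.P011.ArP.LocA

/-!
Symmetry of the norm residue symbol, globally and locally.
-/

open NumberField IsDedekindDomain Polynomial

namespace Vale.Agent.P011.ArP

open Vale.Agent.P011.Arith (Z0)

section field

variable {p : ℕ} {F : Type} [Field F] (M : Mu p F)

/-- If `b` is a norm from the extension generated by a root of `a`, then `a` is a norm from the
extension generated by a root of `b`. -/
theorem mem_NF_symm {a b : Fˣ} (h : b ∈ NF M a) : a ∈ NF M b := by
  by_cases ha : a ∈ Pw p F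
  · exact Pw_le_NF M b ha
  by_cases hb : b ∈ Pw p F
  · rw [NF_eq_top M hb]
    exact Subgroup.mem_top a
  have hp0 : p ≠ 0 := M.prime.ne_zero
  have hirr : Irreducible (X ^ p - C (a : F)) :=
    X_pow_sub_C_irreducible_of_prime M.prime (not_pow_of_notMem ha hp0)
  have hirb : Irreducible (X ^ p - C (b : F)) :=
    X_pow_sub_C_irreducible_of_prime M.prime (not_pow_of_notMem hb hp0)
  have hfact : Fact (Irreducible (X ^ p - C (a : F))) := ⟨hirr⟩
  obtain ⟨g, hg⟩ := h
  let E := AdjoinRoot (X ^ p - C (a : F))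
  have hmonic : (X ^ p - C (a : F)).Monic := monic_X_pow_sub_C _ hp0
  have hdeg : Module.finrank F E = p := by
    rw [(AdjoinRoot.powerBasis hirr.ne_zero).finrank, AdjoinRoot.powerBasis_dim,
      natDegree_X_pow_sub_C]
  have hfd : FiniteDimensional F E := Module.finite_of_finrank_pos (by rw [hdeg]; exact M.prime.pos)
  let α : E := AdjoinRoot.root _
  have hα : α ^ p = algebraMap F E a := by
    have h1 : eval₂ (AdjoinRoot.of _) α (X ^ p - C (a : F)) = 0 := AdjoinRoot.eval₂_root _
    rw [eval₂_sub, eval₂_X_pow, eval₂_C] at h1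
    exact sub_eq_zero.mp h1
  have hα0 : α ≠ 0 := by
    intro h0
    rw [h0, zero_pow hp0] at hα
    exact a.ne_zero ((algebraMap F E).injective (hα.symm.trans (map_zero _).symm))
  -- the automorphism
  let σ : E →ₐ[F] E := AdjoinRoot.liftAlgHom (X ^ p - C (a : F)) (Algebra.ofId F E)
    (algebraMap F E M.ζ * α) (by
      rw [eval₂_sub, eval₂_X_pow, eval₂_C, mul_pow, hα, ← map_pow, M.zeta_pow, map_one, one_mul]
      exact sub_self _)
  have hσ : σ α = algebraMap F E M.ζ * α := AdjoinRoot.liftAlgHom_root _ _ _ _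
  have hσi : ∀ i : ℕ, (σ ^ i : E →ₐ[F] E) α = algebraMap F E (M.ζ ^ i) * α := by
    intro i
    induction i with
    | zero => rw [pow_zero, pow_zero, map_one, one_mul]; rfl
    | succ i ih =>
      rw [pow_succ, AlgHom.mul_apply, hσ, map_mul, ih, AlgHom.commutes, pow_succ, map_mul]
      ring
  have hσp : ∀ x : E, (σ ^ p : E →ₐ[F] E) x = x := by
    intro x
    have h1 : (σ ^ p : E →ₐ[F] E) = AlgHom.id F E := by
      apply AdjoinRoot.algHom_ext
      rw [AlgHom.id_apply]
      change (σ ^ p : E →ₐ[F] E) α = α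
      rw [hσi, M.zeta_pow, map_one, one_mul]
    rw [h1, AlgHom.id_apply]
  obtain ⟨z, hz⟩ : ∃ z : E, z = aeval α g := ⟨_, rfl⟩
  have hnorm : ∏ i ∈ Finset.range p, (σ ^ i : E →ₐ[F] E) z = algebraMap F E b := by
    rw [hg, M.aeval_nf g hα]
    refine Finset.prod_congr rfl fun i _ => ?_
    rw [hz, ← hσi, aeval_algHom_apply]
  let β : E →ₗ[F] E := (LinearMap.mulLeft F z).comp σ.toLinearMap
  have hβ : ∀ x, β x = z * σ x := fun x => rfl
  have hβi : ∀ (i : ℕ) (x : E), (β ^ i) x =
      (∏ j ∈ Finset.range i, (σ ^ j : E →ₐ[F] E) z) * (σ ^ i : E →ₐ[F] E) x := by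
    intro i
    induction i with
    | zero => intro x; simp
    | succ i ih =>
      intro x
      rw [pow_succ, Module.End.mul_apply, ih, hβ, Finset.prod_range_succ, map_mul, pow_succ σ i,
        AlgHom.mul_apply]
      ring
  have hβp : β ^ p = algebraMap F (Module.End F E) b := by
    ext x
    rw [hβi, hnorm, hσp, Module.algebraMap_end_apply, Algebra.smul_def]
  have hβb : aeval β (X ^ p - C (b : F)) = 0 := by
    rw [map_sub, map_pow, aeval_X, aeval_C, hβp, sub_self]
  -- the orbit map is bijective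
  obtain ⟨c, hc⟩ : ∃ c : F[X], aeval β c 1 = α := by
    let φ : degreeLT F p →ₗ[F] E :=
      { toFun := fun f => aeval β (f : F[X]) 1
        map_add' := fun f f' => by
          rw [Submodule.coe_add, map_add, LinearMap.add_apply]
        map_smul' := fun r f => by
          rw [Submodule.coe_smul, map_smul, LinearMap.smul_apply, RingHom.id_apply] }
    have hφ : ∀ f : degreeLT F p, φ f = aeval β (f : F[X]) 1 := fun f => rfl
    have hfr : Module.finrank F (degreeLT F p) = Module.finrank F E := by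
      rw [(degreeLTEquiv F p).finrank_eq, Module.finrank_fintype_fun_eq_card, Fintype.card_fin,
        hdeg]
    have : FiniteDimensional F (degreeLT F p) :=
      Module.finite_of_finrank_pos (by rw [hfr, hdeg]; exact M.prime.pos)
    have hinj : Function.Injective φ := by
      rw [← LinearMap.ker_eq_bot, LinearMap.ker_eq_bot']
      rintro ⟨f, hf⟩ hf0
      rw [hφ] at hf0
      by_contra hne
      have hf1 : f ≠ 0 := fun h => hne (Subtype.ext h)
      have hcop : IsCoprime (X ^ p - C (b : F)) f := by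
        rw [hirb.coprime_iff_not_dvd]
        intro hd
        have h1 := degree_le_of_dvd hd hf1
        rw [degree_X_pow_sub_C M.prime.pos] at h1
        exact absurd (mem_degreeLT.mp hf) (not_lt.mpr h1)
      obtain ⟨u, v, huv⟩ := hcop
      have h1 := congrArg (fun q => aeval β q 1) huv
      simp only [map_add, map_mul, map_one, hβb, mul_zero, zero_add, Module.End.mul_apply, hf0,
        map_zero, Module.End.one_apply] at h1
      exact zero_ne_one h1
    obtain ⟨f, hf⟩ := (LinearMap.injective_iff_surjective_of_finrank_eq_finrank hfr).mp hinj α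
    exact ⟨f, hf⟩
  -- commutation
  have hcomm : ∀ x, α * β x = M.ζ ^ (p - 1) • β (α * x) := by
    intro x
    rw [hβ, hβ, map_mul, hσ, Algebra.smul_def]
    have h1 : algebraMap F E (M.ζ ^ (p - 1)) * algebraMap F E M.ζ = 1 := by
      rw [← map_mul, ← pow_succ, Nat.sub_add_cancel M.prime.one_le, M.zeta_pow, map_one]
    calc α * (z * σ x) = (algebraMap F E (M.ζ ^ (p - 1)) * algebraMap F E M.ζ) *
          (α * (z * σ x)) := by rw [h1, one_mul]
      _ = _ := by ring
  have hcommi : ∀ (i : ℕ) (x : E), α * (β ^ i) x = (M.ζ ^ (p - 1)) ^ i • (β ^ i) (α * x) := by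
    intro i
    induction i with
    | zero => intro x; simp
    | succ i ih =>
      intro x
      rw [pow_succ, Module.End.mul_apply, ih, hcomm, map_smul, smul_smul, ← pow_succ,
        Module.End.mul_apply]
  have hcommf : ∀ (f : F[X]) (x : E),
      α * (aeval β f) x = (aeval β (f.comp (C (M.ζ ^ (p - 1)) * X))) (α * x) := by
    intro f x
    induction f using Polynomial.induction_on' with
    | add f f' hf hf' =>
      rw [map_add, LinearMap.add_apply, mul_add, hf, hf', add_comp, map_add, LinearMap.add_apply]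
    | monomial n r =>
      have haev : ∀ (r : F) (x : E), aeval β (C r * X ^ n) x = r • (β ^ n) x := by
        intro r x
        rw [aeval_mul, aeval_C, aeval_X_pow, Module.End.mul_apply, Module.algebraMap_end_apply]
      have hcomp : (C r * X ^ n : F[X]).comp (C (M.ζ ^ (p - 1)) * X) =
          C (r * (M.ζ ^ (p - 1)) ^ n) * X ^ n := by
        simp only [mul_comp, C_comp, X_pow_comp, mul_pow, C_mul, C_pow, mul_assoc]
      rw [← C_mul_X_pow_eq_monomial, hcomp, haev, haev, mul_smul_comm, hcommi, smul_smul]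
  have hpow : ∀ n : ℕ, α ^ n = (aeval β (∏ i ∈ Finset.range n,
      c.comp (C ((M.ζ ^ (p - 1)) ^ i) * X))) 1 := by
    intro n
    induction n with
    | zero => simp
    | succ n ih =>
      have h1 : (∏ i ∈ Finset.range n, c.comp (C ((M.ζ ^ (p - 1)) ^ i) * X)).comp
          (C (M.ζ ^ (p - 1)) * X) * c = ∏ i ∈ Finset.range (n + 1),
            c.comp (C ((M.ζ ^ (p - 1)) ^ i) * X) := by
        rw [Finset.prod_range_succ', prod_comp, pow_zero, C_1, one_mul, comp_X]
        congr 1
        refine Finset.prod_congr rfl fun i _ => ?_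
        rw [comp_assoc]
        congr 1
        rw [mul_comp, C_comp, X_comp, pow_succ _ i, C_mul]
        ring
      rw [pow_succ', ih, hcommf, mul_one, ← h1, map_mul, Module.End.mul_apply, hc]
  have hfin := hpow p
  rw [M.cj_inv, ← M.expand_nf, expand_aeval, hβp, aeval_algebraMap_apply_eq_algebraMap_eval,
    Module.algebraMap_end_apply, hα, Algebra.smul_def, mul_one] at hfin
  exact ⟨c, (algebraMap F E).injective hfin⟩

/-! ### Continuity -/

theorem exists_cont (w : Valuation F Z0) (G : F[X]) (x : F) {γ : Z0} (hγ : γ ≠ 0) :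
    ∃ δ : Z0, δ ≠ 0 ∧ ∀ y : F, w (y - x) < δ → w (G.eval y - G.eval x) < γ := by
  induction G using Polynomial.induction_on' generalizing γ with
  | add f g hf hg =>
    obtain ⟨δ, hδ, h1⟩ := hf hγ
    obtain ⟨δ', hδ', h2⟩ := hg hγ
    refine ⟨min δ δ', ?_, fun y hy => ?_⟩
    · rcases min_choice δ δ' with h | h <;> rw [h] <;> assumption
    · rw [eval_add, eval_add, add_sub_add_comm]
      exact w.map_add_lt (h1 y (lt_of_lt_of_le hy (min_le_left _ _)))
        (h2 y (lt_of_lt_of_le hy (min_le_right _ _)))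
  | monomial n r =>
    induction n generalizing γ with
    | zero =>
      refine ⟨1, one_ne_zero, fun y _ => ?_⟩
      simpa using zero_lt_iff.mpr hγ
    | succ n ih =>
      set A : Z0 := max 1 (max (w x) (w (r * x ^ n))) with hA
      have hA1 : 1 ≤ A := le_max_left _ _
      have hA0 : A ≠ 0 := (lt_of_lt_of_le zero_lt_one hA1).ne'
      have hγA : γ / A ≠ 0 := div_ne_zero hγ hA0
      obtain ⟨δ, hδ, h1⟩ := ih (γ := min (γ / A) 1) (by
        rcases min_choice (γ / A) 1 with h | h <;> rw [h]
        · exact hγA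
        · exact one_ne_zero)
      refine ⟨min δ (min 1 (γ / A)), ?_, fun y hy => ?_⟩
      · rcases min_choice δ (min 1 (γ / A)) with h | h <;> rw [h]
        · exact hδ
        · rcases min_choice 1 (γ / A) with h | h <;> rw [h]
          · exact one_ne_zero
          · exact hγA
      · have hy1 := lt_of_lt_of_le hy (min_le_left _ _)
        have hy2 := lt_of_lt_of_le hy ((min_le_right _ _).trans (min_le_left _ _))
        have hy3 := lt_of_lt_of_le hy ((min_le_right _ _).trans (min_le_right _ _))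
        have h2 := h1 y hy1
        simp only [eval_monomial] at h2 ⊢
        have hwy : w y ≤ A := by
          have e : y = (y - x) + x := by ring
          rw [e]
          exact w.map_add_le (hy2.le.trans hA1) ((le_max_left _ _).trans (le_max_right _ _))
        have e : r * y ^ (n + 1) - r * x ^ (n + 1) =
            (r * y ^ n - r * x ^ n) * y + (r * x ^ n) * (y - x) := by ring
        rw [e]
        refine w.map_add_lt ?_ ?_
        · rw [map_mul]
          have h3 := lt_of_lt_of_le h2 (min_le_left _ _)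
          calc w (r * y ^ n - r * x ^ n) * w y ≤ w (r * y ^ n - r * x ^ n) * A :=
                mul_le_mul_right hwy _
            _ < γ / A * A := mul_lt_mul_of_pos_right h3 (zero_lt_iff.mpr hA0)
            _ = γ := div_mul_cancel₀ _ hA0
        · rw [map_mul]
          calc w (r * x ^ n) * w (y - x) ≤ A * w (y - x) :=
                mul_le_mul_left ((le_max_right _ _).trans (le_max_right _ _)) _
            _ < A * (γ / A) := mul_lt_mul_of_pos_left hy3 (zero_lt_iff.mpr hA0)
            _ = γ := mul_div_cancel₀ _ hA0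

variable {M} {w : Valuation F Z0}

/-- Symmetry of the local norm residue symbol. -/
theorem mem_symm {a b : Fˣ} (h : b ∈ NF M a ⊔ LS M w) : a ∈ NF M b ⊔ LS M w := by
  obtain ⟨n, hn, m, hm, hnm⟩ := Subgroup.mem_sup.mp h
  -- `b = n * m`, so `a` is a norm for `n = b * μ`
  have hμ : m⁻¹ ∈ LS M w := (LS M w).inv_mem hm
  have hn' : n = b * m⁻¹ := by rw [← hnm, mul_inv_cancel_right]
  have h1 := mem_NF_symm M hn
  rw [hn'] at h1
  obtain ⟨g, hg⟩ := h1
  have ha0 : (a : F) ≠ 0 := a.ne_zero
  have hb0 : (b : F) ≠ 0 := b.ne_zero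
  set μ : Fˣ := m⁻¹ with hμdef
  have hμ0 : (μ : F) ≠ 0 := μ.ne_zero
  have hγ : w (M.l ^ p) * w (a : F) ≠ 0 :=
    mul_ne_zero (M.val_lp_ne w) ((Valuation.ne_zero_iff w).mpr ha0)
  obtain ⟨δ, hδ, hc⟩ := exists_cont w (M.nf g) ((b * μ : Fˣ) : F) hγ
  have hbμ : w ((b * μ : Fˣ) : F) ≠ 0 := (Valuation.ne_zero_iff w).mpr (b * μ).ne_zero
  obtain ⟨l, hl⟩ := LS_newton' hμ (γ := min (w (M.l ^ p)) (δ / w ((b * μ : Fˣ) : F))) (by
    rcases min_choice (w (M.l ^ p)) (δ / w ((b * μ : Fˣ) : F)) with h | h <;> rw [h]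
    · exact M.val_lp_ne w
    · exact div_ne_zero hδ hbμ)
  have hl0 : (l : F) ≠ 0 := l.ne_zero
  have hl1 := lt_of_lt_of_le hl (min_le_left _ _)
  have hl2 := lt_of_lt_of_le hl (min_le_right _ _)
  -- `μ = l ^ p * (1 + e)`
  set e : F := (μ : F) / (l : F) ^ p - 1 with he
  have hμe : (μ : F) = (l : F) ^ p * (1 + e) := by rw [he]; field_simp; ring
  have h1e : w (1 + e) = 1 := w.map_one_add_of_lt (lt_of_lt_of_le hl1 (M.val_lp_le w))
  have hne : (1 + e : F) ≠ 0 := by
    intro h; rw [h, map_zero] at h1e; exact zero_ne_one h1e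
  have hclose : w (((b * l ^ p : Fˣ) : F) - ((b * μ : Fˣ) : F)) < δ := by
    have e1 : ((b * l ^ p : Fˣ) : F) - ((b * μ : Fˣ) : F) =
        -(((b * μ : Fˣ) : F) * (e / (1 + e))) := by
      rw [Units.val_mul, Units.val_mul, Units.val_pow_eq_pow_val, hμe]
      field_simp
      ring
    rw [e1, Valuation.map_neg, map_mul, map_div₀, h1e, div_one, mul_comm]
    rwa [lt_div_iff₀ (zero_lt_iff.mpr hbμ)] at hl2
  have h2 := hc _ hclose
  rw [← hg] at h2
  -- the value near `a`
  set A : F := (M.nf g).eval ((b * l ^ p : Fˣ) : F) with hA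
  have hAa : w (A / a - 1) < w (M.l ^ p) := by
    rw [div_sub_one ha0, map_div₀, div_lt_iff₀ (zero_lt_iff.mpr ((Valuation.ne_zero_iff w).mpr ha0))]
    exact h2
  have hA1 : w (A / a) = 1 := by
    have := w.map_one_add_of_lt (lt_of_lt_of_le hAa (M.val_lp_le w))
    rwa [add_sub_cancel] at this
  have hA0 : A ≠ 0 := by
    intro h; rw [h, zero_div, map_zero] at hA1; exact zero_ne_one hA1
  have hAN : Units.mk0 A hA0 ∈ NF M b := by
    rw [← NF_mul_pow M b l]
    exact ⟨g, by rw [Units.val_mk0]⟩
  have h3 : Units.mk0 A hA0 * a⁻¹ ∈ LS M w := by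
    apply LS_of_close
    rw [Units.val_mul, Units.val_mk0, Units.val_inv_eq_inv_val, ← div_eq_mul_inv]
    exact hAa
  have h4 : a = Units.mk0 A hA0 * (Units.mk0 A hA0 * a⁻¹)⁻¹ := by
    rw [mul_inv_rev, inv_inv, mul_comm, mul_assoc, inv_mul_cancel, mul_one]
  rw [h4]
  exact Subgroup.mul_mem_sup hAN ((LS M w).inv_mem h3)

/-- If `a` is a local `p`-th power, everything is a local norm. -/
theorem NF_sup_of_mem {a : Fˣ} (ha : a ∈ LS M w) : NF M a ⊔ LS M w = ⊤ := by
  rw [eq_top_iff]
  intro b _
  exact mem_symm (Subgroup.mem_sup_right ha)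

end field

end Vale.Agent.P011.ArP
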