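import Vale.Agent.P011.ArP.LocU3

/-!
The nontrivial unramified class at a place, and a non-norm for every class that is not a local
`p`-th power.
-/

open NumberField IsDedekindDomain Polynomial

namespace Vale.Agent.P011.ArP

open Vale.Agent.P011.Arith (Z0 exists_residue finite_residue mk_eq_zero_iff)

variable {p : ℕ} {F : Type} [Field F] [NumberField F]

theorem val_eq_exp (v : HeightOneSpectrum (𝓞 F)) (x : Fˣ) :
    ∃ k : ℤ, v.valuation F (x : F) = WithZero.exp k :=
  ⟨_, (WithZero.exp_log ((Valuation.ne_zero_iff _).mpr x.ne_zero)).symm⟩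

theorem exp_pow_eq (k : ℤ) (n : ℕ) : (WithZero.exp k : Z0) ^ n = WithZero.exp (n * k) := by
  rw [← WithZero.exp_nsmul, nsmul_eq_mul]

/-- There are elements of every value. -/
theorem exists_val (v : HeightOneSpectrum (𝓞 F)) (k : ℤ) :
    ∃ x : Fˣ, v.valuation F (x : F) = WithZero.exp k := by
  obtain ⟨π, hπ⟩ := v.valuation_exists_uniformizer F
  have h0 : π ≠ 0 := by
    intro h
    rw [h, map_zero] at hπ
    exact WithZero.exp_ne_zero hπ.symm
  refine ⟨Units.mk0 π h0 ^ (-k), ?_⟩
  rw [Units.val_zpow_eq_zpow_val, Units.val_mk0, map_zpow₀, hπ, ← WithZero.exp_zsmul]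
  simp

variable (M : Mu p F)

/-- There is a nontrivial unramified class. -/
theorem exists_unr (v : HeightOneSpectrum (𝓞 F)) : ∃ ε : Fˣ, Unr M (v.valuation F) ε := by
  have hple : v.valuation F (p : F) ≤ 1 := val_nat_le _ p
  rcases eq_or_lt_of_le hple with hp | hp
  · obtain ⟨a, ha, hna⟩ := unit_index M v hp
    refine ⟨a, ha, ?_, hna⟩
    rw [val_lp_eq_one M hp]
    exact (v.valuation F).map_sub_le ha.le (by rw [map_one])
  · have : v.asIdeal.IsMaximal := v.isMaximal
    have : Finite (𝓞 F ⧸ v.asIdeal) := finite_residue v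
    let _ : Field (𝓞 F ⧸ v.asIdeal) := Ideal.Quotient.field v.asIdeal
    have hl : v.valuation F M.l < 1 := by
      rw [M.val_p] at hp
      exact (pow_lt_one_iff (by have := M.prime.two_le; omega)).mp hp
    have hlp : v.valuation F (M.l ^ p) < 1 := by
      rw [map_pow]; exact pow_lt_one' hl M.prime.ne_zero
    have hvlp : v.valuation F (M.l ^ p) ≠ 0 := M.val_lp_ne _
    have hni : ¬ Function.Injective (fun t : 𝓞 F ⧸ v.asIdeal => t ^ p - t) := by
      intro h
      have h1 := @h 0 1 (by simp [zero_pow M.prime.ne_zero])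
      exact zero_ne_one h1
    have hns : ¬ Function.Surjective (fun t : 𝓞 F ⧸ v.asIdeal => t ^ p - t) := fun h =>
      hni (Finite.injective_iff_surjective.mpr h)
    rw [Function.Surjective] at hns
    push Not at hns
    obtain ⟨c0, hc0⟩ := hns
    obtain ⟨c, rfl⟩ := Ideal.Quotient.mk_surjective c0
    have hlc : v.valuation F (M.l ^ p * algebraMap (𝓞 F) F c) ≤ v.valuation F (M.l ^ p) := by
      rw [map_mul]
      calc _ ≤ v.valuation F (M.l ^ p) * 1 := mul_le_mul_right (v.valuation_le_one c) _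
        _ = _ := mul_one _
    have hv1 : v.valuation F (1 + M.l ^ p * algebraMap (𝓞 F) F c) = 1 :=
      (v.valuation F).map_one_add_of_lt (lt_of_le_of_lt hlc hlp)
    have h0 : 1 + M.l ^ p * algebraMap (𝓞 F) F c ≠ 0 := by
      intro h
      rw [h, map_zero] at hv1
      exact zero_ne_one hv1
    refine ⟨Units.mk0 _ h0, hv1, ?_, ?_⟩
    · rw [Units.val_mk0, add_sub_cancel_left]
      exact hlc
    · rintro ⟨y, hy⟩
      rw [Units.val_mk0] at hy
      have hy0 : (y : F) ≠ 0 := y.ne_zero
      have h1 : v.valuation F ((1 + M.l ^ p * algebraMap (𝓞 F) F c) / (y : F) ^ p) = 1 := by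
        have := (v.valuation F).map_one_add_of_lt
          (x := (1 + M.l ^ p * algebraMap (𝓞 F) F c) / (y : F) ^ p - 1)
          (lt_of_lt_of_le hy (M.val_lp_le _))
        rwa [add_sub_cancel] at this
      have hvyp : v.valuation F ((y : F) ^ p) = 1 := by
        rw [map_div₀, hv1] at h1
        have h3 : v.valuation F ((y : F) ^ p) ≠ 0 :=
          (Valuation.ne_zero_iff _).mpr (pow_ne_zero p hy0)
        exact ((div_eq_one_iff_eq h3).mp h1).symm
      rw [div_sub_one (pow_ne_zero p hy0), map_div₀, hvyp, div_one] at hy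
      set ω : F := ((y : F) - 1) / M.l with hω
      have hyω : (y : F) = 1 + M.l * ω := by
        rw [hω, mul_div_cancel₀ _ M.l_ne_zero]; ring
      have hωle : v.valuation F ω ≤ 1 := by
        apply M.as_integral
        rw [← hyω]
        have e : (y : F) ^ p - 1 = M.l ^ p * algebraMap (𝓞 F) F c -
            (1 + M.l ^ p * algebraMap (𝓞 F) F c - (y : F) ^ p) := by ring
        rw [e]
        exact (v.valuation F).map_sub_le hlc hy.le
      have h2 := M.as_congr hl hωle
      rw [← hyω] at h2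
      obtain ⟨r, hr⟩ := exists_residue v hωle
      apply hc0 (Ideal.Quotient.mk v.asIdeal r)
      rw [← sub_eq_zero, ← map_pow, ← map_sub, ← map_sub, mk_eq_zero_iff]
      have h3 : v.valuation F (M.l ^ p * (ω ^ p - ω - algebraMap (𝓞 F) F c)) <
          v.valuation F (M.l ^ p) := by
        have e : M.l ^ p * (ω ^ p - ω - algebraMap (𝓞 F) F c) =
            -((y : F) ^ p - 1 - M.l ^ p * (ω ^ p - ω)) -
            (1 + M.l ^ p * algebraMap (𝓞 F) F c - (y : F) ^ p) := by ring
        rw [e]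
        exact (v.valuation F).map_sub_lt (by rwa [Valuation.map_neg]) hy
      rw [map_mul] at h3
      have h4 : v.valuation F (ω ^ p - ω - algebraMap (𝓞 F) F c) < 1 := by
        refine not_le.mp fun h5 => ?_
        refine absurd h3 (not_lt.mpr ?_)
        calc v.valuation F (M.l ^ p) = v.valuation F (M.l ^ p) * 1 := (mul_one _).symm
          _ ≤ _ := mul_le_mul_right h5 _
      have e : algebraMap (𝓞 F) F (r ^ p - r - c) = (algebraMap (𝓞 F) F r ^ p - ω ^ p) -
          (algebraMap (𝓞 F) F r - ω) + (ω ^ p - ω - algebraMap (𝓞 F) F c) := by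
        rw [map_sub, map_sub, map_pow]; ring
      rw [e]
      exact (v.valuation F).map_add_lt ((v.valuation F).map_sub_lt
        (pow_diff_lt (v.valuation_le_one r) hωle hr p) hr) h4

variable {M}

/-- Norms from the unramified extension have values divisible by `p`. -/
theorem Unr.ord {v : HeightOneSpectrum (𝓞 F)} {ε b : Fˣ} (h : Unr M (v.valuation F) ε)
    (hb : b ∈ NF M ε ⊔ LS M (v.valuation F)) :
    ∃ k : ℤ, v.valuation F (b : F) = WithZero.exp (p * k) := by
  obtain ⟨n, hn, s, hs, rfl⟩ := Subgroup.mem_sup.mp hb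
  obtain ⟨c, hc⟩ := h.ord_aux hn
  obtain ⟨y, hy⟩ := LS_val hs
  have hc0 : c ≠ 0 := by
    rintro rfl
    rw [map_zero, zero_pow M.prime.ne_zero] at hc
    exact n.ne_zero ((Valuation.zero_iff _).mp hc)
  obtain ⟨k, hk⟩ := val_eq_exp v (Units.mk0 c hc0 * y)
  refine ⟨k, ?_⟩
  rw [Units.val_mul, map_mul, hc, hy, ← mul_pow, ← exp_pow_eq, ← hk, Units.val_mul, map_mul,
    Units.val_mk0]

/-- Every element of the residue field at a place above `p` is a `p`-th power. -/
theorem exists_root_residue {v : HeightOneSpectrum (𝓞 F)} (hp : p.Prime)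
    (hv : v.valuation F (p : F) < 1) {x : F} (hx : v.valuation F x ≤ 1) :
    ∃ r : 𝓞 F, v.valuation F (algebraMap (𝓞 F) F r ^ p - x) < 1 := by
  have : v.asIdeal.IsMaximal := v.isMaximal
  have : Finite (𝓞 F ⧸ v.asIdeal) := finite_residue v
  let _ : Field (𝓞 F ⧸ v.asIdeal) := Ideal.Quotient.field v.asIdeal
  have : Fact p.Prime := ⟨hp⟩
  have hch : CharP (𝓞 F ⧸ v.asIdeal) p := by
    refine (CharP.charP_iff_prime_eq_zero hp).mpr ?_
    have : Ideal.Quotient.mk v.asIdeal (p : 𝓞 F) = 0 := by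
      rw [mk_eq_zero_iff, map_natCast]
      exact hv
    rwa [map_natCast] at this
  have hinj : Function.Injective (fun t : 𝓞 F ⧸ v.asIdeal => t ^ p) :=
    frobenius_inj (𝓞 F ⧸ v.asIdeal) p
  have hsurj := Finite.injective_iff_surjective.mp hinj
  obtain ⟨x0, hx0⟩ := exists_residue v hx
  obtain ⟨t, ht⟩ := hsurj (Ideal.Quotient.mk v.asIdeal x0)
  obtain ⟨r, rfl⟩ := Ideal.Quotient.mk_surjective t
  refine ⟨r, ?_⟩
  change Ideal.Quotient.mk v.asIdeal r ^ p = _ at ht
  rw [← sub_eq_zero, ← map_pow, ← map_sub, mk_eq_zero_iff] at ht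
  have e : algebraMap (𝓞 F) F r ^ p - x = algebraMap (𝓞 F) F (r ^ p - x0) +
      (algebraMap (𝓞 F) F x0 - x) := by
    rw [map_sub, map_pow]; ring
  rw [e]
  exact (v.valuation F).map_add_lt ht hx0

/-- Improving an approximation by a `p`-th power. -/
theorem improve {v : HeightOneSpectrum (𝓞 F)} (M : Mu p F) {a : Fˣ}
    (ha : v.valuation F (a : F) = 1)
    (h1 : v.valuation F (M.l ^ p) < v.valuation F ((a : F) - 1)) {t : ℤ}
    (ht : v.valuation F ((a : F) - 1) = WithZero.exp (p * t)) :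
    ∃ y : Fˣ, v.valuation F (y : F) = 1 ∧
      v.valuation F ((a : F) * (y : F) ^ p - 1) < v.valuation F ((a : F) - 1) := by
  have hp0 : (0 : ℤ) < p := by exact_mod_cast M.prime.pos
  have hm1 : v.valuation F ((a : F) - 1) ≤ 1 :=
    (v.valuation F).map_sub_le ha.le (by rw [map_one])
  have hlp : v.valuation F M.l ^ p < 1 := by
    rw [← map_pow]; exact lt_of_lt_of_le h1 hm1
  have hl : v.valuation F M.l < 1 := (pow_lt_one_iff M.prime.ne_zero).mp hlp
  have hvp : v.valuation F (p : F) < 1 := by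
    rw [M.val_p]
    exact pow_lt_one' hl (by have := M.prime.two_le; omega)
  obtain ⟨τ, hτ⟩ := exists_val v t
  have hτ0 : (τ : F) ≠ 0 := τ.ne_zero
  have hτp : v.valuation F ((a : F) - 1) = v.valuation F (τ : F) ^ p := by
    rw [ht, hτ, exp_pow_eq]
  have hτ1 : v.valuation F (τ : F) ≤ 1 := by
    rw [hτp] at hm1
    exact (pow_le_one_iff M.prime.ne_zero).mp hm1
  have hvτ0 : v.valuation F (τ : F) ≠ 0 := (Valuation.ne_zero_iff _).mpr hτ0
  have hq : v.valuation F (((a : F) - 1) / (τ : F) ^ p) = 1 := by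
    rw [map_div₀, hτp, map_pow, div_self (pow_ne_zero p hvτ0)]
  obtain ⟨r, hr⟩ := exists_root_residue M.prime hvp hq.le
  have hr1 : v.valuation F (algebraMap (𝓞 F) F r) ≤ 1 := v.valuation_le_one r
  set s : F := τ * algebraMap (𝓞 F) F r with hs
  have hsτ : v.valuation F s ≤ v.valuation F (τ : F) := by
    rw [hs, map_mul]
    calc _ ≤ v.valuation F (τ : F) * 1 := mul_le_mul_right hr1 _
      _ = _ := mul_one _
  obtain ⟨r', hr', hbin⟩ := exists_binom M (w := v.valuation F) s (hsτ.trans hτ1)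
  have hlτ : v.valuation F M.l < v.valuation F (τ : F) := by
    rw [hτp, map_pow] at h1
    exact lt_of_pow_lt_pow_left' p h1
  have hkey : v.valuation F ((a : F) - (1 + s) ^ p) < v.valuation F ((a : F) - 1) := by
    have e : (a : F) - (1 + s) ^ p =
        (τ : F) ^ p * (-(algebraMap (𝓞 F) F r ^ p - ((a : F) - 1) / (τ : F) ^ p)) +
          -((p : F) * s * (1 + r')) := by
      rw [hbin, hs]
      field_simp
      ring
    rw [e, hτp]
    refine (v.valuation F).map_add_lt ?_ ?_
    · rw [map_mul, Valuation.map_neg, map_pow]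
      exact mul_lt_of_lt_one_right (pow_pos (zero_lt_iff.mpr hvτ0) _) hr
    · rw [Valuation.map_neg, map_mul, map_mul, M.val_p]
      have h2 : v.valuation F (1 + r') ≤ 1 :=
        (v.valuation F).map_add_le (by rw [map_one]) (hr'.trans (hsτ.trans hτ1))
      have hp1 : p - 1 ≠ 0 := by have := M.prime.two_le; omega
      calc v.valuation F M.l ^ (p - 1) * v.valuation F s * v.valuation F (1 + r') ≤
            v.valuation F M.l ^ (p - 1) * v.valuation F (τ : F) * 1 :=
            mul_le_mul' (mul_le_mul_right hsτ _) h2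
        _ = v.valuation F M.l ^ (p - 1) * v.valuation F (τ : F) := mul_one _
        _ < v.valuation F (τ : F) ^ (p - 1) * v.valuation F (τ : F) :=
            mul_lt_mul_of_pos_right (pow_lt_pow_left₀ hlτ zero_le hp1) (zero_lt_iff.mpr hvτ0)
        _ = v.valuation F (τ : F) ^ p := by
            rw [← pow_succ, Nat.sub_add_cancel M.prime.one_le]
  have hs1 : v.valuation F ((1 + s) ^ p) = 1 := by
    have e : (1 + s) ^ p = (a : F) + -((a : F) - (1 + s) ^ p) := by ring
    rw [e, Valuation.map_add_eq_of_lt_left, ha]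
    rw [Valuation.map_neg, ha]
    exact lt_of_lt_of_le hkey hm1
  have hs0 : 1 + s ≠ 0 := by
    intro h0
    rw [h0, zero_pow M.prime.ne_zero, map_zero] at hs1
    exact zero_ne_one hs1
  have hs2 : v.valuation F (1 + s) = 1 := by
    rw [map_pow] at hs1
    exact (pow_eq_one_iff_left M.prime.ne_zero).mp hs1
  refine ⟨(Units.mk0 _ hs0)⁻¹, ?_, ?_⟩
  · rw [Units.val_inv_eq_inv_val, Units.val_mk0, map_inv₀, hs2, inv_one]
  · rw [Units.val_inv_eq_inv_val, Units.val_mk0]
    have e : (a : F) * (1 + s)⁻¹ ^ p - 1 = ((a : F) - (1 + s) ^ p) / (1 + s) ^ p := by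
      rw [inv_pow, sub_div, div_self (pow_ne_zero p hs0), div_eq_mul_inv]
    rw [e, map_div₀, hs1, div_one]
    exact hkey

/-- The best approximation by a `p`-th power. -/
theorem exists_best {v : HeightOneSpectrum (𝓞 F)} {a : Fˣ} (ha : v.valuation F (a : F) = 1)
    (hna : a ∉ LS M (v.valuation F)) : ∃ y : Fˣ, v.valuation F ((a * y ^ p : Fˣ) : F) = 1 ∧
      (Unr M (v.valuation F) (a * y ^ p) ∨
        (v.valuation F (M.l ^ p) < v.valuation F (((a * y ^ p : Fˣ) : F) - 1) ∧
          ∀ t : ℤ, v.valuation F (((a * y ^ p : Fˣ) : F) - 1) ≠ WithZero.exp (p * t))) := by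
  have hlow : ∀ y : Fˣ, v.valuation F (M.l ^ p) ≤
      v.valuation F (((a * y ^ p : Fˣ) : F) - 1) := by
    intro y
    refine not_lt.mp fun h => hna ⟨y⁻¹, ?_⟩
    rw [Units.val_inv_eq_inv_val, inv_pow, div_inv_eq_mul]
    simpa using h
  have hne : ∀ y : Fˣ, v.valuation F (((a * y ^ p : Fˣ) : F) - 1) ≠ 0 := by
    intro y h
    have h1 := hlow y
    rw [h] at h1
    exact M.val_lp_ne (v.valuation F) (le_antisymm h1 zero_le)
  obtain ⟨z, ⟨y, hy1, hyz⟩, hmin⟩ := Int.exists_least_of_bdd
    (P := fun z : ℤ => ∃ y : Fˣ, v.valuation F (y : F) = 1 ∧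
      v.valuation F (((a * y ^ p : Fˣ) : F) - 1) = WithZero.exp z)
    ⟨WithZero.log (v.valuation F (M.l ^ p)), by
      rintro z ⟨y, _, hy⟩
      have h1 := hlow y
      rw [hy] at h1
      rwa [WithZero.log_le_iff_le_exp (M.val_lp_ne _)]⟩
    ⟨_, 1, by rw [Units.val_one, map_one], (WithZero.exp_log (hne 1)).symm⟩
  have hu : v.valuation F ((a * y ^ p : Fˣ) : F) = 1 := by
    rw [Units.val_mul, Units.val_pow_eq_pow_val, map_mul, map_pow, ha, hy1, one_pow, one_mul]
  refine ⟨y, hu, ?_⟩
  rcases (hlow y).eq_or_lt with h | h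
  · left
    refine ⟨hu, h.ge, fun h1 => hna ?_⟩
    have e : a = a * y ^ p * (y⁻¹) ^ p := by rw [inv_pow, mul_inv_cancel_right]
    rw [e]
    exact Subgroup.mul_mem _ h1 (pow_mem_LS _)
  · right
    refine ⟨h, fun t ht => ?_⟩
    obtain ⟨y', hy', hlt⟩ := improve M hu h ht
    have e : (((a * (y * y') ^ p : Fˣ) : F) - 1) =
        ((a * y ^ p : Fˣ) : F) * (y' : F) ^ p - 1 := by
      push_cast; ring
    have h2 := hmin (WithZero.log (v.valuation F (((a * (y * y') ^ p : Fˣ) : F) - 1)))
      ⟨y * y', by rw [Units.val_mul, map_mul, hy1, hy', one_mul],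
        (WithZero.exp_log (hne (y * y'))).symm⟩
    rw [WithZero.le_log_iff_exp_le (hne _), e, ← hyz] at h2
    exact absurd hlt (not_lt.mpr h2)

/-- Local class field theory: an element that is not a local `p`-th power has a non-norm. -/
theorem exists_not_norm (v : HeightOneSpectrum (𝓞 F)) (a : Fˣ) (ha : a ∉ LS M (v.valuation F)) :
    ∃ b : Fˣ, b ∉ NF M a ⊔ LS M (v.valuation F) := by
  have hp0 : (p : ℤ) ≠ 0 := by exact_mod_cast M.prime.ne_zero
  obtain ⟨ε, hε⟩ := exists_unr M v
  by_cases hpa : ∃ k : ℤ, v.valuation F (a : F) = WithZero.exp (p * k)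
  · obtain ⟨k, hk⟩ := hpa
    obtain ⟨c, hc⟩ := exists_val v (-k)
    have hu : v.valuation F ((a * c ^ p : Fˣ) : F) = 1 := by
      rw [Units.val_mul, Units.val_pow_eq_pow_val, map_mul, map_pow, hk, hc, exp_pow_eq,
        ← WithZero.exp_add]
      simp
    have hna : a * c ^ p ∉ LS M (v.valuation F) := by
      intro h
      apply ha
      have e : a = a * c ^ p * (c⁻¹) ^ p := by rw [inv_pow, mul_inv_cancel_right]
      rw [e]
      exact Subgroup.mul_mem _ h (pow_mem_LS _)
    obtain ⟨y, hy1, hy⟩ := exists_best hu hna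
    rw [← NF_mul_pow M a c, ← NF_mul_pow M (a * c ^ p) y]
    generalize a * c ^ p * y ^ p = a' at hy1 hy
    rcases hy with hy | ⟨hlt, hnp⟩
    · obtain ⟨π, hπ⟩ := exists_val v (-1)
      refine ⟨π, fun hb => ?_⟩
      obtain ⟨j, hj⟩ := hy.ord hb
      rw [hπ, WithZero.exp_inj] at hj
      have h1 : (p : ℤ) ∣ 1 := ⟨-j, by linear_combination -hj⟩
      have h2 : (p : ℕ) ∣ 1 := by exact_mod_cast h1
      exact M.prime.one_lt.ne' (Nat.dvd_one.mp h2)
    · have hm1 : v.valuation F ((a' : F) - 1) ≤ 1 :=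
        (v.valuation F).map_sub_le hy1.le (by rw [map_one])
      have hm0 : (a' : F) - 1 ≠ 0 := by
        intro h
        rw [h, map_zero] at hlt
        exact not_lt.mpr zero_le hlt
      have hvm0 : v.valuation F ((a' : F) - 1) ≠ 0 := (Valuation.ne_zero_iff _).mpr hm0
      have hβ : v.valuation F (((ε : F) - 1) * (a' : F) / ((a' : F) - 1)) < 1 := by
        rw [map_div₀, map_mul, hy1, mul_one, div_lt_one₀ (zero_lt_iff.mpr hvm0)]
        exact lt_of_le_of_lt hε.cong hlt
      have hb1 := (v.valuation F).map_one_add_of_lt hβ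
      have hb0 : 1 + ((ε : F) - 1) * (a' : F) / ((a' : F) - 1) ≠ 0 := by
        intro h
        rw [h, map_zero] at hb1
        exact zero_ne_one hb1
      set b : Fˣ := Units.mk0 _ hb0 with hb
      set α : Fˣ := Units.mk0 _ hm0 with hα
      refine ⟨b, fun hbm => ?_⟩
      have h1 : -α ∈ NF M a' := steinberg M a' (-α) (by
        rw [Units.val_neg, hα, Units.val_mk0]; ring)
      have h2 : a' * ε ∈ NF M (-α * b) := steinberg M (-α * b) (a' * ε) (by
        rw [Units.val_mul, Units.val_mul, Units.val_neg, hα, hb, Units.val_mk0, Units.val_mk0]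
        field_simp
        ring)
      have h3 : -α * b ∈ NF M a' ⊔ LS M (v.valuation F) :=
        Subgroup.mul_mem _ (Subgroup.mem_sup_left h1) hbm
      have h4 := mem_symm h3
      have h5 : ε ∈ NF M (-α * b) ⊔ LS M (v.valuation F) := by
        have e : ε = a'⁻¹ * (a' * ε) := by rw [inv_mul_cancel_left]
        rw [e]
        exact Subgroup.mul_mem _ (Subgroup.inv_mem _ h4) (Subgroup.mem_sup_left h2)
      obtain ⟨j, hj⟩ := hε.ord (mem_symm h5)
      have hbv : v.valuation F (b : F) = 1 := hb1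
      rw [Units.val_mul, Units.val_neg, map_mul, Valuation.map_neg, hbv, mul_one] at hj
      exact hnp j hj
  · exact ⟨ε, fun hb => hpa (hε.ord (mem_symm hb))⟩

end Vale.Agent.P011.ArP
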