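import Vale.Agent.P011.ArP.Has4
import Vale.Agent.P011.ArP.LocS
import Vale.Agent.P011.ArP.LocU
import Vale.Agent.P011.ArP.Goo

/-!
Class field theory for Kummer extensions of odd prime degree: everything.
-/
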