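import Vale.Agent.P011.Arith.Defs

/-!
Local `p`-th powers, norm groups of Kummer extensions and places of a number field containing the
`p`-th roots of unity, formulated inside the field (`p` an odd prime).
-/

open NumberField IsDedekindDomain Polynomial

namespace Vale.Agent.P011.ArP

open Vale.Agent.P011.Arith (Z0)

section field

variable {p : ℕ} {F : Type} [Field F]

/-- An odd prime number `p` together with a primitive `p`-th root of unity of `F`. -/
structure Mu (p : ℕ) (F : Type) [Field F] where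
  ζ : F
  prim : IsPrimitiveRoot ζ p
  prime : p.Prime
  odd : p ≠ 2

/-- The element `1 - ζ`. -/
def Mu.l (M : Mu p F) : F := 1 - M.ζ

/-- The root of unity in an extension. -/
def Mu.map (M : Mu p F) (E : Type) [Field E] [Algebra F E] : Mu p E where
  ζ := algebraMap F E M.ζ
  prim := M.prim.map_of_injective (algebraMap F E).injective
  prime := M.prime
  odd := M.odd

/-- The nonzero `p`-th powers. -/
def Pw (p : ℕ) (F : Type) [Field F] : Subgroup Fˣ := (powMonoidHom p : Fˣ →* Fˣ).range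

theorem mem_Pw {x : Fˣ} : x ∈ Pw p F ↔ ∃ y : Fˣ, y ^ p = x := Iff.rfl

/-- The product of the polynomials `h (ζ ^ i X)`. -/
noncomputable def Mu.cj (M : Mu p F) (h : F[X]) : F[X] :=
  ∏ i ∈ Finset.range p, h.comp (C (M.ζ ^ i) * X)

/-- The norm form: the polynomial `g` with `g (X ^ p) = ∏ h (ζ ^ i X)`. -/
noncomputable def Mu.nf (M : Mu p F) (h : F[X]) : F[X] := contract p (M.cj h)

theorem Mu.cj_mul (M : Mu p F) (h h' : F[X]) : M.cj (h * h') = M.cj h * M.cj h' := by
  unfold Mu.cj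
  rw [← Finset.prod_mul_distrib]
  exact Finset.prod_congr rfl fun i _ => mul_comp _ _ _

theorem Mu.cj_rot (M : Mu p F) (h : F[X]) : (M.cj h).comp (C M.ζ * X) = M.cj h := by
  unfold Mu.cj
  rw [prod_comp]
  have h1 : ∀ i, (h.comp (C (M.ζ ^ i) * X)).comp (C M.ζ * X) = h.comp (C (M.ζ ^ (i + 1)) * X) := by
    intro i
    rw [comp_assoc]
    congr 1
    rw [mul_comp, C_comp, X_comp, pow_succ, C_mul]
    ring
  rw [Finset.prod_congr rfl fun i _ => h1 i]
  obtain ⟨q, hq⟩ : ∃ q, p = q + 1 := ⟨p - 1, (Nat.succ_pred_eq_of_pos M.prime.pos).symm⟩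
  have h2 : ∀ g : ℕ → F[X], g p = g 0 →
      ∏ i ∈ Finset.range p, g (i + 1) = ∏ i ∈ Finset.range p, g i := by
    intro g hg
    have h3 : (∏ i ∈ Finset.range p, g (i + 1)) * g 0 = (∏ i ∈ Finset.range p, g i) * g p := by
      rw [← Finset.prod_range_succ', Finset.prod_range_succ]
    clear h1
    rw [hg] at h3
    by_cases h0 : g 0 = 0
    · rw [Finset.prod_eq_zero (i := 0) (Finset.mem_range.mpr M.prime.pos) h0,
        Finset.prod_eq_zero (i := p - 1) (Finset.mem_range.mpr (Nat.sub_lt M.prime.pos one_pos))]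
      rw [Nat.sub_add_cancel M.prime.one_le, hg, h0]
    · exact mul_right_cancel₀ h0 h3
  apply h2 (fun i => h.comp (C (M.ζ ^ i) * X))
  simp only [M.prim.pow_eq_one, pow_zero]

theorem Mu.expand_nf (M : Mu p F) (h : F[X]) : expand F p (M.nf h) = M.cj h := by
  ext n
  rw [coeff_expand M.prime.pos, Mu.nf]
  split_ifs with hn
  · rw [coeff_contract M.prime.ne_zero, Nat.div_mul_cancel hn]
  · have h1 := congrArg (fun g => coeff g n) (M.cj_rot h)
    simp only [comp_C_mul_X_coeff] at h1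
    by_contra h2
    have h3 : M.ζ ^ n = 1 := mul_left_cancel₀ (Ne.symm h2) (h1.trans (mul_one _).symm)
    exact hn ((M.prim.pow_eq_one_iff_dvd n).mp h3)

theorem Mu.nf_eq (M : Mu p F) {h g : F[X]} (hg : expand F p g = M.cj h) : M.nf h = g :=
  expand_injective M.prime.pos (by rw [M.expand_nf, hg])

theorem Mu.nf_mul (M : Mu p F) (h h' : F[X]) : M.nf (h * h') = M.nf h * M.nf h' :=
  M.nf_eq (by rw [map_mul, M.expand_nf, M.expand_nf, M.cj_mul])

theorem Mu.nf_C (M : Mu p F) (c : F) : M.nf (C c) = C (c ^ p) := by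
  apply M.nf_eq
  rw [expand_C, Mu.cj]
  simp only [C_comp, Finset.prod_const, Finset.card_range, C_pow]

theorem Mu.nf_one (M : Mu p F) : M.nf 1 = 1 := by
  have := M.nf_C 1
  rwa [one_pow, C_1] at this

theorem Mu.nf_pow (M : Mu p F) (h : F[X]) (n : ℕ) : M.nf (h ^ n) = M.nf h ^ n := by
  induction n with
  | zero => rw [pow_zero, pow_zero, M.nf_one]
  | succ n ih => rw [pow_succ, pow_succ, M.nf_mul, ih]

/-- The nonzero values of the norm form: the norms from `F[X] / (X ^ p - a)`. -/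
noncomputable def NF (M : Mu p F) (a : Fˣ) : Subgroup Fˣ where
  carrier := {b | ∃ h : F[X], (b : F) = (M.nf h).eval (a : F)}
  mul_mem' := by
    rintro b b' ⟨h, hb⟩ ⟨h', hb'⟩
    exact ⟨h * h', by rw [M.nf_mul, eval_mul, Units.val_mul, hb, hb']⟩
  one_mem' := ⟨1, by rw [M.nf_one, eval_one, Units.val_one]⟩
  inv_mem' := by
    rintro b ⟨h, hb⟩
    refine ⟨C (b : F)⁻¹ * h ^ (p - 1), ?_⟩
    rw [M.nf_mul, M.nf_C, M.nf_pow, eval_mul, eval_C, eval_pow, ← hb, Units.val_inv_eq_inv_val]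
    have h0 : (b : F) ≠ 0 := b.ne_zero
    have h1 : (b : F) ^ p = (b : F) ^ (p - 1) * b := by
      rw [← pow_succ, Nat.sub_add_cancel M.prime.pos]
    rw [inv_pow, h1]
    field_simp

theorem mem_NF {M : Mu p F} {a b : Fˣ} :
    b ∈ NF M a ↔ ∃ h : F[X], (b : F) = (M.nf h).eval (a : F) := Iff.rfl

theorem Mu.l_ne_zero (M : Mu p F) : M.l ≠ 0 := by
  intro h
  have h1 : M.ζ = 1 := (sub_eq_zero.mp h).symm
  have h2 := M.prim
  rw [h1] at h2
  exact M.prime.one_lt.ne' (h2.eq_orderOf.trans orderOf_one)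

theorem Mu.val_l_le (M : Mu p F) (w : Valuation F Z0) : w M.l ≤ 1 := by
  have h1 : w M.ζ = 1 := by
    have h2 : w M.ζ ^ p = 1 := by rw [← map_pow, M.prim.pow_eq_one, map_one]
    exact (pow_eq_one_iff_left M.prime.ne_zero).mp h2
  exact w.map_sub_le (by rw [map_one]) h1.le

/-- The elements which are `p`-th powers up to a factor close to `1`: the local `p`-th powers. -/
def LS (M : Mu p F) (w : Valuation F Z0) : Subgroup Fˣ where
  carrier := {x | ∃ y : Fˣ, w ((x : F) / (y : F) ^ p - 1) < w (M.l ^ p)}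
  mul_mem' := by
    rintro x x' ⟨y, hy⟩ ⟨y', hy'⟩
    refine ⟨y * y', ?_⟩
    have e : ((x * x' : Fˣ) : F) / ((y * y' : Fˣ) : F) ^ p - 1 =
        ((x : F) / (y : F) ^ p - 1) + ((x' : F) / (y' : F) ^ p - 1) +
          ((x : F) / (y : F) ^ p - 1) * ((x' : F) / (y' : F) ^ p - 1) := by
      have h0 : (y : F) ≠ 0 := y.ne_zero
      have h0' : (y' : F) ≠ 0 := y'.ne_zero
      push_cast
      rw [mul_pow]
      field_simp
      ring
    rw [e]
    refine w.map_add_lt (w.map_add_lt hy hy') ?_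
    rw [map_mul]
    have hl : w (M.l ^ p) ≤ 1 := by rw [map_pow]; exact pow_le_one' (M.val_l_le w) p
    calc _ ≤ w ((x : F) / (y : F) ^ p - 1) * 1 :=
          mul_le_mul_right (le_trans hy'.le hl) _
      _ < w (M.l ^ p) := by rwa [mul_one]
  one_mem' := by
    refine ⟨1, ?_⟩
    have : w (M.l ^ p) ≠ 0 := (Valuation.ne_zero_iff w).mpr (pow_ne_zero p M.l_ne_zero)
    simpa using zero_lt_iff.mpr this
  inv_mem' := by
    rintro x ⟨y, hy⟩
    refine ⟨y⁻¹, ?_⟩
    have hx0 : (x : F) ≠ 0 := x.ne_zero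
    have hy0 : (y : F) ≠ 0 := y.ne_zero
    have hl : w (M.l ^ p) ≤ 1 := by rw [map_pow]; exact pow_le_one' (M.val_l_le w) p
    have h1 : w ((x : F) / (y : F) ^ p) = 1 := by
      have := w.map_one_add_of_lt (x := (x : F) / (y : F) ^ p - 1)
        (lt_of_lt_of_le hy hl)
      rwa [add_sub_cancel] at this
    have e : ((x⁻¹ : Fˣ) : F) / ((y⁻¹ : Fˣ) : F) ^ p - 1 =
        -(((x : F) / (y : F) ^ p - 1) / ((x : F) / (y : F) ^ p)) := by
      rw [Units.val_inv_eq_inv_val, Units.val_inv_eq_inv_val, inv_pow]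
      field_simp
      ring
    rw [e, Valuation.map_neg, map_div₀, h1, div_one]
    exact hy

theorem mem_LS {M : Mu p F} {w : Valuation F Z0} {x : Fˣ} :
    x ∈ LS M w ↔ ∃ y : Fˣ, w ((x : F) / (y : F) ^ p - 1) < w (M.l ^ p) := Iff.rfl

/-- The class of `ε` is the nontrivial unramified one: `ε` is a unit, congruent to `1` modulo
`(1 - ζ) ^ p`, and not a local `p`-th power. -/
structure Unr (M : Mu p F) (w : Valuation F Z0) (ε : Fˣ) : Prop where
  unit : w (ε : F) = 1
  cong : w ((ε : F) - 1) ≤ w (M.l ^ p)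
  notMem : ε ∉ LS M w

end field

variable {p : ℕ} {F : Type} [Field F] [NumberField F]

/-- The set `S` contains the primes above `p` and generates the class group: every prime outside
`S` is principal up to `S`. -/
def Pr (p : ℕ) (S : Set (HeightOneSpectrum (𝓞 F))) : Prop :=
  (∀ v : HeightOneSpectrum (𝓞 F), v.valuation F (p : F) ≠ 1 → v ∈ S) ∧
  ∀ v ∉ S, ∃ π : Fˣ, v.valuation F (π : F) = WithZero.exp (-1) ∧
    ∀ v' ∉ S, v' ≠ v → v'.valuation F (π : F) = 1

/-- The number of places in `S` that do not split in the extension generated by a `p`-th root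
of `a`. -/
noncomputable def tc (M : Mu p F) (a : Fˣ) (S : Set (HeightOneSpectrum (𝓞 F))) : ℕ :=
  {v | v ∈ S ∧ a ∉ LS M (v.valuation F)}.ncard

/-- The finite set `S` is large enough for the arithmetic of the extension generated by a `p`-th
root of `a`. -/
structure Good (M : Mu p F) (a : Fˣ) (S : Set (HeightOneSpectrum (𝓞 F))) : Prop where
  fin : S.Finite
  pr : Pr p S
  unit : a ∈ S.unit F
  idx : (NF M a).relIndex (S.unit F) * p = p ^ tc M a S
  split : ∀ v ∉ S, a ∈ LS M (v.valuation F) → ∃ β ∈ NF M a,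
    v.valuation F (β : F) = WithZero.exp (-1) ∧ ∀ v' ∉ S, v' ≠ v → v'.valuation F (β : F) = 1

/-- The data of a Kummer extension of degree `p`. -/
structure KD (M : Mu p F) (a : Fˣ) (E : Type) [Field E] [NumberField E] [Algebra F E] (θ : E)
    (σ : E ≃ₐ[F] E) : Prop where
  deg : Module.finrank F E = p
  pow : θ ^ p = algebraMap F E a
  conj : σ θ = algebraMap F E M.ζ * θ
  ns : a ∉ Pw p F

end Vale.Agent.P011.ArP
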