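import Mathlib

/-!
Index computations in commutative groups, `p` an arbitrary prime.
-/

namespace Vale.Agent.P011.ArP

variable {G : Type*} [CommGroup G]

theorem zpow_mem_coprime {H : Subgroup G} {g : G} {p : ℕ} (hp : p.Prime) (hgp : g ^ p ∈ H) {m : ℤ}
    (hm : ¬ (p : ℤ) ∣ m) (h : g ^ m ∈ H) : g ∈ H := by
  have hcop : IsCoprime m (p : ℤ) := by
    rw [Int.isCoprime_iff_gcd_eq_one, Int.gcd_comm]
    exact (Nat.Prime.coprime_iff_not_dvd hp).mpr (fun h => hm (Int.natCast_dvd.mpr h))
  obtain ⟨u, v, huv⟩ := hcop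
  have h1 : g = (g ^ m) ^ u * (g ^ p) ^ v := by
    rw [← zpow_natCast, ← zpow_mul, ← zpow_mul, ← zpow_add, mul_comm m, mul_comm (p : ℤ), huv,
      zpow_one]
  rw [h1]
  exact H.mul_mem (H.zpow_mem h u) (H.zpow_mem hgp v)

theorem eq_of_pow_div_mem {H : Subgroup G} {g : G} {p : ℕ} (hp : p.Prime) (hg : g ∉ H)
    (hgp : g ^ p ∈ H) {i j : ℕ} (hi : i < p) (hj : j < p) (h : g ^ i / g ^ j ∈ H) : i = j := by
  by_contra hne
  apply hg
  refine zpow_mem_coprime hp hgp (m := (i : ℤ) - j) ?_ ?_
  · rintro ⟨k, hk⟩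
    have hp0 : (0 : ℤ) < p := by exact_mod_cast hp.pos
    have h1 : (i : ℤ) < p := by exact_mod_cast hi
    have h2 : (j : ℤ) < p := by exact_mod_cast hj
    have hk0 : k < 1 := by
      by_contra hk1
      push Not at hk1
      have : (p : ℤ) * 1 ≤ p * k := mul_le_mul_of_nonneg_left hk1 hp0.le
      omega
    have hk1 : -1 < k := by
      by_contra hk1
      push Not at hk1
      have : (p : ℤ) * k ≤ p * (-1) := mul_le_mul_of_nonneg_left hk1 hp0.le
      omega
    have hk2 : k = 0 := by omega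
    rw [hk2, mul_zero] at hk
    omega
  · rwa [zpow_sub, zpow_natCast, zpow_natCast, ← div_eq_mul_inv]

/-- A group which surjects on the patterns of powers of elements of order `p` is large. -/
theorem pow_le_relIndex {ι : Type*} [Fintype ι] {p : ℕ} (hp : p.Prime) (K U : Subgroup G)
    (H : ι → Subgroup G) (hK : ∀ i, K ≤ H i) (g : ι → G) (hg : ∀ i, g i ∉ H i)
    (hgp : ∀ i, g i ^ p ∈ H i) (h : ∀ e : ι → ℕ, ∃ u ∈ U, ∀ i, u / g i ^ e i ∈ H i)
    (hne : K.relIndex U ≠ 0) : p ^ Fintype.card ι ≤ K.relIndex U := by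
  classical
  choose u hu hue using h
  have hfin : Finite (U ⧸ K.subgroupOf U) := by
    have : (K.subgroupOf U).FiniteIndex := ⟨hne⟩
    exact Subgroup.finite_quotient_of_finiteIndex
  let f : (ι → Fin p) → U ⧸ K.subgroupOf U := fun e =>
    QuotientGroup.mk ⟨u (fun i => (e i : ℕ)), hu _⟩
  have hf : Function.Injective f := by
    intro e e' hee
    have h1 := QuotientGroup.eq.mp hee
    rw [Subgroup.mem_subgroupOf] at h1
    have h1 : (u (fun i => (e i : ℕ)))⁻¹ * u (fun i => (e' i : ℕ)) ∈ K := h1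
    funext i
    have h2 := hK i h1
    have h3 := hue (fun i => (e i : ℕ)) i
    have h4 := hue (fun i => (e' i : ℕ)) i
    apply Fin.ext
    refine (eq_of_pow_div_mem hp (hg i) (hgp i) (e i).2 (e' i).2 ?_)
    have h5 := (H i).div_mem ((H i).mul_mem h2 h3) h4
    have e1 : (u (fun i => (e i : ℕ)))⁻¹ * u (fun i => (e' i : ℕ)) *
        (u (fun i => (e i : ℕ)) / g i ^ (e i : ℕ)) / (u (fun i => (e' i : ℕ)) / g i ^ (e' i : ℕ)) =
        (g i ^ (e i : ℕ) / g i ^ (e' i : ℕ))⁻¹ := by
      rw [inv_div, div_eq_mul_inv, div_eq_mul_inv, div_eq_mul_inv, div_eq_mul_inv, mul_inv,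
        inv_inv]
      generalize u (fun i => (e i : ℕ)) = a
      generalize u (fun i => (e' i : ℕ)) = b
      generalize g i ^ (e i : ℕ) = c
      generalize g i ^ (e' i : ℕ) = d
      calc a⁻¹ * b * (a * c⁻¹) * (b⁻¹ * d) = (a⁻¹ * a) * (b * b⁻¹) * (d * c⁻¹) := by
            simp only [mul_assoc, mul_comm, mul_left_comm]
        _ = d * c⁻¹ := by rw [inv_mul_cancel, mul_inv_cancel, one_mul, one_mul]
    rw [e1] at h5
    have h6 := (H i).inv_mem h5
    rwa [inv_inv] at h6
  have := Nat.card_le_card_of_injective f hf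
  rw [Nat.card_eq_fintype_card] at this
  simpa [Subgroup.relIndex, Subgroup.index] using this

/-- If the image of `W` in the product of the `G / L i` has index at most `n`, then so does its
image in the product of the `G / H i`. -/
theorem prod_index_le {ι : Type*} [Fintype ι] (W : Subgroup G) (L H : ι → Subgroup G) (n : ℕ)
    (hLH : ∀ i, L i ≤ H i) (hL : ∀ i, (L i).index ≠ 0)
    (h : ∏ i, (L i).index ≤ n * (⨅ i, L i).relIndex W) :
    ∏ i, (H i).index ≤ n * (⨅ i, H i).relIndex W := by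
  classical
  have hfL : ∀ i, Finite (G ⧸ L i) := fun i => by
    have : (L i).FiniteIndex := ⟨hL i⟩
    exact Subgroup.finite_quotient_of_finiteIndex
  have hH : ∀ i, (H i).index ≠ 0 := fun i h0 =>
    hL i (Nat.eq_zero_of_zero_dvd (h0 ▸ Subgroup.index_dvd_of_le (hLH i)))
  have hfH : ∀ i, Finite (G ⧸ H i) := fun i => by
    have : (H i).FiniteIndex := ⟨hH i⟩
    exact Subgroup.finite_quotient_of_finiteIndex
  let p : G →* ((i : ι) → G ⧸ L i) := MonoidHom.pi (fun i => QuotientGroup.mk' (L i))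
  let q : ((i : ι) → G ⧸ L i) →* ((i : ι) → G ⧸ H i) :=
    MonoidHom.pi (fun i => (QuotientGroup.map (L i) (H i) (MonoidHom.id G) (hLH i)).comp
      (Pi.evalMonoidHom _ i))
  have hq : Function.Surjective q := by
    intro y
    choose g hg using fun i => QuotientGroup.mk_surjective (y i)
    refine ⟨fun i => QuotientGroup.mk (g i), ?_⟩
    funext i
    exact hg i
  have hcard : ∀ (M : ι → Subgroup G), (∀ i, Finite (G ⧸ M i)) →
      Nat.card (W.map (MonoidHom.pi (fun i => QuotientGroup.mk' (M i)) :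
        G →* ((i : ι) → G ⧸ M i))) = (⨅ i, M i).relIndex W := by
    intro M hM
    rw [← Subgroup.relIndex_ker]
    congr 1
    ext x
    simp only [MonoidHom.mem_ker, Subgroup.mem_iInf]
    constructor
    · intro hx i
      have h1 : (QuotientGroup.mk x : G ⧸ M i) = 1 := congrFun hx i
      exact (QuotientGroup.eq_one_iff x).mp h1
    · intro hx
      funext i
      exact (QuotientGroup.eq_one_iff x).mpr (hx i)
  have h1 : Nat.card (W.map p) * (W.map p).index = ∏ i, (L i).index := by
    rw [Subgroup.card_mul_index, Nat.card_pi]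
    rfl
  have h2 : Nat.card ((W.map p).map q) * ((W.map p).map q).index = ∏ i, (H i).index := by
    rw [Subgroup.card_mul_index, Nat.card_pi]
    rfl
  have h3 : (W.map p).map q = W.map (MonoidHom.pi (fun i => QuotientGroup.mk' (H i)) :
        G →* ((i : ι) → G ⧸ H i)) := by
    rw [Subgroup.map_map]
    congr 1
  have h4 : ((W.map p).map q).index ∣ (W.map p).index :=
    Subgroup.index_map_dvd _ hq
  have h5 : (W.map p).index ≤ n := by
    have h6 : Nat.card (W.map p) = (⨅ i, L i).relIndex W := hcard L hfL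
    rw [← h1, h6, mul_comm] at h
    have h7 : 0 < Nat.card (W.map p) := Nat.card_pos
    rw [h6] at h7
    exact Nat.le_of_mul_le_mul_right h h7
  have h8 : (W.map p).index ≠ 0 := Subgroup.index_ne_zero_of_finite
  have h9 := (Nat.le_of_dvd (Nat.pos_of_ne_zero h8) h4).trans h5
  rw [← h2, h3, hcard H hfH]
  rw [h3] at h9
  rw [mul_comm]
  exact Nat.mul_le_mul_right _ h9

/-- A proper subgroup containing the `p`-th powers has index at least `p`. -/
theorem le_index_of_pow_mem {p : ℕ} (hp : p.Prime) (H : Subgroup G) (hH : ∀ g, g ^ p ∈ H)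
    (hne : H.index ≠ 0) (hT : H ≠ ⊤) : p ≤ H.index := by
  obtain ⟨g, hg⟩ : ∃ g, g ∉ H := by
    by_contra hc
    push Not at hc
    exact hT (eq_top_iff.mpr fun g _ => hc g)
  have h1 := pow_le_relIndex (ι := Unit) hp H ⊤ (fun _ => H) (fun _ => le_rfl) (fun _ => g)
    (fun _ => hg) (fun _ => hH g) (fun e => ⟨g ^ e (), Subgroup.mem_top _, fun _ => by
      rw [div_self']; exact H.one_mem⟩) (by rwa [Subgroup.relIndex_top_right])
  simpa [Subgroup.relIndex_top_right] using h1

end Vale.Agent.P011.ArP
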