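import Vale.Agent.P011.ArP.LocS
import Vale.Agent.P011.Arith.LocalB

/-!
Units at the places prime to `p`.
-/

open NumberField IsDedekindDomain Polynomial

namespace Vale.Agent.P011.ArP

open Vale.Agent.P011.Arith (Z0 exists_residue finite_residue mk_eq_zero_iff)

/-- In a finite field a non-`p`-th power generates the units modulo `p`-th powers. -/
theorem ff_cyc {k : Type} [Field k] [Finite k] {p : ℕ} (hp : p.Prime) {a b : k} (ha0 : a ≠ 0)
    (hb : b ≠ 0) (ha : ∀ c : k, c ^ p ≠ a) : ∃ i : ℕ, i < p ∧ ∃ c : k, b * a ^ i = c ^ p := by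
  obtain ⟨g, hg⟩ := IsCyclic.exists_generator (α := kˣ)
  obtain ⟨m, hm⟩ := Subgroup.mem_zpowers_iff.mp (hg (Units.mk0 a ha0))
  obtain ⟨n, hn⟩ := Subgroup.mem_zpowers_iff.mp (hg (Units.mk0 b hb))
  have hpm : ¬ (p : ℤ) ∣ m := by
    rintro ⟨j, rfl⟩
    apply ha ((g ^ j : kˣ) : k)
    rw [← Units.val_pow_eq_pow_val, ← zpow_natCast, ← zpow_mul, mul_comm, hm, Units.val_mk0]
  have hcop : IsCoprime m (p : ℤ) := by
    rw [Int.isCoprime_iff_gcd_eq_one, Int.gcd_comm]
    exact (Nat.Prime.coprime_iff_not_dvd hp).mpr (fun h => hpm (Int.natCast_dvd.mpr h))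
  obtain ⟨u, v, huv⟩ := hcop
  have hp0 : (0 : ℤ) < p := by exact_mod_cast hp.pos
  refine ⟨((-n * u) % p).toNat, ?_, ?_⟩
  · have h1 := Int.emod_lt_of_pos (-n * u) hp0
    have h2 := Int.emod_nonneg (-n * u) hp0.ne'
    omega
  · have h2 := Int.emod_nonneg (-n * u) hp0.ne'
    obtain ⟨q, hq⟩ : ∃ q : ℤ, n + m * (((-n * u) % p).toNat : ℤ) = p * q := by
      rw [Int.toNat_of_nonneg h2]
      have h3 := Int.emod_add_mul_ediv (-n * u) p
      refine ⟨n * v - m * ((-n * u) / p), ?_⟩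
      have h4 : (-n * u) % p = -n * u - p * ((-n * u) / p) := by linarith
      rw [h4]
      linear_combination (-n) * huv
    refine ⟨((g ^ q : kˣ) : k), ?_⟩
    have h5 : Units.mk0 b hb * Units.mk0 a ha0 ^ ((-n * u) % p).toNat = (g ^ q) ^ p := by
      rw [← hm, ← hn, ← zpow_natCast, ← zpow_natCast, ← zpow_mul, ← zpow_mul, ← zpow_add, hq,
        mul_comm]
    have h6 := congrArg Units.val h5
    simpa using h6

variable {p : ℕ} {F : Type} [Field F] [NumberField F] {M : Mu p F}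

theorem val_l_eq_one {v : HeightOneSpectrum (𝓞 F)} (M : Mu p F) (hv : v.valuation F (p : F) = 1) :
    v.valuation F M.l = 1 := by
  rw [M.val_p] at hv
  have h1 : p - 1 ≠ 0 := by have := M.prime.two_le; omega
  exact (pow_eq_one_iff_left h1).mp hv

theorem val_lp_eq_one {v : HeightOneSpectrum (𝓞 F)} (M : Mu p F)
    (hv : v.valuation F (p : F) = 1) : v.valuation F (M.l ^ p) = 1 := by
  rw [map_pow, val_l_eq_one M hv, one_pow]

theorem pow_diff_lt {v : HeightOneSpectrum (𝓞 F)} {x y : F} (hx : v.valuation F x ≤ 1)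
    (hy : v.valuation F y ≤ 1) (h : v.valuation F (x - y) < 1) (n : ℕ) :
    v.valuation F (x ^ n - y ^ n) < 1 := by
  rw [← (Commute.all x y).geom_sum₂_mul n, map_mul]
  have h1 : v.valuation F (∑ i ∈ Finset.range n, x ^ i * y ^ (n - 1 - i)) ≤ 1 := by
    refine (v.valuation F).map_sum_le fun i _ => ?_
    rw [map_mul, map_pow, map_pow]
    exact mul_le_one' (pow_le_one' hx _) (pow_le_one' hy _)
  calc _ ≤ 1 * v.valuation F (x - y) := mul_le_mul_left h1 _
    _ < 1 := by rwa [one_mul]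

/-- A unit at a place prime to `p` which is a `p`-th power modulo the place is a local
`p`-th power. -/
theorem LS_of_residue {v : HeightOneSpectrum (𝓞 F)} (hv : v.valuation F (p : F) = 1) {a : Fˣ}
    (ha : v.valuation F (a : F) = 1) {s : 𝓞 F}
    (h : v.valuation F ((a : F) - algebraMap (𝓞 F) F s ^ p) < 1) : a ∈ LS M (v.valuation F) := by
  have hs1 : v.valuation F (algebraMap (𝓞 F) F s ^ p) = 1 := by
    have e : algebraMap (𝓞 F) F s ^ p = (a : F) + -((a : F) - algebraMap (𝓞 F) F s ^ p) := by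
      ring
    rw [e, Valuation.map_add_eq_of_lt_left, ha]
    rw [Valuation.map_neg, ha]; exact h
  have hs0 : algebraMap (𝓞 F) F s ≠ 0 := by
    intro h0
    rw [h0, zero_pow M.prime.ne_zero] at hs1
    simp at hs1
  refine ⟨Units.mk0 _ hs0, ?_⟩
  rw [Units.val_mk0, div_sub_one (pow_ne_zero p hs0), map_div₀, hs1, div_one, val_lp_eq_one M hv]
  exact h

/-- A unit that is a local `p`-th power is a `p`-th power in the residue field. -/
theorem residue_of_LS {v : HeightOneSpectrum (𝓞 F)} {a : Fˣ} (ha : v.valuation F (a : F) = 1)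
    (h : a ∈ LS M (v.valuation F)) {a0 : 𝓞 F}
    (ha0 : v.valuation F (algebraMap (𝓞 F) F a0 - a) < 1) :
    ∃ s : 𝓞 F, Ideal.Quotient.mk v.asIdeal s ^ p = Ideal.Quotient.mk v.asIdeal a0 := by
  obtain ⟨y, hy⟩ := h
  have hy0 : (y : F) ≠ 0 := y.ne_zero
  have h1 : v.valuation F ((a : F) / (y : F) ^ p) = 1 := by
    have := (v.valuation F).map_one_add_of_lt (x := (a : F) / (y : F) ^ p - 1)
      (lt_of_lt_of_le hy (M.val_lp_le _))
    rwa [add_sub_cancel] at this
  have hvy : v.valuation F (y : F) = 1 := by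
    rw [map_div₀, ha, map_pow] at h1
    have h2 : v.valuation F (y : F) ^ p = 1 := by
      have h3 : v.valuation F (y : F) ^ p ≠ 0 :=
        pow_ne_zero _ ((Valuation.ne_zero_iff _).mpr hy0)
      exact ((div_eq_one_iff_eq h3).mp h1).symm
    exact (pow_eq_one_iff_left M.prime.ne_zero).mp h2
  obtain ⟨s, hs⟩ := exists_residue v hvy.le
  refine ⟨s, ?_⟩
  rw [← sub_eq_zero, ← map_pow, ← map_sub, mk_eq_zero_iff]
  have e : algebraMap (𝓞 F) F (s ^ p - a0) = (algebraMap (𝓞 F) F s ^ p - (y : F) ^ p) +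
      (-((a : F) / (y : F) ^ p - 1) * (y : F) ^ p) + -(algebraMap (𝓞 F) F a0 - a) := by
    rw [map_sub, map_pow]
    field_simp
    ring
  rw [e]
  refine (v.valuation F).map_add_lt ((v.valuation F).map_add_lt
    (pow_diff_lt (v.valuation_le_one s) hvy.le hs p) ?_) ?_
  · rw [map_mul, Valuation.map_neg, map_pow, hvy, one_pow, mul_one]
    exact lt_of_lt_of_le hy (M.val_lp_le _)
  · rw [Valuation.map_neg]; exact ha0

/-- A unit is nonzero modulo the place. -/
theorem residue_ne_zero {v : HeightOneSpectrum (𝓞 F)} {a : F} (ha : v.valuation F a = 1)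
    {a0 : 𝓞 F} (ha0 : v.valuation F (algebraMap (𝓞 F) F a0 - a) < 1) :
    Ideal.Quotient.mk v.asIdeal a0 ≠ 0 := by
  rw [Ne, mk_eq_zero_iff]
  intro h
  have e : a = algebraMap (𝓞 F) F a0 - (algebraMap (𝓞 F) F a0 - a) := by ring
  have : v.valuation F a < 1 := by
    rw [e]; exact (v.valuation F).map_sub_lt h ha0
  rw [ha] at this
  exact lt_irrefl _ this

/-- The units modulo the local `p`-th powers are generated by any nontrivial class. -/
theorem unit_cyc (v : HeightOneSpectrum (𝓞 F)) (hv : v.valuation F (p : F) = 1) (a b : Fˣ)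
    (ha : v.valuation F (a : F) = 1) (hb : v.valuation F (b : F) = 1)
    (hna : a ∉ LS M (v.valuation F)) : ∃ i : ℕ, i < p ∧ b * a ^ i ∈ LS M (v.valuation F) := by
  have : v.asIdeal.IsMaximal := v.isMaximal
  have : Finite (𝓞 F ⧸ v.asIdeal) := finite_residue v
  let _ : Field (𝓞 F ⧸ v.asIdeal) := Ideal.Quotient.field v.asIdeal
  obtain ⟨a0, ha0⟩ := exists_residue v ha.le
  obtain ⟨b0, hb0⟩ := exists_residue v hb.le
  have h1 : ∀ c : 𝓞 F ⧸ v.asIdeal, c ^ p ≠ Ideal.Quotient.mk v.asIdeal a0 := by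
    intro c hc
    obtain ⟨s, rfl⟩ := Ideal.Quotient.mk_surjective c
    apply hna
    refine LS_of_residue hv ha (s := s) ?_
    rw [← sub_eq_zero, ← map_pow, ← map_sub, mk_eq_zero_iff] at hc
    have e : (a : F) - algebraMap (𝓞 F) F s ^ p =
        -(algebraMap (𝓞 F) F (s ^ p - a0)) + -(algebraMap (𝓞 F) F a0 - a) := by
      rw [map_sub, map_pow]; ring
    rw [e]
    exact (v.valuation F).map_add_lt (by rwa [Valuation.map_neg]) (by rwa [Valuation.map_neg])
  obtain ⟨i, hi, c, hc⟩ := ff_cyc M.prime (residue_ne_zero ha ha0) (residue_ne_zero hb hb0) h1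
  obtain ⟨s, rfl⟩ := Ideal.Quotient.mk_surjective c
  refine ⟨i, hi, LS_of_residue hv (by rw [Units.val_mul, Units.val_pow_eq_pow_val, map_mul,
    map_pow, ha, hb, one_pow, one_mul]) (s := s) ?_⟩
  rw [← sub_eq_zero, ← map_pow, ← map_pow, ← map_mul, ← map_sub, mk_eq_zero_iff] at hc
  have e : ((b * a ^ i : Fˣ) : F) - algebraMap (𝓞 F) F s ^ p =
      algebraMap (𝓞 F) F (b0 * a0 ^ i - s ^ p) +
        (-(algebraMap (𝓞 F) F b0 - b) * algebraMap (𝓞 F) F a0 ^ i) +
        (-(algebraMap (𝓞 F) F a0 ^ i - (a : F) ^ i)) * b := by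
    rw [map_sub, map_mul, map_pow, map_pow, Units.val_mul, Units.val_pow_eq_pow_val]; ring
  rw [e]
  refine (v.valuation F).map_add_lt ((v.valuation F).map_add_lt hc ?_) ?_
  · rw [map_mul, Valuation.map_neg, map_pow]
    calc _ ≤ v.valuation F (algebraMap (𝓞 F) F b0 - b) * 1 :=
          mul_le_mul_right (pow_le_one' (v.valuation_le_one a0) i) _
      _ < 1 := by rwa [mul_one]
  · rw [map_mul, hb, mul_one, Valuation.map_neg]
    exact pow_diff_lt (v.valuation_le_one a0) ha.le ha0 i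

/-- At a place prime to `p` units are norms from unramified extensions. -/
theorem unit_norm (v : HeightOneSpectrum (𝓞 F)) (hv : v.valuation F (p : F) = 1) (a b : Fˣ)
    (ha : v.valuation F (a : F) = 1) (hb : v.valuation F (b : F) = 1) :
    b ∈ NF M a ⊔ LS M (v.valuation F) := by
  by_cases hna : a ∈ LS M (v.valuation F)
  · rw [NF_sup_of_mem hna]
    exact Subgroup.mem_top b
  · obtain ⟨i, _, h1⟩ := unit_cyc v hv a b ha hb hna
    have h2 : a ^ i ∈ NF M a := Subgroup.pow_mem _ (self_mem_NF M a) i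
    have h3 : b = (a ^ i)⁻¹ * (b * a ^ i) := by rw [mul_comm, mul_inv_cancel_right]
    rw [h3]
    exact Subgroup.mul_mem_sup (Subgroup.inv_mem _ h2) h1

/-- There are units which are not local `p`-th powers. -/
theorem unit_index (M : Mu p F) (v : HeightOneSpectrum (𝓞 F)) (hv : v.valuation F (p : F) = 1) :
    ∃ a : Fˣ, v.valuation F (a : F) = 1 ∧ a ∉ LS M (v.valuation F) := by
  have : v.asIdeal.IsMaximal := v.isMaximal
  have : Finite (𝓞 F ⧸ v.asIdeal) := finite_residue v
  let _ : Field (𝓞 F ⧸ v.asIdeal) := Ideal.Quotient.field v.asIdeal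
  obtain ⟨z0, hz0⟩ := exists_residue v (M.val_zeta (v.valuation F)).le
  have hz : Ideal.Quotient.mk v.asIdeal z0 ≠ 0 := residue_ne_zero (M.val_zeta _) hz0
  have hzp : Ideal.Quotient.mk v.asIdeal z0 ^ p = 1 := by
    rw [← sub_eq_zero, ← map_pow, ← map_one (Ideal.Quotient.mk v.asIdeal), ← map_sub,
      mk_eq_zero_iff]
    have h1 := pow_diff_lt (v.valuation_le_one z0) (M.val_zeta (v.valuation F)).le hz0 p
    rw [M.zeta_pow] at h1
    rwa [map_sub, map_pow, map_one]
  have hz1 : Ideal.Quotient.mk v.asIdeal z0 ≠ 1 := by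
    intro h
    rw [← sub_eq_zero, ← map_one (Ideal.Quotient.mk v.asIdeal), ← map_sub, mk_eq_zero_iff] at h
    have h1 : v.valuation F M.l < 1 := by
      have e : M.l = -(algebraMap (𝓞 F) F (z0 - 1)) + (algebraMap (𝓞 F) F z0 - M.ζ) := by
        rw [map_sub, map_one, Mu.l]; ring
      rw [e]
      exact (v.valuation F).map_add_lt (by rwa [Valuation.map_neg]) hz0
    rw [val_l_eq_one M hv] at h1
    exact lt_irrefl _ h1
  have hninj : ¬ Function.Injective (fun t : 𝓞 F ⧸ v.asIdeal => t ^ p) := by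
    intro h
    apply hz1
    apply h
    change Ideal.Quotient.mk v.asIdeal z0 ^ p = 1 ^ p
    rw [hzp, one_pow]
  have hns : ¬ Function.Surjective (fun t : 𝓞 F ⧸ v.asIdeal => t ^ p) := fun h =>
    hninj (Finite.injective_iff_surjective.mpr h)
  rw [Function.Surjective] at hns
  push Not at hns
  obtain ⟨c0, hc0⟩ := hns
  obtain ⟨c, rfl⟩ := Ideal.Quotient.mk_surjective c0
  have hcne : Ideal.Quotient.mk v.asIdeal c ≠ 0 := by
    intro h
    exact hc0 0 (by rw [h]; exact zero_pow M.prime.ne_zero)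
  have hvc : v.valuation F (algebraMap (𝓞 F) F c) = 1 := by
    rw [Ne, mk_eq_zero_iff, not_lt] at hcne
    exact le_antisymm (v.valuation_le_one c) hcne
  have hc00 : algebraMap (𝓞 F) F c ≠ 0 := by
    intro h
    rw [h, map_zero] at hvc
    exact zero_ne_one hvc
  refine ⟨Units.mk0 _ hc00, hvc, fun h => ?_⟩
  obtain ⟨s, hs⟩ := residue_of_LS (a := Units.mk0 _ hc00) hvc h (a0 := c) (by
    rw [Units.val_mk0, sub_self, map_zero]; exact zero_lt_one)
  exact hc0 _ hs

end Vale.Agent.P011.ArP
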