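import Vale.Agent.P011.ArP.Defs

/-!
Local algebra for the Hasse norm theorem for Kummer extensions of odd prime degree: Newton
iteration, the Steinberg relation, and symmetry of the norm residue symbol.
-/

open NumberField IsDedekindDomain Polynomial

namespace Vale.Agent.P011.ArP

open Vale.Agent.P011.Arith (Z0)

section field

variable {p : ℕ} {F : Type} [Field F] (M : Mu p F)

include M in
theorem Mu.p_ne_zero : (p : F) ≠ 0 := by
  have : NeZero p := ⟨M.prime.ne_zero⟩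
  exact M.prim.neZero'.out

theorem Mu.zeta_pow : M.ζ ^ p = 1 := M.prim.pow_eq_one

theorem Mu.zeta_ne : M.ζ ≠ 0 := M.prim.ne_zero M.prime.ne_zero

theorem Mu.val_zeta (w : Valuation F Z0) : w M.ζ = 1 := by
  have h2 : w M.ζ ^ p = 1 := by rw [← map_pow, M.zeta_pow, map_one]
  exact (pow_eq_one_iff_left M.prime.ne_zero).mp h2

theorem val_nat_le (w : Valuation F Z0) (n : ℕ) : w (n : F) ≤ 1 := by
  induction n with
  | zero => rw [Nat.cast_zero, map_zero]; exact zero_le
  | succ n ih => rw [Nat.cast_succ]; exact w.map_add_le ih (by rw [map_one])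

theorem val_one_sub_pow_le {x : F} (w : Valuation F Z0) (hx : w x ≤ 1) (k : ℕ) :
    w (1 - x ^ k) ≤ w (1 - x) := by
  have h : ∀ n : ℕ, w (∑ i ∈ Finset.range n, x ^ i) ≤ 1 := by
    intro n
    refine w.map_sum_le fun i _ => ?_
    rw [map_pow]
    exact pow_le_one' hx i
  rw [← mul_neg_geom_sum, map_mul]
  calc w (1 - x) * w (∑ i ∈ Finset.range k, x ^ i) ≤ w (1 - x) * 1 := mul_le_mul_right (h k) _
    _ = w (1 - x) := mul_one _

theorem Mu.val_one_sub_pow (w : Valuation F Z0) {k : ℕ} (hk : ¬ p ∣ k) :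
    w (1 - M.ζ ^ k) = w M.l := by
  refine le_antisymm (val_one_sub_pow_le w (M.val_zeta w).le k) ?_
  have hcop : Nat.Coprime k p := (Nat.coprime_comm.mp ((M.prime.coprime_iff_not_dvd).mpr hk))
  obtain ⟨j, hj⟩ := Nat.exists_mul_mod_eq_one_of_coprime hcop M.prime.one_lt
  have h1 : (M.ζ ^ k) ^ j = M.ζ := by
    have h2 := Nat.div_add_mod (k * j) p
    rw [hj.2] at h2
    rw [← pow_mul, ← h2, pow_add, pow_mul, M.zeta_pow, one_pow, one_mul, pow_one]
  calc w M.l = w (1 - (M.ζ ^ k) ^ j) := by rw [h1]; rfl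
    _ ≤ w (1 - M.ζ ^ k) := val_one_sub_pow_le w (by rw [map_pow, M.val_zeta, one_pow]) j

theorem Mu.val_p (w : Valuation F Z0) : w (p : F) = w M.l ^ (p - 1) := by
  have hp1 : p - 1 + 1 = p := Nat.sub_add_cancel M.prime.one_le
  have hprim : IsPrimitiveRoot M.ζ (p - 1 + 1) := by rw [hp1]; exact M.prim
  have h1 := hprim.prod_one_sub_pow_eq_order
  have h2 : ((p - 1 : ℕ) : F) + 1 = (p : F) := by
    rw [← Nat.cast_add_one, hp1]
  rw [h2] at h1
  rw [← h1, map_prod, Finset.prod_congr rfl (g := fun _ => w M.l), Finset.prod_const,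
    Finset.card_range]
  intro k hk
  rw [Finset.mem_range] at hk
  exact M.val_one_sub_pow w fun hd => by
    have := Nat.le_of_dvd (Nat.succ_pos k) hd
    omega

theorem Mu.val_lp_ne (w : Valuation F Z0) : w (M.l ^ p) ≠ 0 :=
  (Valuation.ne_zero_iff w).mpr (pow_ne_zero p M.l_ne_zero)

theorem Mu.val_lp_le (w : Valuation F Z0) : w (M.l ^ p) ≤ 1 := by
  rw [map_pow]
  exact pow_le_one' (M.val_l_le w) p

theorem z0_lt_iff {x y : Z0} (hy : y ≠ 0) : x < y ↔ x ≤ y * WithZero.exp (-1 : ℤ) := by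
  rw [← WithZero.lt_mul_exp_iff_le (mul_ne_zero hy WithZero.exp_ne_zero), mul_assoc,
    ← WithZero.exp_add]
  simp

/-- The binomial expansion modulo the square. -/
theorem val_binom (w : Valuation F Z0) (s : F) {t : Z0} (ht : t ≤ 1)
    (hs : w s ≤ w M.l * t) : w ((1 + s) ^ p - (1 + p * s)) ≤ w (M.l ^ p) * t ^ 2 := by
  have hs1 : w s ≤ 1 := hs.trans (mul_le_one' (M.val_l_le w) ht)
  have hst : w s ≤ t := hs.trans (by
    calc w M.l * t ≤ 1 * t := mul_le_mul_left (M.val_l_le w) t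
      _ = t := one_mul t)
  have hnat : ∀ n : ℕ, w (n : F) ≤ 1 := val_nat_le w
  rw [add_comm 1 s, add_pow_prime_eq M.prime]
  have h01 : (1 : ℕ) ∈ Finset.Ioo 0 p := Finset.mem_Ioo.mpr ⟨one_pos, M.prime.one_lt⟩
  rw [← Finset.add_sum_erase _ _ h01]
  have e1 : s ^ p + 1 ^ p + (p : F) * s * 1 * (s ^ (1 - 1) * 1 ^ (p - 1 - 1) * ((p.choose 1 / p : ℕ) : F)
      + ∑ k ∈ (Finset.Ioo 0 p).erase 1, s ^ (k - 1) * 1 ^ (p - k - 1) * ((p.choose k / p : ℕ) : F))
      - (1 + p * s) = s ^ p + p * (s * ∑ k ∈ (Finset.Ioo 0 p).erase 1,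
        s ^ (k - 1) * 1 ^ (p - k - 1) * ((p.choose k / p : ℕ) : F)) := by
    rw [Nat.choose_one_right, Nat.div_self M.prime.pos, Nat.cast_one, one_pow, one_pow, Nat.sub_self,
      pow_zero]
    ring
  rw [e1]
  refine w.map_add_le ?_ ?_
  · rw [map_pow]
    calc w s ^ p ≤ (w M.l * t) ^ p := pow_le_pow_left' hs p
      _ = w M.l ^ p * t ^ p := mul_pow _ _ _
      _ ≤ w M.l ^ p * t ^ 2 :=
        mul_le_mul_right (pow_le_pow_right_of_le_one' ht M.prime.two_le) _
      _ = w (M.l ^ p) * t ^ 2 := by rw [map_pow]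
  · have h1 : w (∑ k ∈ (Finset.Ioo 0 p).erase 1,
        s ^ (k - 1) * 1 ^ (p - k - 1) * ((p.choose k / p : ℕ) : F)) ≤ w s := by
      refine w.map_sum_le fun k hk => ?_
      rw [Finset.mem_erase, Finset.mem_Ioo] at hk
      obtain ⟨j, hj⟩ : ∃ j, k - 1 = j + 1 := ⟨k - 2, by omega⟩
      rw [one_pow, mul_one, map_mul, map_pow, hj, pow_succ]
      calc w s ^ j * w s * w _ ≤ w s ^ j * w s * 1 := mul_le_mul_right (hnat _) _
        _ ≤ 1 * w s * 1 := by
          rw [mul_one, mul_one]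
          exact mul_le_mul_left (pow_le_one' hs1 j) _
        _ = w s := by rw [one_mul, mul_one]
    rw [map_mul, map_mul, M.val_p, map_pow]
    calc w M.l ^ (p - 1) * (w s * w _) ≤ w M.l ^ (p - 1) * (w s * w s) :=
          mul_le_mul_right (mul_le_mul_right h1 _) _
      _ ≤ w M.l ^ (p - 1) * ((w M.l * t) * t) :=
          mul_le_mul_right (mul_le_mul' hs hst) _
      _ = w M.l ^ (p - 1 + 1) * t ^ 2 := by rw [pow_succ, sq]; simp only [mul_assoc]
      _ = w M.l ^ p * t ^ 2 := by rw [Nat.sub_add_cancel M.prime.one_le]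

variable {M} {w : Valuation F Z0}

/-- Newton iteration -/
theorem LS_newton {x : Fˣ} (hx : x ∈ LS M w) (n : ℕ) :
    ∃ y : Fˣ, w ((x : F) / (y : F) ^ p - 1) ≤ w (M.l ^ p) * WithZero.exp (-(n + 1 : ℤ)) := by
  have hp0 := M.p_ne_zero
  induction n with
  | zero =>
    obtain ⟨y, hy⟩ := hx
    refine ⟨y, ?_⟩
    rw [z0_lt_iff (M.val_lp_ne w)] at hy
    simpa using hy
  | succ n ih =>
    obtain ⟨y, hy⟩ := ih
    set e : F := (x : F) / (y : F) ^ p - 1 with he
    set t : Z0 := WithZero.exp (-(n + 1 : ℤ)) with ht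
    have ht1 : t < 1 := by
      rw [ht, ← WithZero.exp_zero, WithZero.exp_lt_exp]; omega
    have hy0 : (y : F) ≠ 0 := y.ne_zero
    have hx4 : (x : F) / (y : F) ^ p = 1 + e := by rw [he]; ring
    have hl0 : w M.l ≠ 0 := (Valuation.ne_zero_iff w).mpr M.l_ne_zero
    have hws : w (e / p) ≤ w M.l * t := by
      rw [map_div₀, M.val_p, div_le_iff₀ (zero_lt_iff.mpr (pow_ne_zero _ hl0))]
      calc w e ≤ w (M.l ^ p) * t := hy
        _ = w M.l ^ (p - 1 + 1) * t := by rw [map_pow, Nat.sub_add_cancel M.prime.one_le]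
        _ = w M.l * t * w M.l ^ (p - 1) := by
          rw [pow_succ, mul_assoc, mul_comm]
    have hws1 : w (e / p) < 1 := lt_of_le_of_lt hws (by
      calc w M.l * t ≤ 1 * t := mul_le_mul_left (M.val_l_le w) t
        _ < 1 := by rwa [one_mul])
    have h1 : w (1 + e / p) = 1 := w.map_one_add_of_lt hws1
    have hne : (1 + e / p : F) ≠ 0 := by
      intro h; rw [h, map_zero] at h1; exact zero_ne_one h1
    refine ⟨y * Units.mk0 _ hne, ?_⟩
    have hb := val_binom M w (e / p) ht1.le hws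
    have e1 : (x : F) / ((y * Units.mk0 _ hne : Fˣ) : F) ^ p - 1 =
        -(((1 + e / p) ^ p - (1 + p * (e / p))) / (1 + e / p) ^ p) := by
      rw [Units.val_mul, Units.val_mk0, mul_pow, ← div_div, hx4,
        div_sub_one (pow_ne_zero p hne), ← neg_div]
      congr 1
      field_simp
      ring
    rw [e1, Valuation.map_neg, map_div₀, map_pow, h1, one_pow, div_one]
    refine hb.trans (mul_le_mul_right ?_ _)
    rw [ht, ← WithZero.exp_nsmul, WithZero.exp_le_exp]
    push_cast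
    simp only [nsmul_eq_mul]
    push_cast
    omega

/-- Newton iteration with an arbitrary nonzero bound. -/
theorem LS_newton' {x : Fˣ} (hx : x ∈ LS M w) {γ : Z0} (hγ : γ ≠ 0) :
    ∃ y : Fˣ, w ((x : F) / (y : F) ^ p - 1) < γ := by
  obtain ⟨y, hy⟩ := LS_newton hx (WithZero.log γ).natAbs
  refine ⟨y, lt_of_le_of_lt hy ?_⟩
  calc w (M.l ^ p) * WithZero.exp (-(((WithZero.log γ).natAbs : ℕ) + 1 : ℤ)) ≤
        1 * WithZero.exp (-(((WithZero.log γ).natAbs : ℕ) + 1 : ℤ)) :=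
          mul_le_mul_left (M.val_lp_le w) _
    _ < WithZero.exp (WithZero.log γ) := by rw [one_mul, WithZero.exp_lt_exp]; omega
    _ = γ := WithZero.exp_log hγ

theorem LS_of_close {x : Fˣ} (h : w ((x : F) - 1) < w (M.l ^ p)) : x ∈ LS M w :=
  ⟨1, by simpa using h⟩

theorem pow_mem_LS (x : Fˣ) : x ^ p ∈ LS M w := by
  refine ⟨x, ?_⟩
  have hx : (x : F) ≠ 0 := x.ne_zero
  rw [Units.val_pow_eq_pow_val, div_self (pow_ne_zero p hx), sub_self, map_zero]
  exact zero_lt_iff.mpr (M.val_lp_ne w)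

theorem Pw_le_LS : Pw p F ≤ LS M w := by
  rintro _ ⟨y, rfl⟩
  exact pow_mem_LS y

theorem LS_val {x : Fˣ} (hx : x ∈ LS M w) : ∃ y : Fˣ, w (x : F) = w (y : F) ^ p := by
  obtain ⟨y, hy⟩ := hx
  refine ⟨y, ?_⟩
  have hy0 : (y : F) ≠ 0 := y.ne_zero
  have h1 : w ((x : F) / (y : F) ^ p) = 1 := by
    have := w.map_one_add_of_lt (x := (x : F) / (y : F) ^ p - 1)
      (lt_of_lt_of_le hy (M.val_lp_le w))
    rwa [add_sub_cancel] at this
  rw [map_div₀, map_pow, div_eq_one_iff_eq] at h1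
  · exact h1
  · exact pow_ne_zero p ((Valuation.ne_zero_iff w).mpr hy0)

/-! ### The norm form -/

variable (M)

theorem Mu.eval_nf_pow (h : F[X]) (c : F) :
    (M.nf h).eval (c ^ p) = ∏ i ∈ Finset.range p, h.eval (M.ζ ^ i * c) := by
  rw [← expand_eval, M.expand_nf, Mu.cj, eval_prod]
  refine Finset.prod_congr rfl fun i _ => ?_
  rw [eval_comp, eval_mul, eval_C, eval_X]

/-- The norm form in an algebra containing a root. -/
theorem Mu.aeval_nf {E : Type} [CommRing E] [Algebra F E] (h : F[X]) {x : E} {a : F}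
    (hx : x ^ p = algebraMap F E a) :
    algebraMap F E ((M.nf h).eval a) =
      ∏ i ∈ Finset.range p, aeval (algebraMap F E (M.ζ ^ i) * x) h := by
  have h1 : aeval x (expand F p (M.nf h)) = algebraMap F E ((M.nf h).eval a) := by
    rw [expand_aeval, hx, aeval_algebraMap_apply_eq_algebraMap_eval]
  rw [← h1, M.expand_nf, Mu.cj, map_prod]
  refine Finset.prod_congr rfl fun i _ => ?_
  rw [aeval_comp, map_mul, aeval_C, aeval_X]

theorem Mu.nf_scale (h : F[X]) (c : F) :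
    M.nf (h.comp (C c * X)) = (M.nf h).comp (C (c ^ p) * X) := by
  apply M.nf_eq
  have h1 : expand F p ((M.nf h).comp (C (c ^ p) * X)) = (expand F p (M.nf h)).comp (C c * X) := by
    rw [expand_eq_comp_X_pow, expand_eq_comp_X_pow, comp_assoc, comp_assoc]
    congr 1
    rw [mul_comp, C_comp, X_comp, X_pow_comp, mul_pow, C_pow]
  rw [h1, M.expand_nf, Mu.cj, Mu.cj, prod_comp]
  refine Finset.prod_congr rfl fun i _ => ?_
  rw [comp_assoc, comp_assoc]
  congr 1
  rw [mul_comp, mul_comp, C_comp, C_comp, X_comp, X_comp]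
  ring

theorem Pw_le_NF (a : Fˣ) : Pw p F ≤ NF M a := by
  rintro _ ⟨y, rfl⟩
  exact ⟨C (y : F), by rw [M.nf_C, eval_C, powMonoidHom_apply, Units.val_pow_eq_pow_val]⟩

theorem NF_eq_top {a : Fˣ} (ha : a ∈ Pw p F) : NF M a = ⊤ := by
  obtain ⟨c, rfl⟩ := ha
  rw [eq_top_iff]
  intro b _
  have hc0 : (c : F) ≠ 0 := c.ne_zero
  have hp0 := M.p_ne_zero
  refine ⟨1 + C (((b : F) - 1) / (p * (c : F) ^ (p - 1))) *
    ∑ j ∈ Finset.range p, X ^ j * C (c : F) ^ (p - 1 - j), ?_⟩
  rw [powMonoidHom_apply, Units.val_pow_eq_pow_val, M.eval_nf_pow]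
  rw [Finset.prod_eq_single_of_mem 0 (Finset.mem_range.mpr M.prime.pos)]
  · rw [pow_zero, one_mul, eval_add, eval_one, eval_mul, eval_C, eval_finsetSum]
    have h1 : ∑ j ∈ Finset.range p, eval (c : F) (X ^ j * C (c : F) ^ (p - 1 - j)) =
        p * (c : F) ^ (p - 1) := by
      rw [Finset.sum_congr rfl (g := fun _ => (c : F) ^ (p - 1)), Finset.sum_const,
        Finset.card_range, nsmul_eq_mul]
      intro j hj
      rw [Finset.mem_range] at hj
      rw [eval_mul, eval_pow, eval_X, eval_pow, eval_C, ← pow_add]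
      congr 1
      omega
    rw [h1]
    field_simp
    ring
  · intro i hi hi0
    rw [eval_add, eval_one, eval_mul, eval_C, eval_finsetSum]
    have h1 : ∑ j ∈ Finset.range p, eval (M.ζ ^ i * (c : F)) (X ^ j * C (c : F) ^ (p - 1 - j)) =
        0 := by
      have h2 := (Commute.all (M.ζ ^ i * (c : F)) (c : F)).geom_sum₂_mul p
      rw [mul_pow, ← pow_mul, mul_comm i p, pow_mul, M.zeta_pow, one_pow, one_mul, sub_self] at h2
      have h3 : M.ζ ^ i * (c : F) - c ≠ 0 := by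
        rw [← sub_one_mul]
        refine mul_ne_zero (sub_ne_zero.mpr ?_) hc0
        intro h4
        exact hi0 (M.prim.pow_inj (Finset.mem_range.mp hi) M.prime.pos (by rw [h4, pow_zero]))
      have h5 := (mul_eq_zero.mp h2).resolve_right h3
      rw [← h5]
      refine Finset.sum_congr rfl fun j _ => ?_
      rw [eval_mul, eval_pow, eval_X, eval_pow, eval_C]
    rw [h1, mul_zero, add_zero]

theorem NF_mul_pow (a c : Fˣ) : NF M (a * c ^ p) = NF M a := by
  have hc0 : (c : F) ≠ 0 := c.ne_zero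
  have key : ∀ a c : Fˣ, NF M (a * c ^ p) ≤ NF M a := by
    rintro a c b ⟨h, hb⟩
    refine ⟨h.comp (C (c : F) * X), ?_⟩
    rw [M.nf_scale, eval_comp, eval_mul, eval_C, eval_X, hb, Units.val_mul,
      Units.val_pow_eq_pow_val, mul_comm]
  refine le_antisymm (key a c) ?_
  have h1 := key (a * c ^ p) c⁻¹
  rwa [inv_pow, mul_inv_cancel_right] at h1

theorem Mu.prod_zeta : ∏ i ∈ Finset.range p, M.ζ ^ i = 1 := by
  rw [Finset.prod_pow_eq_pow_sum]
  have h1 : (∑ i ∈ Finset.range p, i) * 2 = p * (p - 1) := Finset.sum_range_id_mul_two p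
  obtain ⟨k, hk⟩ : ∃ k, p = 2 * k + 1 := M.prime.eq_two_or_odd'.resolve_left M.odd
  have h2 : ∑ i ∈ Finset.range p, i = p * k := by
    have h3 : p * (p - 1) = p * k * 2 := by
      have : p - 1 = k * 2 := by omega
      rw [this, mul_assoc]
    rw [h3] at h1
    exact Nat.eq_of_mul_eq_mul_right two_pos h1
  rw [h2, pow_mul, M.zeta_pow, one_pow]

theorem Mu.nf_X : M.nf X = X := by
  apply M.nf_eq
  rw [expand_X, Mu.cj]
  simp only [X_comp, Finset.prod_mul_distrib, Finset.prod_const, Finset.card_range]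
  rw [← map_prod, M.prod_zeta, C_1, one_mul]

theorem Mu.nf_neg_one : M.nf (-1) = -1 := by
  have h1 : (-1 : F[X]) = C (-1) := by rw [C_neg, C_1]
  have hodd : Odd p := M.prime.odd_of_ne_two M.odd
  rw [h1, M.nf_C, hodd.neg_one_pow]

theorem self_mem_NF (a : Fˣ) : a ∈ NF M a := ⟨X, by rw [M.nf_X, eval_X]⟩

theorem neg_mem_NF (a : Fˣ) : -a ∈ NF M a :=
  ⟨-1 * X, by rw [M.nf_mul, M.nf_neg_one, M.nf_X, eval_mul, eval_X, eval_neg, eval_one,
    Units.val_neg, neg_one_mul]⟩

theorem neg_one_mem_NF (a : Fˣ) : -1 ∈ NF M a :=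
  ⟨-1, by rw [M.nf_neg_one, eval_neg, eval_one, Units.val_neg, Units.val_one]⟩

theorem Mu.prod_X_sub : ∏ i ∈ Finset.range p, (X - C (M.ζ ^ i) : F[X]) = X ^ p - 1 := by
  classical
  have : NeZero p := ⟨M.prime.ne_zero⟩
  rw [X_pow_sub_one_eq_prod M.prime.pos M.prim]
  symm
  refine Finset.prod_bij' (fun x hx => Classical.choose
    (M.prim.eq_pow_of_pow_eq_one ((mem_nthRootsFinset M.prime.pos 1).mp hx)))
    (fun i _ => M.ζ ^ i) ?_ ?_ ?_ ?_ ?_
  · intro x hx
    rw [Finset.mem_range]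
    exact (Classical.choose_spec
      (M.prim.eq_pow_of_pow_eq_one ((mem_nthRootsFinset M.prime.pos 1).mp hx))).1
  · intro i _
    rw [mem_nthRootsFinset M.prime.pos, ← pow_mul, mul_comm, pow_mul, M.zeta_pow, one_pow]
  · intro x hx
    exact (Classical.choose_spec
      (M.prim.eq_pow_of_pow_eq_one ((mem_nthRootsFinset M.prime.pos 1).mp hx))).2
  · intro i hi
    have h1 : (M.ζ ^ i) ^ p = 1 := by
      rw [← pow_mul, mul_comm, pow_mul, M.zeta_pow, one_pow]
    have h2 := Classical.choose_spec (M.prim.eq_pow_of_pow_eq_one h1)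
    exact M.prim.pow_inj h2.1 (Finset.mem_range.mp hi) h2.2
  · intro x hx
    rw [(Classical.choose_spec
      (M.prim.eq_pow_of_pow_eq_one ((mem_nthRootsFinset M.prime.pos 1).mp hx))).2]

/-- `∏ (1 - ζ ^ i x) = 1 - x ^ p` -/
theorem Mu.nf_one_sub_X : M.nf (1 - X) = 1 - X := by
  have h1 := M.expand_nf (1 - X)
  have h2 : (M.nf (1 - X)).natDegree ≤ 1 := by
    have h3 : (expand F p (M.nf (1 - X))).natDegree ≤ p := by
      rw [h1, Mu.cj]
      refine (natDegree_prod_le _ _).trans ?_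
      calc ∑ i ∈ Finset.range p, ((1 - X : F[X]).comp (C (M.ζ ^ i) * X)).natDegree ≤
            ∑ i ∈ Finset.range p, 1 := Finset.sum_le_sum fun i _ => by
              rw [sub_comp, one_comp, X_comp]
              exact (natDegree_sub_le _ _).trans (max_le (by simp)
                ((natDegree_C_mul_le _ _).trans natDegree_X_le))
        _ = p := by simp
    rw [natDegree_expand] at h3
    by_contra h4
    push Not at h4
    have h5 : 2 * p ≤ (M.nf (1 - X)).natDegree * p := Nat.mul_le_mul_right p h4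
    have := M.prime.pos
    omega
  have h0 : (M.nf (1 - X)).eval 0 = 1 := by
    have h3 := M.eval_nf_pow (1 - X) 0
    rw [zero_pow M.prime.ne_zero] at h3
    rw [h3]
    simp
  have h1' : (M.nf (1 - X)).eval 1 = 0 := by
    have h3 := M.eval_nf_pow (1 - X) 1
    rw [one_pow] at h3
    rw [h3]
    exact Finset.prod_eq_zero (Finset.mem_range.mpr M.prime.pos) (by simp)
  obtain ⟨a, b, hab⟩ := exists_eq_X_add_C_of_natDegree_le_one h2
  rw [hab] at h0 h1'
  simp only [eval_add, eval_mul, eval_C, eval_X, mul_zero, zero_add, mul_one] at h0 h1'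
  rw [h0] at h1' hab
  have ha : a = -1 := by linear_combination h1'
  rw [hab, ha, C_neg, C_1]
  ring

/-- The Steinberg relation. -/
theorem steinberg (a b : Fˣ) (h : (a : F) + b = 1) : b ∈ NF M a := by
  refine ⟨1 - X, ?_⟩
  rw [M.nf_one_sub_X, eval_sub, eval_one, eval_X]
  linear_combination h

theorem not_pow_of_notMem {a : Fˣ} (ha : a ∉ Pw p F) (hp : p ≠ 0) : ∀ b : F, b ^ p ≠ a := by
  intro b hb
  have hb0 : b ≠ 0 := by
    rintro rfl
    rw [zero_pow hp] at hb
    exact a.ne_zero hb.symm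
  exact ha ⟨Units.mk0 b hb0, Units.ext (by simpa using hb)⟩

/-- The periodic product may be taken in the opposite order. -/
theorem Mu.cj_inv (h : F[X]) :
    ∏ i ∈ Finset.range p, h.comp (C ((M.ζ ^ (p - 1)) ^ i) * X) = M.cj h := by
  rw [Mu.cj, ← Finset.prod_range_reflect]
  have h2 : ∀ g : ℕ → F[X], g p = g 0 →
      ∏ i ∈ Finset.range p, g (i + 1) = ∏ i ∈ Finset.range p, g i := by
    intro g hg
    obtain ⟨q, hq⟩ : ∃ q, p = q + 1 := ⟨p - 1, (Nat.succ_pred_eq_of_pos M.prime.pos).symm⟩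
    rw [hq] at hg ⊢
    rw [Finset.prod_range_succ, Finset.prod_range_succ' g, hg]
  rw [← h2 (fun i => h.comp (C (M.ζ ^ i) * X)) (by simp only [M.zeta_pow, pow_zero])]
  refine Finset.prod_congr rfl fun i hi => ?_
  rw [Finset.mem_range] at hi
  congr 3
  have h4 : (M.ζ ^ (p - 1)) ^ (p - 1 - i) * M.ζ ^ (p - 1 - i) = 1 := by
    rw [← mul_pow, ← pow_succ, Nat.sub_add_cancel M.prime.one_le, M.zeta_pow, one_pow]
  have h5 : M.ζ ^ (i + 1) * M.ζ ^ (p - 1 - i) = 1 := by
    rw [← pow_add]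
    have : i + 1 + (p - 1 - i) = p := by omega
    rw [this, M.zeta_pow]
  exact mul_right_cancel₀ (pow_ne_zero _ M.zeta_ne) (h4.trans h5.symm)

end field

end Vale.Agent.P011.ArP
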