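import Vale.Agent.P011.Arith.LocalD
import Vale.Agent.P011.ArP.LocA

/-!
The index of the local `p`-th powers.
-/

open NumberField IsDedekindDomain

namespace Vale.Agent.P011.ArP

open Vale.Agent.P011.Arith (Z0 finite_quot_pow card_quot_pow absNorm_pos' exists_unit_lift emb
  emb_val alg_ne_zero val_eq_one z0_lt_iff_le_mul)

/-- The cokernel and the kernel of the `p`-th power map have the same order. -/
theorem card_quot_powp (p : ℕ) (A : Type) [CommGroup A] [Finite A] :
    Nat.card (A ⧸ (powMonoidHom p : A →* A).range) =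
      Nat.card (powMonoidHom p : A →* A).ker := by
  have h1 := Subgroup.card_eq_card_quotient_mul_card_subgroup (powMonoidHom p : A →* A).range
  have h2 := Subgroup.card_eq_card_quotient_mul_card_subgroup (powMonoidHom p : A →* A).ker
  have h3 : Nat.card (A ⧸ (powMonoidHom p : A →* A).ker) =
      Nat.card (powMonoidHom p : A →* A).range :=
    Nat.card_congr (QuotientGroup.quotientKerEquivRange _).toEquiv
  rw [h3] at h2
  have h4 : 0 < Nat.card (powMonoidHom p : A →* A).range := Nat.card_pos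
  rw [h1, mul_comm] at h2
  exact Nat.eq_of_mul_eq_mul_left h4 h2

variable {p : ℕ} {F : Type} [Field F] [NumberField F]

/-- The kernel of reduction from `𝓞 / v ^ (a + b)` to `𝓞 / v ^ a`. -/
theorem card_ker_factor' (v : HeightOneSpectrum (𝓞 F)) (a b : ℕ) :
    Nat.card (RingHom.ker (Ideal.Quotient.factor (S := v.asIdeal ^ (a + b))
      (T := v.asIdeal ^ a) (Ideal.pow_le_pow_right (by omega)))) =
      Ideal.absNorm v.asIdeal ^ b := by
  set f := Ideal.Quotient.factor (S := v.asIdeal ^ (a + b))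
      (T := v.asIdeal ^ a) (Ideal.pow_le_pow_right (by omega)) with hf
  have hfs : Function.Surjective f := Ideal.Quotient.factor_surjective _
  have h1 := AddSubgroup.card_eq_card_quotient_mul_card_addSubgroup f.toAddMonoidHom.ker
  have h2 : Nat.card ((𝓞 F ⧸ v.asIdeal ^ (a + b)) ⧸ f.toAddMonoidHom.ker) =
      Nat.card (𝓞 F ⧸ v.asIdeal ^ a) :=
    Nat.card_congr (QuotientAddGroup.quotientKerEquivOfSurjective f.toAddMonoidHom hfs).toEquiv
  have h3 : Nat.card f.toAddMonoidHom.ker = Nat.card (RingHom.ker f) := rfl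
  rw [h2, h3, card_quot_pow, card_quot_pow] at h1
  have h4 : 0 < Ideal.absNorm v.asIdeal ^ a := pow_pos (absNorm_pos' v) _
  have h5 : Ideal.absNorm v.asIdeal ^ (a + b) =
      Ideal.absNorm v.asIdeal ^ a * Ideal.absNorm v.asIdeal ^ b := by
    rw [← pow_add]
  rw [h5] at h1
  exact (Nat.eq_of_mul_eq_mul_left h4 h1).symm

omit [NumberField F] in
/-- The root of unity as an integer of the field. -/
theorem Mu.exists_int (M : Mu p F) : ∃ z : 𝓞 F, IsPrimitiveRoot z p := by
  have : NeZero p := ⟨M.prime.ne_zero⟩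
  exact ⟨M.prim.toInteger, M.prim.toInteger_isPrimitiveRoot⟩

/-- The `p`-torsion of the units of `𝓞 / v ^ (p * e + 1)`. -/
theorem card_torsion_le (M : Mu p F) (v : HeightOneSpectrum (𝓞 F)) (e : ℕ) :
    Nat.card (powMonoidHom p : (𝓞 F ⧸ v.asIdeal ^ ((e + 1) + (p - 1) * e))ˣ →* _).ker ≤
      p * Ideal.absNorm v.asIdeal ^ ((p - 1) * e) := by
  classical
  have : Finite (𝓞 F ⧸ v.asIdeal ^ ((e + 1) + (p - 1) * e)) := finite_quot_pow v _
  obtain ⟨z, hz⟩ := M.exists_int
  rw [← card_ker_factor' v (e + 1) ((p - 1) * e)]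
  set f := Ideal.Quotient.factor (S := v.asIdeal ^ ((e + 1) + (p - 1) * e))
      (T := v.asIdeal ^ (e + 1)) (Ideal.pow_le_pow_right (by omega)) with hf
  have hcard : (Polynomial.nthRootsFinset p (1 : 𝓞 F)).card = p := hz.card_nthRootsFinset
  have hpe : (e + 1) + (p - 1) * e = p * e + 1 := by
    obtain ⟨q, hq⟩ : ∃ q, p = q + 1 := ⟨p - 1, (Nat.succ_pred_eq_of_pos M.prime.pos).symm⟩
    rw [hq, Nat.add_sub_cancel]; ring
  have key : ∀ x : (powMonoidHom p : (𝓞 F ⧸ v.asIdeal ^ ((e + 1) + (p - 1) * e))ˣ →* _).ker,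
      ∃ q : (Polynomial.nthRootsFinset p (1 : 𝓞 F)) × RingHom.ker f,
        (((x : (𝓞 F ⧸ v.asIdeal ^ ((e + 1) + (p - 1) * e))ˣ) :
          𝓞 F ⧸ v.asIdeal ^ ((e + 1) + (p - 1) * e))) =
          Ideal.Quotient.mk _ (q.1 : 𝓞 F) +
            (q.2 : 𝓞 F ⧸ v.asIdeal ^ ((e + 1) + (p - 1) * e)) := by
    rintro ⟨x, hx⟩
    rw [MonoidHom.mem_ker, powMonoidHom_apply] at hx
    obtain ⟨s, hs⟩ := Ideal.Quotient.mk_surjective
      (x : 𝓞 F ⧸ v.asIdeal ^ ((e + 1) + (p - 1) * e))
    have hs2 : ∏ ζ ∈ Polynomial.nthRootsFinset p (1 : 𝓞 F), (s - ζ) ∈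
        v.asIdeal ^ ((e + 1) + (p - 1) * e) := by
      have h1 := hz.pow_sub_pow_eq_prod_sub_mul s 1 M.prime.pos
      simp only [mul_one, one_pow] at h1
      rw [← h1, ← Ideal.Quotient.eq_zero_iff_mem, map_sub, map_pow, map_one, hs]
      have := congrArg Units.val hx
      rw [Units.val_pow_eq_pow_val, Units.val_one] at this
      rw [this, sub_self]
    rw [← HeightOneSpectrum.intValuation_le_pow_iff_mem, map_prod] at hs2
    have hor : ∃ ζ ∈ Polynomial.nthRootsFinset p (1 : 𝓞 F), s - ζ ∈ v.asIdeal ^ (e + 1) := by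
      by_contra hcon
      push Not at hcon
      have g1 : ∀ ζ ∈ Polynomial.nthRootsFinset p (1 : 𝓞 F),
          WithZero.exp (-(e : ℤ)) ≤ v.intValuation (s - ζ) := by
        intro ζ hζ
        have hc1 := hcon ζ hζ
        rw [← HeightOneSpectrum.intValuation_le_pow_iff_mem, not_le] at hc1
        by_contra hlt
        rw [not_le, z0_lt_iff_le_mul WithZero.exp_ne_zero, ← WithZero.exp_add] at hlt
        apply absurd hlt
        rw [not_le]
        convert hc1 using 2
        push_cast; ring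
      have g3 := Finset.prod_le_prod' g1
      rw [Finset.prod_const, hcard, ← WithZero.exp_nsmul] at g3
      have g4 := le_trans g3 hs2
      rw [WithZero.exp_le_exp, hpe] at g4
      simp only [nsmul_eq_mul] at g4
      push_cast at g4
      nlinarith
    obtain ⟨ζ, hζ, h⟩ := hor
    refine ⟨(⟨ζ, hζ⟩, ⟨Ideal.Quotient.mk _ (s - ζ), ?_⟩), ?_⟩
    · rw [RingHom.mem_ker, hf, Ideal.Quotient.factor_mk, Ideal.Quotient.eq_zero_iff_mem]
      exact h
    · simp only
      rw [map_sub, hs]; ring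
  choose φ hφ using key
  have hinj : Function.Injective φ := by
    intro x y hxy
    have h1 := hφ x
    rw [hxy, ← hφ y] at h1
    exact Subtype.ext (Units.ext h1)
  have h2 := Nat.card_le_card_of_injective φ hinj
  rw [Nat.card_prod, Nat.card_eq_fintype_card (α := (Polynomial.nthRootsFinset p (1 : 𝓞 F))),
    Fintype.card_coe, hcard] at h2
  exact h2

theorem Mu.exists_exp (M : Mu p F) (v : HeightOneSpectrum (𝓞 F)) :
    ∃ e : ℕ, v.valuation F M.l = WithZero.exp (-(e : ℤ)) := by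
  have h0 : v.valuation F M.l ≠ 0 := (Valuation.ne_zero_iff _).mpr M.l_ne_zero
  have h1 := M.val_l_le (v.valuation F)
  refine ⟨(-(WithZero.log (v.valuation F M.l))).toNat, ?_⟩
  have h2 : WithZero.log (v.valuation F M.l) ≤ 0 := by
    rw [WithZero.log_le_iff_le_exp h0, WithZero.exp_zero]; exact h1
  rw [Int.toNat_of_nonneg (by omega), neg_neg, WithZero.exp_log h0]

/-- Congruent integers differ by a local `p`-th power. -/
theorem emb_cong (M : Mu p F) (v : HeightOneSpectrum (𝓞 F)) (e : ℕ)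
    (he : v.valuation F M.l = WithZero.exp (-(e : ℤ))) (s s' t : 𝓞 F) (hs : s ∉ v.asIdeal)
    (hs' : s' ∉ v.asIdeal) (ht : t ∉ v.asIdeal)
    (h : s - s' * t ^ p ∈ v.asIdeal ^ (p * e + 1)) :
    emb v s hs * (emb v s' hs')⁻¹ ∈ LS M (v.valuation F) := by
  rw [← HeightOneSpectrum.intValuation_le_pow_iff_mem,
    ← HeightOneSpectrum.valuation_of_algebraMap (K := F)] at h
  have hw4 : v.valuation F (M.l ^ p) = WithZero.exp (-(p * e : ℤ)) := by
    rw [map_pow, he, ← WithZero.exp_nsmul]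
    congr 1
    simp only [nsmul_eq_mul]
    ring
  have hs'0 := alg_ne_zero v hs'
  have ht0 := alg_ne_zero v ht
  refine ⟨emb v t ht, ?_⟩
  have e1 : ((emb v s hs * (emb v s' hs')⁻¹ : Fˣ) : F) / (emb v t ht : F) ^ p - 1 =
      algebraMap (𝓞 F) F (s - s' * t ^ p) / (algebraMap (𝓞 F) F s' *
        algebraMap (𝓞 F) F t ^ p) := by
    rw [Units.val_mul, Units.val_inv_eq_inv_val, emb_val, emb_val, emb_val, map_sub, map_mul,
      map_pow]
    field_simp
  rw [e1, map_div₀, map_mul, map_pow, val_eq_one v hs', val_eq_one v ht, one_pow, one_mul,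
    div_one, hw4]
  refine lt_of_le_of_lt h ?_
  rw [WithZero.exp_lt_exp]
  push_cast
  omega

theorem exists_rep (M : Mu p F) (v : HeightOneSpectrum (𝓞 F)) (π : Fˣ)
    (hp : v.valuation F (π : F) = WithZero.exp (-1)) (x : Fˣ) :
    ∃ (b : Fin p) (r : 𝓞 F) (hr : r ∉ v.asIdeal),
      x * (π ^ (b : ℕ) * emb v r hr)⁻¹ ∈ LS M (v.valuation F) := by
  have hprime : v.asIdeal.IsPrime := v.isPrime
  have hx0 : v.valuation F (x : F) ≠ 0 := (Valuation.ne_zero_iff _).mpr x.ne_zero
  set k : ℤ := WithZero.log (v.valuation F (x : F)) with hk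
  have hp0 : (0 : ℤ) < p := by exact_mod_cast M.prime.pos
  obtain ⟨j, b, hjb⟩ : ∃ (j : ℤ) (b : Fin p), k = p * j - (b : ℕ) := by
    have h1 := Int.emod_nonneg (-k) hp0.ne'
    have h2 := Int.emod_lt_of_pos (-k) hp0
    refine ⟨-(-k / p), ⟨(-k % p).toNat, ?_⟩, ?_⟩
    · omega
    · simp only
      rw [Int.toNat_of_nonneg h1]
      have := Int.mul_ediv_add_emod (-k) p
      linarith
  set u : Fˣ := x * (π ^ j) ^ p * (π ^ (b : ℕ))⁻¹ with hu
  have hwu : v.valuation F (u : F) = 1 := by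
    have hw1 : v.valuation F ((π ^ j : Fˣ) : F) = WithZero.exp (-j) := by
      rw [Units.val_zpow_eq_zpow_val, map_zpow₀, hp, ← WithZero.exp_zsmul]
      congr 1
      simp
    have hw2 : v.valuation F (((π ^ (b : ℕ))⁻¹ : Fˣ) : F) =
        WithZero.exp ((b : ℕ) : ℤ) := by
      rw [Units.val_inv_eq_inv_val, map_inv₀, Units.val_pow_eq_pow_val, map_pow, hp,
        ← WithZero.exp_nsmul, ← WithZero.exp_neg]
      congr 1
      simp
    rw [hu, Units.val_mul, Units.val_mul, Units.val_pow_eq_pow_val, map_mul, map_mul, map_pow,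
      hw1, hw2, ← WithZero.exp_log hx0, ← hk, hjb, ← WithZero.exp_nsmul, ← WithZero.exp_add,
      ← WithZero.exp_add, WithZero.exp_eq_one]
    simp only [nsmul_eq_mul]
    ring
  obtain ⟨n, ⟨d, hd⟩, hnd⟩ :=
    HeightOneSpectrum.exists_primeCompl_mul_eq_of_integer v (u : F) hwu.le
  have hd' : d ∉ v.asIdeal := hd
  have hnd1 : (u : F) * algebraMap (𝓞 F) F d = algebraMap (𝓞 F) F n := hnd
  have hn' : n ∉ v.asIdeal := by
    intro hn
    rw [← HeightOneSpectrum.valuation_lt_one_iff_mem (K := F)] at hn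
    have hn2 : v.valuation F (algebraMap (𝓞 F) F n) = 1 := by
      rw [← hnd1, map_mul, hwu, val_eq_one v hd', one_mul]
    exact absurd hn2 hn.ne
  have hnd' : n * d ^ (p - 1) ∉ v.asIdeal :=
    fun h => (hprime.mem_or_mem h).elim hn' (fun h => hd' (hprime.mem_of_pow_mem _ h))
  refine ⟨b, n * d ^ (p - 1), hnd', ?_⟩
  have e0 : emb v (n * d ^ (p - 1)) hnd' = u * emb v d hd' ^ p := by
    ext
    rw [Units.val_mul, Units.val_pow_eq_pow_val, emb_val, emb_val, map_mul, map_pow, ← hnd1,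
      mul_assoc, ← pow_succ', Nat.sub_add_cancel M.prime.pos]
  have e1 : x * (π ^ (b : ℕ) * emb v (n * d ^ (p - 1)) hnd')⁻¹ =
      ((π ^ j * emb v d hd') ^ p)⁻¹ := by
    rw [e0, hu]
    generalize π ^ j = J
    generalize π ^ (b : ℕ) = P
    generalize emb v d hd' = D
    ext
    have h1 : (x : F) ≠ 0 := x.ne_zero
    have h2 : (J : F) ≠ 0 := J.ne_zero
    have h3 : (P : F) ≠ 0 := P.ne_zero
    have h4 : (D : F) ≠ 0 := D.ne_zero
    simp only [Units.val_mul, Units.val_inv_eq_inv_val, Units.val_pow_eq_pow_val]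
    rw [mul_pow]
    field_simp
  rw [e1]
  exact (LS M _).inv_mem (pow_mem_LS _)

/-- The index of the local `p`-th powers is at most `p` times the order of the cokernel of the
`p`-th power map on the units of `𝓞 / v ^ (p * e + 1)`. -/
theorem exists_surj (M : Mu p F) (v : HeightOneSpectrum (𝓞 F)) (e n : ℕ) (hn : n = p * e)
    (he : v.valuation F M.l = WithZero.exp (-(e : ℤ))) :
    ∃ f : Fin p × ((𝓞 F ⧸ v.asIdeal ^ (n + 1))ˣ ⧸
      (powMonoidHom p : (𝓞 F ⧸ v.asIdeal ^ (n + 1))ˣ →* _).range) →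
        Fˣ ⧸ LS M (v.valuation F), Function.Surjective f := by
  have hmax : v.asIdeal.IsMaximal := v.isMaximal
  have hprime : v.asIdeal.IsPrime := v.isPrime
  obtain ⟨π', hπ⟩ := v.valuation_exists_uniformizer F
  have hπ0 : π' ≠ 0 := by
    rintro rfl
    rw [map_zero] at hπ
    exact WithZero.exp_ne_zero hπ.symm
  obtain ⟨π, hwp⟩ : ∃ π : Fˣ, v.valuation F (π : F) = WithZero.exp (-1) :=
    ⟨Units.mk0 π' hπ0, hπ⟩
  choose s hs hs' using exists_unit_lift v n
  refine ⟨fun q => QuotientGroup.mk (π ^ (q.1 : ℕ) * emb v (s q.2.out) (hs' q.2.out)), ?_⟩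
  intro X
  obtain ⟨x, rfl⟩ := QuotientGroup.mk_surjective X
  obtain ⟨b, r, hr, hx⟩ := exists_rep M v π hwp x
  have hunit : IsUnit (Ideal.Quotient.mk (v.asIdeal ^ (n + 1)) r) :=
    Ideal.Quotient.isUnit_mk_pow_of_notMem v.asIdeal hr
  refine ⟨(b, QuotientGroup.mk hunit.unit), ?_⟩
  obtain ⟨⟨h, τ, hτ⟩, hout⟩ := QuotientGroup.mk_out_eq_mul
    ((powMonoidHom p : (𝓞 F ⧸ v.asIdeal ^ (n + 1))ˣ →* _).range) hunit.unit
  dsimp only
  generalize (QuotientGroup.mk hunit.unit : (𝓞 F ⧸ v.asIdeal ^ (n + 1))ˣ ⧸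
      (powMonoidHom p : (𝓞 F ⧸ v.asIdeal ^ (n + 1))ˣ →* _).range).out = σ at hout ⊢
  obtain ⟨t, ht, ht'⟩ := exists_unit_lift v n τ
  have hcong : s σ - r * t ^ p ∈ v.asIdeal ^ (n + 1) := by
    rw [← Ideal.Quotient.eq_zero_iff_mem, map_sub, hs σ, map_mul, map_pow, ht, hout,
      Units.val_mul]
    simp only
    rw [← hτ, powMonoidHom_apply, Units.val_pow_eq_pow_val, IsUnit.unit_spec, sub_self]
  rw [hn] at hcong
  have hmem := emb_cong M v e he (s σ) r t (hs' σ) hr ht' hcong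
  rw [QuotientGroup.eq]
  have e2 : (π ^ (b : ℕ) * emb v (s σ) (hs' σ))⁻¹ * x =
      (emb v (s σ) (hs' σ) * (emb v r hr)⁻¹)⁻¹ * (x * (π ^ (b : ℕ) * emb v r hr)⁻¹) := by
    generalize emb v (s σ) (hs' σ) = S
    generalize π ^ (b : ℕ) = P
    generalize emb v r hr = R
    ext
    have h2 : (S : F) ≠ 0 := S.ne_zero
    have h3 : (P : F) ≠ 0 := P.ne_zero
    have h4 : (R : F) ≠ 0 := R.ne_zero
    simp only [Units.val_mul, Units.val_inv_eq_inv_val]
    field_simp
  rw [e2]
  exact (LS M _).mul_mem ((LS M _).inv_mem hmem) hx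

theorem LS_index_le (M : Mu p F) (v : HeightOneSpectrum (𝓞 F)) (e : ℕ)
    (he : v.valuation F M.l = WithZero.exp (-(e : ℤ))) :
    (LS M (v.valuation F)).index ≠ 0 ∧
      (LS M (v.valuation F)).index ≤ p ^ 2 * Ideal.absNorm v.asIdeal ^ ((p - 1) * e) := by
  have hpe : e + (p - 1) * e = p * e := by
    obtain ⟨q, hq⟩ : ∃ q, p = q + 1 := ⟨p - 1, (Nat.succ_pred_eq_of_pos M.prime.pos).symm⟩
    rw [hq, Nat.add_sub_cancel]; ring
  have h2 := card_torsion_le M v e
  have hpe' : (e + 1) + (p - 1) * e = (e + (p - 1) * e) + 1 := by ring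
  rw [hpe'] at h2
  have : Finite (𝓞 F ⧸ v.asIdeal ^ ((e + (p - 1) * e) + 1)) := finite_quot_pow v _
  obtain ⟨f, hf⟩ := exists_surj M v e (e + (p - 1) * e) hpe he
  have hfin : Finite (Fˣ ⧸ LS M (v.valuation F)) := Finite.of_surjective f hf
  refine ⟨?_, ?_⟩
  · rw [Subgroup.index]
    exact Nat.card_pos.ne'
  · have h1 := Nat.card_le_card_of_surjective f hf
    have h3 : Nat.card (Fin p) = p := by rw [Nat.card_eq_fintype_card, Fintype.card_fin]
    rw [Nat.card_prod, h3, card_quot_powp] at h1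
    rw [Subgroup.index]
    calc Nat.card (Fˣ ⧸ LS M (v.valuation F)) ≤ _ := h1
      _ ≤ p * (p * Ideal.absNorm v.asIdeal ^ ((p - 1) * e)) := Nat.mul_le_mul_left _ h2
      _ = _ := by ring

theorem LS_finiteIndex (M : Mu p F) (v : HeightOneSpectrum (𝓞 F)) :
    (LS M (v.valuation F)).index ≠ 0 := by
  obtain ⟨e, he⟩ := M.exists_exp v
  exact (LS_index_le M v e he).1

theorem prod_LS_index_le (M : Mu p F) (S : Finset (HeightOneSpectrum (𝓞 F)))
    (_ : ∀ v : HeightOneSpectrum (𝓞 F), v.valuation F (p : F) ≠ 1 → v ∈ S) :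
    ∏ v ∈ S, (LS M (v.valuation F)).index ≤ (p ^ 2) ^ S.card * p ^ (Module.finrank ℚ F) := by
  classical
  choose e he using M.exists_exp
  have h1 : ∏ v ∈ S, (LS M (v.valuation F)).index ≤
      ∏ v ∈ S, (p ^ 2 * Ideal.absNorm v.asIdeal ^ ((p - 1) * e v)) :=
    Finset.prod_le_prod (fun _ _ => Nat.zero_le _) (fun v _ => (LS_index_le M v (e v) (he v)).2)
  refine h1.trans ?_
  rw [Finset.prod_mul_distrib, Finset.prod_const]
  refine Nat.mul_le_mul_left _ ?_
  have h2 : ∏ v ∈ S, Ideal.absNorm v.asIdeal ^ ((p - 1) * e v) =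
      Ideal.absNorm (∏ v ∈ S, v.asIdeal ^ ((p - 1) * e v)) := by
    rw [map_prod]; simp only [map_pow]
  rw [h2]
  have hdvd : ∏ v ∈ S, v.asIdeal ^ ((p - 1) * e v) ∣ Ideal.span {(p : 𝓞 F)} := by
    refine Finset.prod_dvd_of_coprime ?_ ?_
    · intro v _ v' _ hne
      refine IsCoprime.pow ?_
      rw [Ideal.isCoprime_iff_sup_eq]
      exact v.isMaximal.coprime_of_ne v'.isMaximal (fun h => hne (HeightOneSpectrum.ext h))
    · intro v _
      have h5 : v.valuation F (algebraMap (𝓞 F) F p) = WithZero.exp (-(((p - 1) * e v : ℕ) : ℤ)) := by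
        rw [map_natCast, M.val_p, he v, ← WithZero.exp_nsmul]
        congr 1
        simp only [nsmul_eq_mul]
        push_cast
        ring
      rw [← HeightOneSpectrum.intValuation_le_pow_iff_dvd,
        ← HeightOneSpectrum.valuation_of_algebraMap (K := F)]
      exact h5.le
  have h3 : Ideal.absNorm (Ideal.span {(p : 𝓞 F)}) = p ^ Module.finrank ℚ F := by
    have := Ideal.absNorm_span_natCast (S := 𝓞 F) p
    rw [RingOfIntegers.rank] at this
    exact_mod_cast this
  rw [← h3]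
  refine Nat.le_of_dvd ?_ (map_dvd _ hdvd)
  rw [h3]
  exact pow_pos M.prime.pos _

end Vale.Agent.P011.ArP
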