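import Vale.Agent.P011.ArP.LocA
import Vale.Agent.P011.Arith.SUnit

/-!
S-units of a number field containing the `p`-th roots of unity: class group, `p`-th powers,
weak approximation.
-/

open NumberField IsDedekindDomain nonZeroDivisors

namespace Vale.Agent.P011.ArP

open Vale.Agent.P011.Arith (Z0 Pl finite_dvd finite_valuation_ne_one valuation_eq_one_of_not_dvd
  exists_gen unit_empty_equiv plAbv plAbv_lt approx nonempty_prime)

variable {p : ℕ} {F : Type} [Field F] [NumberField F]

theorem Pr.mono {S T : Set (HeightOneSpectrum (𝓞 F))} (h : Pr p S) (hST : S ⊆ T) : Pr p T := by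
  refine ⟨fun v hv => hST (h.1 v hv), fun v hv => ?_⟩
  obtain ⟨π, h1, h2⟩ := h.2 v (fun h' => hv (hST h'))
  exact ⟨π, h1, fun v' hv' hne => h2 v' (fun h' => hv' (hST h')) hne⟩

theorem exists_Pr (hp : p.Prime) (S₀ : Set (HeightOneSpectrum (𝓞 F))) (h : S₀.Finite) :
    ∃ S : Set (HeightOneSpectrum (𝓞 F)), S₀ ⊆ S ∧ S.Finite ∧ Pr p S := by
  have hex : ∀ c : ClassGroup (𝓞 F), ∃ I : (Ideal (𝓞 F))⁰, ClassGroup.mk0 I = c :=
    ClassGroup.mk0_surjective
  choose I hI using hex
  have hI0 : ∀ c, (I c : Ideal (𝓞 F)) ≠ ⊥ := fun c => nonZeroDivisors.coe_ne_zero (I c)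
  refine ⟨S₀ ∪ {v | v.valuation F (p : F) ≠ 1} ∪
    ⋃ c : ClassGroup (𝓞 F), {v | v.asIdeal ∣ (I c : Ideal (𝓞 F))}, ?_, ?_, ?_, ?_⟩
  · intro v hv
    exact Or.inl (Or.inl hv)
  · exact (h.union (finite_valuation_ne_one (p : F) (Nat.cast_ne_zero.mpr hp.ne_zero))).union
      (Set.finite_iUnion (fun c => finite_dvd (hI0 c)))
  · intro v hv
    exact Or.inl (Or.inr hv)
  · intro v hv
    have hv1 : ∀ c, ¬ v.asIdeal ∣ (I c : Ideal (𝓞 F)) := fun c hd =>
      hv (Or.inr (Set.mem_iUnion.mpr ⟨c, hd⟩))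
    have hv0 : v.asIdeal ∈ (Ideal (𝓞 F))⁰ := mem_nonZeroDivisors_of_ne_zero v.ne_bot
    obtain ⟨x, hx0, hx, hval⟩ := exists_gen v hv0 (I (ClassGroup.mk0 ⟨v.asIdeal, hv0⟩)⁻¹) (hI _)
      (hv1 _)
    have hxF : (x : F) ≠ 0 := by
      intro h0
      exact hx0 (RingOfIntegers.coe_eq_zero_iff.mp h0)
    refine ⟨Units.mk0 (x : F) hxF, ?_, ?_⟩
    · change v.valuation F (x : F) = _
      rw [HeightOneSpectrum.valuation_of_algebraMap]
      exact hval
    · intro v' hv' hne
      have hv'1 : ∀ c, ¬ v'.asIdeal ∣ (I c : Ideal (𝓞 F)) := fun c hd =>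
        hv' (Or.inr (Set.mem_iUnion.mpr ⟨c, hd⟩))
      change v'.valuation F (x : F) = 1
      apply valuation_eq_one_of_not_dvd
      rw [← hx]
      intro hd
      rcases (v'.prime.dvd_mul).mp hd with hd | hd
      · apply hne
        have hle : v.asIdeal ≤ v'.asIdeal := Ideal.dvd_iff_le.mp hd
        have := v.isMaximal.eq_of_le v'.isPrime.ne_top hle
        exact HeightOneSpectrum.ext this.symm
      · exact hv'1 _ hd

omit [NumberField F] in
theorem no_real (M : Mu p F) : IsEmpty (F →+* ℝ) := by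
  refine ⟨fun φ => ?_⟩
  have h1 : (φ M.ζ) ^ p = 1 := by rw [← map_pow, M.zeta_pow, map_one]
  have hodd : Odd p := M.prime.odd_of_ne_two M.odd
  have h2 : φ M.ζ = 1 := hodd.pow_injective (h1.trans (one_pow p).symm)
  have h3 : M.ζ = 1 := φ.injective (by rw [h2, map_one])
  exact M.l_ne_zero (by rw [Mu.l, h3, sub_self])

theorem finrank_eq (M : Mu p F) :
    Module.finrank ℚ F = 2 * Fintype.card (InfinitePlace F) := by
  have h1 := InfinitePlace.card_add_two_mul_card_eq_rank F
  have h2 := InfinitePlace.card_eq_nrRealPlaces_add_nrComplexPlaces F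
  have h3 : InfinitePlace.nrRealPlaces F = 0 := by
    classical
    rw [InfinitePlace.nrRealPlaces, Fintype.card_eq_zero_iff]
    refine ⟨fun w => ?_⟩
    have hw := w.2
    rw [InfinitePlace.isReal_iff] at hw
    exact (no_real M).false hw.embedding
  omega

section group

/-- The index of the subgroup of `p`-th powers. -/
noncomputable def pwIdx (p : ℕ) (G : Type) [CommGroup G] : ℕ :=
  (powMonoidHom p : G →* G).range.index

variable {G H : Type} [CommGroup G] [CommGroup H]

theorem pwIdx_congr (e : G ≃* H) : pwIdx p G = pwIdx p H := by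
  unfold pwIdx
  have h : (powMonoidHom p : G →* G).range.map e.toMonoidHom = (powMonoidHom p : H →* H).range := by
    ext y
    constructor
    · rintro ⟨_, ⟨x, rfl⟩, rfl⟩
      exact ⟨e x, by simp⟩
    · rintro ⟨y, rfl⟩
      refine ⟨(e.symm y) ^ p, ⟨e.symm y, rfl⟩, by simp⟩
  rw [← h]
  exact ((powMonoidHom p : G →* G).range.index_map_equiv e).symm

theorem pwIdx_prod : pwIdx p (G × H) = pwIdx p G * pwIdx p H := by
  unfold pwIdx
  rw [← Subgroup.index_prod]
  congr 1
  ext ⟨x, y⟩
  rw [Subgroup.mem_prod]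
  constructor
  · rintro ⟨⟨a, b⟩, h⟩
    have h' := Prod.mk.inj h
    exact ⟨⟨a, h'.1⟩, ⟨b, h'.2⟩⟩
  · rintro ⟨⟨a, ha⟩, ⟨b, hb⟩⟩
    exact ⟨(a, b), Prod.ext ha hb⟩

theorem pwIdx_pi {ι : Type} [Fintype ι] : pwIdx p (ι → G) = pwIdx p G ^ Fintype.card ι := by
  unfold pwIdx
  have : (powMonoidHom p : (ι → G) →* (ι → G)).range =
      Subgroup.pi Set.univ (fun _ : ι => (powMonoidHom p : G →* G).range) := by
    ext x
    rw [Subgroup.mem_pi]
    constructor
    · rintro ⟨a, rfl⟩ i _
      exact ⟨a i, rfl⟩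
    · intro h
      choose a ha using fun i => h i (Set.mem_univ i)
      exact ⟨a, funext ha⟩
  rw [this, Subgroup.index_pi, Finset.prod_const, Finset.card_univ]

theorem pwIdx_int : pwIdx p (Multiplicative ℤ) = p := by
  unfold pwIdx
  have : (powMonoidHom p : Multiplicative ℤ →* Multiplicative ℤ).range =
      AddSubgroup.toSubgroup (AddSubgroup.zmultiples (p : ℤ)) := by
    ext x
    constructor
    · rintro ⟨a, rfl⟩
      refine ⟨Multiplicative.toAdd a, ?_⟩
      change Multiplicative.toAdd a • (p : ℤ) = Multiplicative.toAdd (a ^ p)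
      rw [toAdd_pow, smul_eq_mul]
      simp [mul_comm]
    · rintro ⟨a, ha⟩
      refine ⟨Multiplicative.ofAdd a, ?_⟩
      change (Multiplicative.ofAdd a) ^ p = x
      have ha' : a • (p : ℤ) = Multiplicative.toAdd x := ha
      apply Multiplicative.toAdd.injective
      rw [toAdd_pow, ← ha']
      simp [mul_comm]
  rw [this, AddSubgroup.index_toSubgroup, Int.index_zmultiples]
  rfl

theorem pwIdx_extend {B : Subgroup G} (f : G →* Multiplicative ℤ) (hf : f.ker = B)
    (hne : ∃ x, f x ≠ 1) : pwIdx p G = pwIdx p B * p := by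
  -- a generator of the range
  obtain ⟨g, hg⟩ : ∃ g, Subgroup.zpowers g = f.range := (Subgroup.isCyclic_iff_exists_zpowers_eq_top f.range).mp inferInstance
  have hg' : g ∈ f.range := hg ▸ Subgroup.mem_zpowers g
  obtain ⟨x, rfl⟩ := hg'
  have hx1 : f x ≠ 1 := by
    intro h
    obtain ⟨y, hy⟩ := hne
    have : f y ∈ Subgroup.zpowers (f x) := hg ▸ ⟨y, rfl⟩
    rw [h, Subgroup.zpowers_one_eq_bot, Subgroup.mem_bot] at this
    exact hy this
  have hinj : ∀ n : ℤ, f x ^ n = 1 → n = 0 := by
    intro n hn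
    by_contra hn0
    apply hx1
    have h1 := congrArg Multiplicative.toAdd hn
    rw [toAdd_zpow, toAdd_one] at h1
    have h2 : Multiplicative.toAdd (f x) = 0 := by
      rcases smul_eq_zero.mp h1 with h | h
      · exact absurd h hn0
      · exact h
    exact Multiplicative.toAdd.injective (by rw [h2, toAdd_one])
  let ψ : B × Multiplicative ℤ →* G :=
    (B.subtype).coprod ((zpowersHom G) x)
  have hψ : ∀ b : B × Multiplicative ℤ, ψ b = (b.1 : G) * x ^ (Multiplicative.toAdd b.2) := by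
    intro b
    rfl
  have hbij : Function.Bijective ψ := by
    constructor
    · rw [injective_iff_map_eq_one]
      rintro ⟨b, n⟩ hb
      rw [hψ] at hb
      have h1 : f (b : G) = 1 := by
        have : (b : G) ∈ f.ker := hf ▸ b.2
        exact this
      have h2 := congrArg f hb
      rw [map_mul, h1, one_mul, map_zpow, map_one] at h2
      have h3 := hinj _ h2
      have h4 : n = 1 := Multiplicative.toAdd.injective (by simpa using h3)
      subst h4
      simp at hb
      exact Prod.ext (by simpa using hb) rfl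
    · intro y
      have : f y ∈ Subgroup.zpowers (f x) := hg ▸ ⟨y, rfl⟩
      obtain ⟨n, hn⟩ := this
      have hmem : y * (x ^ n)⁻¹ ∈ B := by
        rw [← hf, MonoidHom.mem_ker, map_mul, map_inv, map_zpow]
        have : f x ^ n = f y := hn
        rw [this, mul_inv_cancel]
      refine ⟨(⟨y * (x ^ n)⁻¹, hmem⟩, Multiplicative.ofAdd n), ?_⟩
      rw [hψ]
      simp
  rw [← pwIdx_congr (MulEquiv.ofBijective ψ hbij), pwIdx_prod, pwIdx_int]

end group

omit [NumberField F] in
theorem dvd_torsion (M : Mu p F) : p ∣ Nat.card (NumberField.Units.torsion F) := by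
  let z : 𝓞 F := ⟨M.ζ, M.prim.isIntegral M.prime.pos⟩
  have hz : z ^ p = 1 := RingOfIntegers.ext (by
    change algebraMap (𝓞 F) F (z ^ p) = algebraMap (𝓞 F) F 1
    rw [map_pow, map_one]
    exact M.zeta_pow)
  let u : (𝓞 F)ˣ := Units.ofPowEqOne z p hz M.prime.ne_zero
  have hu : u ^ p = 1 := Units.ext (by
    rw [Units.val_pow_eq_pow_val, Units.val_one]
    exact hz)
  have hut : u ∈ NumberField.Units.torsion F :=
    (CommGroup.mem_torsion u).mpr (isOfFinOrder_iff_pow_eq_one.mpr ⟨p, M.prime.pos, hu⟩)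
  have h1 : orderOf (⟨u, hut⟩ : NumberField.Units.torsion F) = p := by
    refine orderOf_eq_prime (hp := ⟨M.prime⟩) (Subtype.ext hu) ?_
    intro h
    have h2 : u = 1 := congrArg Subtype.val h
    have h3 : z = 1 := congrArg Units.val h2
    have h4 : M.ζ = 1 := congrArg (fun x : 𝓞 F => (x : F)) h3
    exact M.l_ne_zero (by rw [Mu.l, h4, sub_self])
  rw [← h1]
  exact orderOf_dvd_natCard _

theorem pwIdx_unit (M : Mu p F) : pwIdx p (𝓞 F)ˣ = p ^ Fintype.card (InfinitePlace F) := by
  let ψ : NumberField.Units.torsion F × (Fin (Units.rank F) → Multiplicative ℤ) →* (𝓞 F)ˣ :=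
    { toFun := fun b => (b.1 : (𝓞 F)ˣ) * ∏ i, (Units.fundSystem F i) ^ (Multiplicative.toAdd (b.2 i))
      map_one' := by simp
      map_mul' := by
        rintro ⟨a, b⟩ ⟨c, d⟩
        simp only [Prod.mk_mul_mk, Subgroup.coe_mul, Pi.mul_apply, toAdd_mul, zpow_add,
          Finset.prod_mul_distrib]
        exact mul_mul_mul_comm _ _ _ _ }
  have hbij : Function.Bijective ψ := by
    constructor
    · rintro ⟨a, b⟩ ⟨c, d⟩ h
      obtain ⟨z, -, hz⟩ := Units.exist_unique_eq_mul_prod F (ψ (a, b))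
      have h1 := hz (a, fun i => Multiplicative.toAdd (b i)) rfl
      have h2 := hz (c, fun i => Multiplicative.toAdd (d i)) h
      have h3 := h1.trans h2.symm
      have h4 := Prod.mk.inj h3
      refine Prod.ext h4.1 ?_
      funext i
      exact Multiplicative.toAdd.injective (congrFun h4.2 i)
    · intro x
      obtain ⟨z, hz, -⟩ := Units.exist_unique_eq_mul_prod F x
      exact ⟨(z.1, fun i => Multiplicative.ofAdd (z.2 i)), hz.symm⟩
  rw [← pwIdx_congr (MulEquiv.ofBijective ψ hbij), pwIdx_prod, pwIdx_pi, pwIdx_int, Fintype.card_fin]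
  have h1 : pwIdx p (NumberField.Units.torsion F) = p := by
    unfold pwIdx
    rw [IsCyclic.index_powMonoidHom_range]
    exact Nat.gcd_eq_right (dvd_torsion M)
  rw [h1, ← pow_succ']
  congr 1
  have h2 : 0 < Fintype.card (InfinitePlace F) := Fintype.card_pos
  unfold Units.rank
  omega

theorem pwIdx_Sunit (M : Mu p F) (S : Set (HeightOneSpectrum (𝓞 F))) (h : S.Finite) :
    pwIdx p (S.unit F) = p ^ (S.ncard + Fintype.card (InfinitePlace F)) := by
  induction S, h using Set.Finite.induction_on with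
  | empty =>
    obtain ⟨e⟩ := unit_empty_equiv (F := F)
    rw [← pwIdx_congr e, pwIdx_unit M, Set.ncard_empty, zero_add]
  | @insert v S hv hS ih =>
    rw [Set.ncard_insert_of_notMem hv hS]
    let f : ((insert v S).unit F) →* Multiplicative ℤ :=
      (v.valuationOfNeZero (K := F)).comp (Subgroup.subtype _)
    let B : Subgroup ((insert v S).unit F) := (S.unit F).subgroupOf ((insert v S).unit F)
    have hval : ∀ x : Fˣ, v.valuationOfNeZero x = 1 ↔ v.valuation F (x : F) = 1 := by
      intro x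
      rw [← HeightOneSpectrum.valuationOfNeZero_eq, ← WithZero.coe_one, WithZero.coe_inj]
    have hf : f.ker = B := by
      ext x
      rw [MonoidHom.mem_ker, Subgroup.mem_subgroupOf]
      change v.valuationOfNeZero (x : Fˣ) = 1 ↔ _
      rw [hval]
      constructor
      · intro h v' hv'
        by_cases hvv : v' = v
        · rw [hvv]; exact h
        · exact x.2 v' (by
            rw [Set.mem_insert_iff, not_or]
            exact ⟨hvv, hv'⟩)
      · intro h
        exact h v hv
    have hle : S.unit F ≤ (insert v S).unit F := by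
      intro x hx v' hv'
      exact hx v' (fun h => hv' (Set.mem_insert_of_mem _ h))
    have hne : ∃ x, f x ≠ 1 := by
      obtain ⟨n, hn, x, hx⟩ : ∃ n : ℕ, n ≠ 0 ∧ ∃ x : 𝓞 F, v.asIdeal ^ n = Ideal.span {x} := by
        have hv0 : v.asIdeal ∈ (Ideal (𝓞 F))⁰ := mem_nonZeroDivisors_of_ne_zero v.ne_bot
        refine ⟨Fintype.card (ClassGroup (𝓞 F)), Fintype.card_ne_zero, ?_⟩
        have h1 : (ClassGroup.mk0 (⟨v.asIdeal, hv0⟩ : (Ideal (𝓞 F))⁰)) ^ Fintype.card (ClassGroup (𝓞 F)) = 1 :=
          pow_card_eq_one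
        rw [← map_pow] at h1
        have h2 := (ClassGroup.mk0_eq_one_iff
          ((⟨v.asIdeal, hv0⟩ : (Ideal (𝓞 F))⁰) ^ Fintype.card (ClassGroup (𝓞 F))).2).mp h1
        obtain ⟨x, hx⟩ := h2
        exact ⟨x, by rw [← Ideal.submodule_span_eq, ← hx]; rfl⟩
      have hx0 : x ≠ 0 := by
        rintro rfl
        rw [Ideal.span_singleton_eq_bot.mpr rfl] at hx
        exact pow_ne_zero n v.ne_bot hx
      have hxF : (x : F) ≠ 0 := fun h0 => hx0 (RingOfIntegers.coe_eq_zero_iff.mp h0)
      refine ⟨⟨Units.mk0 (x : F) hxF, ?_⟩, ?_⟩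
      · intro v' hv'
        rw [Set.mem_insert_iff, not_or] at hv'
        change v'.valuation F (x : F) = 1
        apply valuation_eq_one_of_not_dvd
        rw [← hx]
        intro hd
        have hd' := v'.prime.dvd_of_dvd_pow hd
        apply hv'.1
        have hle' : v.asIdeal ≤ v'.asIdeal := Ideal.dvd_iff_le.mp hd'
        have := v.isMaximal.eq_of_le v'.isPrime.ne_top hle'
        exact HeightOneSpectrum.ext this.symm
      · intro h
        have h' : v.valuation F (x : F) = 1 := (hval _).mp h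
        rw [HeightOneSpectrum.valuation_of_algebraMap] at h'
        have h1 : v.intValuation x ≤ WithZero.exp (-(n : ℤ)) := by
          rw [HeightOneSpectrum.intValuation_le_pow_iff_dvd, ← hx]
        rw [h', ← WithZero.exp_zero, WithZero.exp_le_exp] at h1
        omega
    rw [pwIdx_extend f hf hne]
    have e : B ≃* S.unit F := Subgroup.subgroupOfEquivOfLe hle
    rw [pwIdx_congr e, ih, ← pow_succ]
    congr 1
    omega

theorem Pw_relIndex_unit (M : Mu p F) (S : Set (HeightOneSpectrum (𝓞 F))) (h : S.Finite) :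
    (Pw p F).relIndex (S.unit F) = p ^ (S.ncard + Fintype.card (InfinitePlace F)) := by
  rw [← pwIdx_Sunit M S h]
  unfold pwIdx Subgroup.relIndex
  congr 1
  ext x
  rw [Subgroup.mem_subgroupOf]
  constructor
  · rintro ⟨y, hy⟩
    have hy' : y ^ p = (x : Fˣ) := hy
    have hyS : y ∈ S.unit F := by
      intro v hv
      have h1 : v.valuation F ((x : Fˣ) : F) = 1 := x.2 v hv
      rw [← hy', Units.val_pow_eq_pow_val, map_pow] at h1
      exact (pow_eq_one_iff_of_nonneg zero_le M.prime.ne_zero).mp h1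
    exact ⟨⟨y, hyS⟩, Subtype.ext hy'⟩
  · rintro ⟨y, rfl⟩
    exact ⟨(y : Fˣ), rfl⟩

/-- weak approximation -/
theorem weak_approx (M : Mu p F) (S : Finset (HeightOneSpectrum (𝓞 F)))
    (g : HeightOneSpectrum (𝓞 F) → Fˣ) :
    ∃ f : Fˣ, ∀ v ∈ S, f / g v ∈ LS M (v.valuation F) := by
  classical
  obtain ⟨v0⟩ := nonempty_prime (F := F)
  -- we add a prime to make sure that `f` is not zero
  let T : Set (Pl F) := (Sum.inl '' ((insert v0 S : Finset (HeightOneSpectrum (𝓞 F))) : Set _))
  have hT : T.Finite := ((Finset.finite_toSet _).image _)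
  let z : Pl F → F := fun p => match p with
    | .inl v => (g v : F)
    | .inr φ => 1
  let δ : Pl F → ℝ := fun q => match q with
    | .inl v => plAbv (.inl v) (M.l ^ p * (g v : F))
    | .inr φ => 1
  have hδ : ∀ q, 0 < δ q := by
    rintro (v | φ)
    · exact (plAbv (.inl v)).pos (mul_ne_zero (pow_ne_zero p M.l_ne_zero) (g v).ne_zero)
    · exact one_pos
  obtain ⟨f, hf⟩ := approx T hT z δ hδ
  have hfin : ∀ v ∈ insert v0 S, v.valuation F (f / (g v : F) - 1) < v.valuation F (M.l ^ p) := by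
    intro v hv
    have h1 := hf (.inl v) ⟨v, hv, rfl⟩
    have h2 : v.valuation F (f - (g v : F)) < v.valuation F (M.l ^ p * (g v : F)) :=
      (plAbv_lt v _ _).mp h1
    have h0 : (g v : F) ≠ 0 := (g v).ne_zero
    have h3 : f / (g v : F) - 1 = (f - (g v : F)) / (g v : F) := by field_simp
    have h4 : v.valuation F (g v : F) ≠ 0 := (Valuation.ne_zero_iff _).mpr h0
    rw [h3, map_div₀, div_lt_iff₀ (zero_lt_iff.mpr h4), ← map_mul]
    exact h2
  have hf0 : f ≠ 0 := by
    rintro rfl
    have h1 := hfin v0 (Finset.mem_insert_self _ _)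
    rw [zero_div, zero_sub, Valuation.map_neg, map_one] at h1
    exact absurd (M.val_lp_le (v0.valuation F)) (not_le.mpr h1)
  refine ⟨Units.mk0 f hf0, fun v hv => ⟨1, ?_⟩⟩
  have h1 := hfin v (Finset.mem_insert_of_mem hv)
  have e : ((Units.mk0 f hf0 / g v : Fˣ) : F) / ((1 : Fˣ) : F) ^ p - 1 = f / (g v : F) - 1 := by
    rw [Units.val_div_eq_div_val]
    simp
  rw [e]
  exact h1

end Vale.Agent.P011.ArP
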