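import Vale.Agent.P011.ArP.Has0
import Vale.Agent.P011.ArP.LocB
import Vale.Agent.P011.ArP.LocD
import Vale.Agent.P011.ArP.SUn
import Vale.Agent.P011.ArP.Goo
import Vale.Agent.P011.ArP.LocU
import Vale.Agent.P011.Arith.Places
import Vale.Agent.P011.Arith.Quad

/-!
Existence of primes that do not split in a Kummer extension.
-/

open NumberField IsDedekindDomain

namespace Vale.Agent.P011.ArP

open Vale.Agent.P011.Arith (Z0 ov finite_ne_one exists_below ov_finite)

variable {p : ℕ} {F : Type} [Field F] [NumberField F]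

theorem exists_unif (v : HeightOneSpectrum (𝓞 F)) :
    ∃ π : Fˣ, v.valuation F (π : F) = WithZero.exp (-1) := by
  obtain ⟨π, hπ⟩ := v.valuation_exists_uniformizer F
  have hπ0 : π ≠ 0 := by
    rintro rfl
    rw [map_zero] at hπ
    exact WithZero.exp_ne_zero hπ.symm
  exact ⟨Units.mk0 π hπ0, hπ⟩

theorem exists_ord_eq (v : HeightOneSpectrum (𝓞 F)) (x : Fˣ) :
    ∃ n : ℤ, v.valuation F (x : F) = WithZero.exp n :=
  ⟨_, (WithZero.exp_log ((Valuation.ne_zero_iff _).mpr x.ne_zero)).symm⟩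

/-- The norm form of a non-`p`-th power does not represent everything locally. -/
theorem NF_sup_ne_top (M : Mu p F) (v : HeightOneSpectrum (𝓞 F)) (a : Fˣ)
    (ha : a ∉ LS M (v.valuation F)) : NF M a ⊔ LS M (v.valuation F) ≠ ⊤ := by
  obtain ⟨b, hb⟩ := exists_not_norm v a ha
  intro h
  exact hb (h ▸ Subgroup.mem_top b)

omit [NumberField F] in
theorem pow_mem_sup (M : Mu p F) (w : Valuation F Z0) (a x : Fˣ) :
    x ^ p ∈ NF M a ⊔ LS M w := Subgroup.mem_sup_right (pow_mem_LS x)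

/-- If the norm form of `x` represents every pattern by `S`-units modulo local norms, then
`S` is not good for `x`. -/
theorem not_good_of_patterns (M : Mu p F) (x : Fˣ) {S : Set (HeightOneSpectrum (𝓞 F))}
    (hS : Good M x S)
    (h : ∀ g : HeightOneSpectrum (𝓞 F) → Fˣ, ∃ u ∈ S.unit F, ∀ v ∈ S,
      x ∉ LS M (v.valuation F) → u / g v ∈ NF M x ⊔ LS M (v.valuation F)) : False := by
  classical
  have hfin : {v | v ∈ S ∧ x ∉ LS M (v.valuation F)}.Finite := hS.fin.subset fun p hp => hp.1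
  have : Fintype {v | v ∈ S ∧ x ∉ LS M (v.valuation F)} := hfin.fintype
  have hidx := hS.idx
  have hne : (NF M x).relIndex (S.unit F) ≠ 0 := by
    intro h0
    rw [h0, zero_mul] at hidx
    exact (pow_pos M.prime.pos _).ne hidx
  have hg : ∀ v : {v | v ∈ S ∧ x ∉ LS M (v.valuation F)},
      ∃ g : Fˣ, g ∉ NF M x ⊔ LS M (v.1.valuation F) := fun v =>
    exists_not_norm v.1 x v.2.2
  choose g hg using hg
  have h1 := pow_le_relIndex (ι := {v | v ∈ S ∧ x ∉ LS M (v.valuation F)}) M.prime (NF M x)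
    (S.unit F) (fun v => NF M x ⊔ LS M (v.1.valuation F)) (fun v => le_sup_left) g hg
    (fun v => pow_mem_sup M _ x _) ?_ hne
  · rw [tc, Set.ncard_eq_toFinset_card', Set.toFinset_card] at hidx
    have h2 : 0 < p ^ Fintype.card {v | v ∈ S ∧ x ∉ LS M (v.valuation F)} :=
      pow_pos M.prime.pos _
    have h3 := M.prime.two_le
    have h4 : p ^ Fintype.card {v | v ∈ S ∧ x ∉ LS M (v.valuation F)} * p ≤
        (NF M x).relIndex (S.unit F) * p := Nat.mul_le_mul_right p h1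
    rw [hidx] at h4
    have h5 : p ^ Fintype.card {v | v ∈ S ∧ x ∉ LS M (v.valuation F)} * 2 ≤
        p ^ Fintype.card {v | v ∈ S ∧ x ∉ LS M (v.valuation F)} * p :=
      Nat.mul_le_mul_left _ h3
    omega
  · intro e
    obtain ⟨u, hu, hu'⟩ := h (fun v => if hv : v ∈ {v | v ∈ S ∧ x ∉ LS M (v.valuation F)} then
      g ⟨v, hv⟩ ^ e ⟨v, hv⟩ else 1)
    refine ⟨u, hu, ?_⟩
    rintro ⟨v, hv⟩
    have := hu' v hv.1 hv.2
    rwa [dif_pos hv] at this

/-- D1 -/
theorem exists_nonsplit (M : Mu p F) (x : Fˣ) (hx : x ∉ Pw p F)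
    (S₀ : Set (HeightOneSpectrum (𝓞 F))) (h : S₀.Finite) :
    ∃ v ∉ S₀, x ∉ LS M (HeightOneSpectrum.valuation F v) := by
  classical
  by_contra hcon
  push Not at hcon
  obtain ⟨S₁, hS₁, hgood⟩ := exists_good M x hx
  have hS := hgood (S₀ ∪ S₁) Set.subset_union_right (h.union hS₁)
  refine not_good_of_patterns M x hS ?_
  intro g
  obtain ⟨f, hf⟩ := weak_approx M (h.union hS₁).toFinset g
  -- correct `f` outside `S` by norms
  have hβ : ∀ v : HeightOneSpectrum (𝓞 F), ∃ β ∈ NF M x, v ∉ S₀ ∪ S₁ →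
      v.valuation F (β : F) = WithZero.exp (-1) ∧
      ∀ v' ∉ S₀ ∪ S₁, v' ≠ v → v'.valuation F (β : F) = 1 := by
    intro v
    by_cases hv : v ∈ S₀ ∪ S₁
    · exact ⟨1, Subgroup.one_mem _, fun h => absurd hv h⟩
    · obtain ⟨β, h1, h2⟩ := hS.split v hv (hcon v fun h => hv (Or.inl h))
      exact ⟨β, h1, fun _ => h2⟩
  choose β hβ1 hβ2 using hβ
  have hv0 : ∀ v : HeightOneSpectrum (𝓞 F), v.valuation F (f : F) ≠ 0 := fun v =>
    (Valuation.ne_zero_iff _).mpr f.ne_zero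
  let n : HeightOneSpectrum (𝓞 F) → ℤ := fun v => WithZero.log (v.valuation F (f : F))
  have hn : ∀ v, v.valuation F (f : F) = WithZero.exp (n v) := fun v =>
    (WithZero.exp_log (hv0 v)).symm
  let T : Finset (HeightOneSpectrum (𝓞 F)) := (finite_ne_one f).toFinset.filter (· ∉ S₀ ∪ S₁)
  let B : Fˣ := ∏ v ∈ T, β v ^ (n v)
  have hB : B ∈ NF M x := Subgroup.prod_mem _ fun v _ => Subgroup.zpow_mem _ (hβ1 v) _
  have hBv : ∀ v ∉ S₀ ∪ S₁, v.valuation F (B : F) = (v.valuation F (f : F))⁻¹ := by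
    intro v hv
    have e1 : (B : F) = ∏ v ∈ T, (β v : F) ^ (n v) := by simp [B]
    rw [e1, map_prod]
    by_cases hvT : v ∈ T
    · rw [Finset.prod_eq_single_of_mem v hvT]
      · rw [map_zpow₀, (hβ2 v hv).1, hn v, ← WithZero.exp_neg, ← WithZero.exp_zsmul]
        congr 1
        simp
      · intro v' hv' hne
        have hv'S : v' ∉ S₀ ∪ S₁ := (Finset.mem_filter.mp hv').2
        rw [map_zpow₀, (hβ2 v' hv'S).2 v hv hne.symm, one_zpow]
    · rw [Finset.prod_eq_one]
      · have : v.valuation F (f : F) = 1 := by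
          by_contra h1
          exact hvT (Finset.mem_filter.mpr ⟨(finite_ne_one f).mem_toFinset.mpr h1, hv⟩)
        rw [this, inv_one]
      · intro v' hv'
        have hv'S : v' ∉ S₀ ∪ S₁ := (Finset.mem_filter.mp hv').2
        have hne : v ≠ v' := fun h => hvT (h ▸ hv')
        rw [map_zpow₀, (hβ2 v' hv'S).2 v hv hne, one_zpow]
  refine ⟨f * B, ?_, ?_⟩
  · intro v hv
    rw [Units.val_mul, map_mul, hBv v hv, mul_inv_cancel₀ (hv0 v)]
  · intro v hv hxv
    have h1 : f / g v ∈ NF M x ⊔ LS M (v.valuation F) :=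
      Subgroup.mem_sup_right (hf v ((h.union hS₁).mem_toFinset.mpr hv))
    have h2 : B ∈ NF M x ⊔ LS M (v.valuation F) := Subgroup.mem_sup_left hB
    rw [mul_comm, mul_div_assoc]
    exact Subgroup.mul_mem _ h2 h1

/-- D2 -/
theorem exists_split_nonsplit (M : Mu p F) (a x : Fˣ) (ha : a ∉ Pw p F)
    (hx : ∀ i : ℕ, x * a ^ i ∉ Pw p F) (S₀ : Set (HeightOneSpectrum (𝓞 F))) (h : S₀.Finite) :
    ∃ v : HeightOneSpectrum (𝓞 F), v ∉ S₀ ∧ a ∈ LS M (v.valuation F) ∧
      x ∉ LS M (v.valuation F) := by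
  obtain ⟨E, _, _, _, θ, σ, Q⟩ := exists_kum M a ha
  have hp0 : (p : F) ≠ 0 := M.p_ne_zero
  let S₁ : Set (HeightOneSpectrum (𝓞 F)) := S₀ ∪ {v | v.valuation F (a : F) ≠ 1} ∪
    {v | v.valuation F (x : F) ≠ 1} ∪ {v | v.valuation F ((Units.mk0 (p : F) hp0 : Fˣ) : F) ≠ 1}
  have hS₁ : S₁.Finite := ((h.union (finite_ne_one a)).union (finite_ne_one x)).union
    (finite_ne_one _)
  have hxE : Units.map (algebraMap F E : F →* E) x ∉ Pw p E := by
    intro h1
    obtain ⟨i, hi⟩ := KD.Pw_iff Q h1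
    exact hx i hi
  obtain ⟨w, hw, hxw⟩ := exists_nonsplit (M.map E) _ hxE (ov E S₁) (ov_finite hS₁)
  obtain ⟨v, hv⟩ := exists_below (F := F) w
  have hvS : v ∉ S₁ := fun hvS => hw ⟨v, hvS, hv⟩
  have hxv : x ∉ LS M (v.valuation F) := fun hxv => hxw (LS_map hv hxv)
  refine ⟨v, fun h => hvS (Or.inl (Or.inl (Or.inl h))), ?_, hxv⟩
  by_contra hav
  have ha1 : v.valuation F (a : F) = 1 := by
    by_contra h
    exact hvS (Or.inl (Or.inl (Or.inr h)))
  have hx1 : v.valuation F (x : F) = 1 := by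
    by_contra h
    exact hvS (Or.inl (Or.inr h))
  have hp1 : v.valuation F (p : F) = 1 := by
    by_contra h
    exact hvS (Or.inr h)
  obtain ⟨i, _, hi⟩ := unit_cyc v hp1 a x ha1 hx1 hav
  have h3 := LS_map hv hi
  apply hxw
  have h4 : Units.map (algebraMap F E : F →* E) a ∈ LS (M.map E) (w.valuation E) := by
    apply Pw_le_LS
    have hθ0 : θ ≠ 0 := by
      rintro rfl
      have h5 := Q.pow
      rw [zero_pow M.prime.ne_zero] at h5
      exact (Units.map (algebraMap F E : F →* E) a).ne_zero h5.symm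
    refine ⟨Units.mk0 θ hθ0, Units.ext ?_⟩
    simpa using Q.pow
  rw [map_mul, map_pow] at h3
  have h5 := Subgroup.mul_mem _ h3 (Subgroup.inv_mem _ (Subgroup.pow_mem _ h4 i))
  rwa [mul_inv_cancel_right] at h5

end Vale.Agent.P011.ArP
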