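import Vale.Agent.P011.ArP.Has1

/-!
Elements that are `p`-th powers at enough places are `p`-th powers.
-/

open NumberField IsDedekindDomain

namespace Vale.Agent.P011.ArP

open Vale.Agent.P011.Arith (Z0 ov finite_ne_one)

variable {p : ℕ} {F : Type} [Field F] [NumberField F]

theorem p_of_Pr {S : Set (HeightOneSpectrum (𝓞 F))} (hS : Pr p S)
    {v : HeightOneSpectrum (𝓞 F)} (hv : v ∉ S) : v.valuation F (p : F) = 1 := by
  by_contra h
  exact hv (hS.1 v h)

theorem val_unif_zpow {v : HeightOneSpectrum (𝓞 F)} {π : Fˣ}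
    (hπ : v.valuation F (π : F) = WithZero.exp (-1)) (k : ℤ) :
    v.valuation F ((π ^ k : Fˣ) : F) = WithZero.exp (-k) := by
  rw [Units.val_zpow_eq_zpow_val, map_zpow₀, hπ, ← WithZero.exp_zsmul]
  congr 1
  simp

/-- Elements of order divisible by `p` are norms from an extension of order divisible by `p`. -/
theorem unit_norm_dvd (M : Mu p F) {v : HeightOneSpectrum (𝓞 F)}
    (hv : v.valuation F (p : F) = 1) {x u : Fˣ}
    {k : ℤ} (hx : v.valuation F (x : F) = WithZero.exp (p * k))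
    (hu : v.valuation F (u : F) = 1) : u ∈ NF M x ⊔ LS M (v.valuation F) := by
  obtain ⟨π, hπ⟩ := exists_unif v
  have h1 : v.valuation F ((x * (π ^ k) ^ p : Fˣ) : F) = 1 := by
    rw [Units.val_mul, map_mul, hx, Units.val_pow_eq_pow_val, map_pow, val_unif_zpow hπ,
      ← WithZero.exp_nsmul, ← WithZero.exp_add, ← WithZero.exp_zero]
    congr 1
    simp
  have h3 := unit_norm (M := M) v hv _ u h1 hu
  rwa [NF_mul_pow] at h3

/-- At a place of order prime to `p` every class contains a unit. -/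
theorem exists_unit_mod (M : Mu p F) (v : HeightOneSpectrum (𝓞 F)) (x g : Fˣ) {n : ℤ}
    (hx : v.valuation F (x : F) = WithZero.exp n) (hn : ¬ (p : ℤ) ∣ n) :
    ∃ g' : Fˣ, v.valuation F (g' : F) = 1 ∧ g' / g ∈ NF M x ⊔ LS M (v.valuation F) := by
  obtain ⟨π, hπ⟩ := exists_unif v
  obtain ⟨m, hm⟩ := exists_ord_eq v g
  have hcop : IsCoprime n (p : ℤ) := by
    rw [Int.isCoprime_iff_gcd_eq_one, Int.gcd_comm]
    exact (Nat.Prime.coprime_iff_not_dvd M.prime).mpr (fun h => hn (Int.natCast_dvd.mpr h))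
  obtain ⟨u, w, huw⟩ := hcop
  refine ⟨g * (x ^ (-(m * u)) * (π ^ (m * w)) ^ p), ?_, ?_⟩
  · rw [Units.val_mul, Units.val_mul, map_mul, map_mul, hm, Units.val_pow_eq_pow_val, map_pow,
      val_unif_zpow hπ, Units.val_zpow_eq_zpow_val, map_zpow₀, hx, ← WithZero.exp_nsmul,
      ← WithZero.exp_zsmul, ← WithZero.exp_add, ← WithZero.exp_add, ← WithZero.exp_zero]
    congr 1
    simp only [smul_eq_mul, nsmul_eq_mul]
    linear_combination (-m) * huw
  · rw [mul_div_right_comm, div_self', one_mul]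
    exact Subgroup.mul_mem _ (Subgroup.mem_sup_left (Subgroup.zpow_mem _ (self_mem_NF M x) _))
      (pow_mem_sup M _ x _)

/-- Claim K -/
theorem mem_Pw_of_local (M : Mu p F) {S T : Set (HeightOneSpectrum (𝓞 F))} (hS : S.Finite)
    (hT : T.Finite) (hPr : Pr p S)
    (hsurj : ∀ g : HeightOneSpectrum (𝓞 F) → Fˣ,
      (∀ w ∈ T, w.valuation F (g w : F) = 1) → ∃ u ∈ S.unit F, ∀ w ∈ T,
        u / g w ∈ LS M (w.valuation F))
    {x : Fˣ} (hx : x ∈ (S ∪ T).unit F) (hxS : ∀ v ∈ S, x ∈ LS M (v.valuation F)) :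
    x ∈ Pw p F := by
  classical
  by_contra hcon
  obtain ⟨S₁, hS₁, hgood⟩ := exists_good M x hcon
  have hG := hgood (S ∪ T ∪ S₁) Set.subset_union_right ((hS.union hT).union hS₁)
  refine not_good_of_patterns M x hG ?_
  intro g
  choose n hn using fun v : HeightOneSpectrum (𝓞 F) => exists_ord_eq v x
  choose m hm using fun v : HeightOneSpectrum (𝓞 F) => exists_ord_eq v (g v)
  -- the uniformizers
  have hπ : ∀ v : HeightOneSpectrum (𝓞 F), ∃ π : Fˣ, v ∉ S →
      v.valuation F (π : F) = WithZero.exp (-1) ∧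
      ∀ v' ∉ S, v' ≠ v → v'.valuation F (π : F) = 1 := by
    intro v
    by_cases hv : v ∈ S
    · exact ⟨1, fun h => absurd hv h⟩
    · obtain ⟨β, h2⟩ := hPr.2 v hv
      exact ⟨β, fun _ => h2⟩
  choose π hπ using hπ
  -- the units at the places of order prime to `p`
  have hg' : ∀ v : HeightOneSpectrum (𝓞 F), ∃ g' : Fˣ, ¬ (p : ℤ) ∣ n v →
      v.valuation F (g' : F) = 1 ∧ g' / g v ∈ NF M x ⊔ LS M (v.valuation F) := by
    intro v
    by_cases hv : (p : ℤ) ∣ n v
    · exact ⟨1, fun h => absurd hv h⟩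
    · obtain ⟨g', h1⟩ := exists_unit_mod M v x (g v) (hn v) hv
      exact ⟨g', fun _ => h1⟩
  choose g' hg' using hg'
  have hfin : {v | v ∈ S ∪ T ∪ S₁ ∧ v ∉ S ∧ (p : ℤ) ∣ n v}.Finite :=
    ((hS.union hT).union hS₁).subset fun v hv => hv.1
  let R : Finset (HeightOneSpectrum (𝓞 F)) := hfin.toFinset
  have hR : ∀ v, v ∈ R ↔ (v ∈ S ∪ T ∪ S₁ ∧ v ∉ S ∧ (p : ℤ) ∣ n v) := fun v => hfin.mem_toFinset
  let u₀ : Fˣ := ∏ v ∈ R, π v ^ (-m v)
  have hu₀ : ∀ v ∉ S, v ∉ R → v.valuation F (u₀ : F) = 1 := by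
    intro v hv hvR
    have e1 : (u₀ : F) = ∏ v ∈ R, (π v : F) ^ (-m v) := by simp [u₀]
    rw [e1, map_prod, Finset.prod_eq_one]
    intro v' hv'
    rw [map_zpow₀, (hπ v' ((hR v').mp hv').2.1).2 v hv fun h => hvR (h ▸ hv'), one_zpow]
  have hu₀' : ∀ v ∈ R, v.valuation F (u₀ : F) = v.valuation F (g v : F) := by
    intro v hvR
    have hv := ((hR v).mp hvR).2.1
    have e1 : (u₀ : F) = ∏ v ∈ R, ((π v ^ (-m v) : Fˣ) : F) := by simp [u₀]
    rw [e1, map_prod, Finset.prod_eq_single_of_mem v hvR]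
    · rw [val_unif_zpow (hπ v hv).1, hm, neg_neg]
    · intro v' hv' hne
      rw [Units.val_zpow_eq_zpow_val, map_zpow₀, (hπ v' ((hR v').mp hv').2.1).2 v hv hne.symm,
        one_zpow]
  obtain ⟨u₁, hu₁, hu₁'⟩ := hsurj (fun w => if w ∉ S ∧ ¬ (p : ℤ) ∣ n w then g' w / u₀ else 1) (by
    intro w _
    split_ifs with h
    · rw [Units.val_div_eq_div_val, map_div₀, (hg' w h.2).1, hu₀ w h.1 fun h' =>
        h.2 ((hR w).mp h').2.2, div_one]
    · rw [Units.val_one, map_one])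
  refine ⟨u₀ * u₁, ?_, ?_⟩
  · intro v hv
    have hvS : v ∉ S := fun h => hv (Or.inl (Or.inl h))
    rw [Units.val_mul, map_mul, hu₀ v hvS fun h => hv ((hR v).mp h).1, hu₁ v hvS, one_mul]
  · intro v hv hxv
    have hvS : v ∉ S := fun h => hxv (hxS v h)
    have h2 := p_of_Pr hPr hvS
    by_cases hpn : (p : ℤ) ∣ n v
    · have hvR : v ∈ R := (hR v).mpr ⟨hv, hvS, hpn⟩
      obtain ⟨k, hk⟩ := hpn
      refine unit_norm_dvd M h2 (k := k) (by rw [hn v, hk]) ?_
      rw [Units.val_div_eq_div_val, Units.val_mul, map_div₀, map_mul, hu₀' v hvR, hu₁ v hvS,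
        mul_one, div_self ((Valuation.ne_zero_iff _).mpr (g v).ne_zero)]
    · have hvT : v ∈ T := by
        by_contra hvT
        have h3 := hx v fun h => h.elim hvS hvT
        rw [hn, ← WithZero.exp_zero] at h3
        have := WithZero.exp_injective h3
        exact hpn (this ▸ dvd_zero _)
      have h3 := hu₁' v hvT
      rw [if_pos ⟨hvS, hpn⟩] at h3
      have e1 : u₀ * u₁ / g v = u₁ / (g' v / u₀) * (g' v / g v) := by
        rw [div_div_eq_mul_div, div_mul_div_cancel, mul_comm u₁]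
      rw [e1]
      exact Subgroup.mul_mem _ (Subgroup.mem_sup_right h3) (hg' v hpn).2

end Vale.Agent.P011.ArP
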