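import Vale.Agent.P011.ArP.Has2

/-!
The Hasse norm theorem for Kummer extensions of prime degree: the auxiliary set of primes.
-/

open NumberField IsDedekindDomain

namespace Vale.Agent.P011.ArP

open Vale.Agent.P011.Arith (Z0 ov finite_ne_one)

variable {p : ℕ} {F : Type} [Field F] [NumberField F]

/-- The auxiliary set of primes. -/
structure Aux (M : Mu p F) (a : Fˣ) (S : Set (HeightOneSpectrum (𝓞 F)))
    (T : Finset (HeightOneSpectrum (𝓞 F))) : Prop where
  disj : ∀ w ∈ T, w ∉ S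
  split : ∀ w ∈ T, a ∈ LS M (w.valuation F)
  surj : ∀ g : HeightOneSpectrum (𝓞 F) → Fˣ,
    (∀ w ∈ (T : Set (HeightOneSpectrum (𝓞 F))), w.valuation F (g w : F) = 1) →
    ∃ u ∈ S.unit F, ∀ w ∈ (T : Set (HeightOneSpectrum (𝓞 F))), u / g w ∈ LS M (w.valuation F)

theorem Aux.pow_le {M : Mu p F} {a : Fˣ} {S : Set (HeightOneSpectrum (𝓞 F))}
    {T : Finset (HeightOneSpectrum (𝓞 F))} (h : Aux M a S T) (hPr : Pr p S) (K : Subgroup Fˣ)
    (hK : ∀ w ∈ T, K ≤ LS M (w.valuation F)) (hne : K.relIndex (S.unit F) ≠ 0) :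
    p ^ T.card ≤ K.relIndex (S.unit F) := by
  classical
  have hc : ∀ w : T, ∃ c : Fˣ, w.1.valuation F (c : F) = 1 ∧ c ∉ LS M (w.1.valuation F) :=
    fun w => unit_index M w.1 (p_of_Pr hPr (h.disj w.1 w.2))
  choose c hc1 hc2 using hc
  have h1 := pow_le_relIndex (ι := T) M.prime K (S.unit F) (fun w => LS M (w.1.valuation F))
    (fun w => hK w.1 w.2) c hc2 (fun w => pow_mem_LS _) ?_ hne
  · rwa [Fintype.card_coe] at h1
  · intro e
    obtain ⟨u, hu, hu'⟩ := h.surj (fun w => if hw : w ∈ T then c ⟨w, hw⟩ ^ e ⟨w, hw⟩ else 1) (by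
      intro w hw
      rw [Finset.mem_coe] at hw
      rw [dif_pos hw, Units.val_pow_eq_pow_val, map_pow, hc1 ⟨w, hw⟩, one_pow])
    refine ⟨u, hu, ?_⟩
    rintro ⟨w, hw⟩
    have := hu' w hw
    rwa [dif_pos hw] at this

theorem Aux.le {M : Mu p F} {a : Fˣ} {S : Set (HeightOneSpectrum (𝓞 F))}
    {T : Finset (HeightOneSpectrum (𝓞 F))} (h : Aux M a S T) (hPr : Pr p S) (hS : S.Finite) :
    T.card ≤ S.ncard + Fintype.card (InfinitePlace F) := by
  have h1 := h.pow_le hPr (Pw p F) (fun w _ => Pw_le_LS) (by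
    rw [Pw_relIndex_unit M S hS]
    exact (pow_pos M.prime.pos _).ne')
  rw [Pw_relIndex_unit M S hS] at h1
  exact (Nat.pow_le_pow_iff_right M.prime.one_lt).mp h1

/-- There is an auxiliary set separating the classes modulo `a`. -/
theorem exists_aux (M : Mu p F) (a : Fˣ) {S : Set (HeightOneSpectrum (𝓞 F))} (ha : a ∉ Pw p F)
    (hS : S.Finite) (hPr : Pr p S) :
    ∃ T : Finset (HeightOneSpectrum (𝓞 F)), Aux M a S T ∧ ∀ x ∈ S.unit F,
      (∀ w ∈ T, x ∈ LS M (w.valuation F)) → ∃ i : ℕ, x * a ^ i ∈ Pw p F := by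
  classical
  let P : ℕ → Prop := fun n => ∃ T : Finset (HeightOneSpectrum (𝓞 F)), Aux M a S T ∧ T.card = n
  have h0 : P 0 := ⟨∅, ⟨by simp, by simp, fun e _ => ⟨1, Subgroup.one_mem _, by simp⟩⟩, rfl⟩
  obtain ⟨n, ⟨T, hT, hn⟩, hmax⟩ : ∃ n, P n ∧ ∀ m, P m → m ≤ n := by
    have hb : ∀ m, P m → m ≤ S.ncard + Fintype.card (InfinitePlace F) := by
      rintro m ⟨T, hT, rfl⟩
      exact hT.le hPr hS
    refine ⟨Nat.findGreatest P (S.ncard + Fintype.card (InfinitePlace F)),
      Nat.findGreatest_spec (Nat.zero_le _) h0, fun m hm => Nat.le_findGreatest (hb m hm) hm⟩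
  refine ⟨T, hT, ?_⟩
  intro x hx hxT
  by_contra hcon
  push Not at hcon
  obtain ⟨v, hv, hav, hxv⟩ := exists_split_nonsplit M a x ha hcon (S ∪ T) (hS.union T.finite_toSet)
  have hvS : v ∉ S := fun h => hv (Or.inl h)
  have hvT : v ∉ T := fun h => hv (Or.inr h)
  have h2v := p_of_Pr hPr hvS
  have h3 : Aux M a S (insert v T) := by
    refine ⟨?_, ?_, ?_⟩
    · intro w hw
      rcases Finset.mem_insert.mp hw with rfl | hw
      · exact hvS
      · exact hT.disj w hw
    · intro w hw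
      rcases Finset.mem_insert.mp hw with rfl | hw
      · exact hav
      · exact hT.split w hw
    · intro g hg
      obtain ⟨u, hu, hu'⟩ := hT.surj g (fun w hw => hg w (by
        rw [Finset.coe_insert]; exact Set.mem_insert_of_mem _ hw))
      obtain ⟨i, _, hi⟩ := unit_cyc (M := M) v h2v x (u / g v) (hx v hvS) (by
        rw [Units.val_div_eq_div_val, map_div₀, hu v hvS, hg v (by simp), div_one]) hxv
      refine ⟨u * x ^ i, Subgroup.mul_mem _ hu (Subgroup.pow_mem _ hx i), ?_⟩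
      intro w hw
      rw [mul_div_right_comm]
      rw [Finset.coe_insert] at hw
      rcases hw with rfl | hw
      · exact hi
      · exact Subgroup.mul_mem _ (hu' w hw) (Subgroup.pow_mem _ (hxT w hw) i)
  have h4 := hmax _ ⟨_, h3, rfl⟩
  rw [Finset.card_insert_of_notMem hvT, hn] at h4
  omega

/-- The size of the auxiliary set. -/
theorem card_aux (M : Mu p F) (a : Fˣ) {S : Set (HeightOneSpectrum (𝓞 F))} (ha : a ∉ Pw p F)
    (hS : S.Finite) (hPr : Pr p S) (haS : a ∈ S.unit F) {T : Finset (HeightOneSpectrum (𝓞 F))}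
    (hT : Aux M a S T) (hx : ∀ x ∈ S.unit F,
      (∀ w ∈ T, x ∈ LS M (w.valuation F)) → ∃ i : ℕ, x * a ^ i ∈ Pw p F) :
    T.card + 1 = S.ncard + Fintype.card (InfinitePlace F) := by
  classical
  let K : Subgroup Fˣ := (⨅ w : T, LS M (w.1.valuation F)) ⊓ S.unit F
  have hmemK : ∀ x, x ∈ K ↔ (∀ w ∈ T, x ∈ LS M (w.valuation F)) ∧ x ∈ S.unit F := by
    intro x
    simp only [K, Subgroup.mem_inf, Subgroup.mem_iInf, Subtype.forall]
  have hKS : K ≤ S.unit F := inf_le_right
  have hSqK : Pw p F ⊓ S.unit F ≤ K := by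
    rintro x ⟨h1, h2⟩
    exact (hmemK x).mpr ⟨fun w _ => Pw_le_LS h1, h2⟩
  -- the total index
  have hsq : (Pw p F ⊓ S.unit F).relIndex (S.unit F) =
      p ^ (S.ncard + Fintype.card (InfinitePlace F)) := by
    rw [Subgroup.inf_relIndex_right, Pw_relIndex_unit M S hS]
  have hmul := Subgroup.relIndex_mul_relIndex (Pw p F ⊓ S.unit F) K (S.unit F) hSqK hKS
  rw [hsq] at hmul
  have hKne : K.relIndex (S.unit F) ≠ 0 := by
    intro h
    rw [h, mul_zero] at hmul
    exact (pow_pos M.prime.pos _).ne hmul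
  -- the lower bound
  have hlow : p ^ T.card ≤ K.relIndex (S.unit F) :=
    hT.pow_le hPr K (fun w hw x hx => ((hmemK x).mp hx).1 w hw) hKne
  -- the upper bound
  have hup : K.relIndex (S.unit F) ≤ p ^ T.card := by
    have hc : ∀ w : T, ∃ c : Fˣ, w.1.valuation F (c : F) = 1 ∧ c ∉ LS M (w.1.valuation F) :=
      fun w => unit_index M w.1 (p_of_Pr hPr (hT.disj w.1 w.2))
    choose c hc1 hc2 using hc
    have hi : ∀ (u : S.unit F) (w : T), ∃ i : Fin p, u.1 * c w ^ (i : ℕ) ∈
        LS M (w.1.valuation F) := by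
      intro u w
      have hwS := hT.disj w.1 w.2
      obtain ⟨i, h1, h2⟩ := unit_cyc (M := M) w.1 (p_of_Pr hPr hwS) (c w) u.1 (hc1 w)
        (u.2 w.1 hwS) (hc2 w)
      exact ⟨⟨i, h1⟩, h2⟩
    choose f hf using hi
    have hff : ∀ u u' : S.unit F, f u = f u' → u.1⁻¹ * u'.1 ∈ K := by
      intro u u' h
      rw [hmemK]
      refine ⟨?_, Subgroup.mul_mem _ (Subgroup.inv_mem _ u.2) u'.2⟩
      intro w hw
      have h1 := hf u ⟨w, hw⟩
      have h2 := hf u' ⟨w, hw⟩
      rw [← h] at h2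
      have h3 := Subgroup.mul_mem _ (Subgroup.inv_mem _ h1) h2
      have e1 : (u.1 * c ⟨w, hw⟩ ^ (f u ⟨w, hw⟩ : ℕ))⁻¹ *
          (u'.1 * c ⟨w, hw⟩ ^ (f u ⟨w, hw⟩ : ℕ)) = u.1⁻¹ * u'.1 := by
        rw [mul_comm u.1, mul_comm u'.1, mul_inv_rev, mul_assoc, inv_mul_cancel_left]
      rwa [e1] at h3
    let g : (S.unit F) ⧸ K.subgroupOf (S.unit F) → (T → Fin p) := fun q => f q.out
    have hg : Function.Injective g := by
      intro q q' h
      have h1 := hff _ _ h
      rw [← QuotientGroup.out_eq' q, ← QuotientGroup.out_eq' q']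
      rw [QuotientGroup.eq, Subgroup.mem_subgroupOf]
      exact h1
    have := Nat.card_le_card_of_injective g hg
    rw [Nat.card_eq_fintype_card (α := T → Fin p)] at this
    simpa [Subgroup.relIndex, Subgroup.index] using this
  -- the small index
  have haK : a ∈ K := (hmemK a).mpr ⟨hT.split, haS⟩
  have hsmall : (Pw p F ⊓ S.unit F).relIndex K = p := by
    have hlt : ∀ b : K, ∃ i : Fin p, b.1 * a ^ (i : ℕ) ∈ Pw p F := by
      intro b
      have hb' := (hmemK b.1).mp b.2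
      obtain ⟨i, hi⟩ := hx b.1 hb'.2 hb'.1
      refine ⟨⟨i % p, Nat.mod_lt _ M.prime.pos⟩, ?_⟩
      have h1 : b.1 * a ^ i = b.1 * a ^ (i % p) * (a ^ (i / p)) ^ p := by
        rw [mul_assoc, ← pow_mul, ← pow_add]
        congr 2
        rw [mul_comm]
        exact (Nat.mod_add_div i p).symm
      rw [h1] at hi
      exact (Subgroup.mul_mem_cancel_right _ (mem_Pw.mpr ⟨a ^ (i / p), rfl⟩)).mp hi
    choose f hf using hlt
    have hp0 : 0 < p := M.prime.pos
    apply le_antisymm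
    · let g : K ⧸ (Pw p F ⊓ S.unit F).subgroupOf K → Fin p := fun q => f q.out
      have hg : Function.Injective g := by
        intro q q' h
        rw [← QuotientGroup.out_eq' q, ← QuotientGroup.out_eq' q']
        rw [QuotientGroup.eq, Subgroup.mem_subgroupOf]
        refine Subgroup.mem_inf.mpr ⟨?_, Subgroup.mul_mem _ (Subgroup.inv_mem _ (hKS q.out.2))
          (hKS q'.out.2)⟩
        have h1 := hf q.out
        have h2 := hf q'.out
        have h' : f q.out = f q'.out := h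
        rw [← h'] at h2
        have h3 := Subgroup.mul_mem _ (Subgroup.inv_mem _ h1) h2
        have e1 : (q.out.1 * a ^ (f q.out : ℕ))⁻¹ * (q'.out.1 * a ^ (f q.out : ℕ)) =
            q.out.1⁻¹ * q'.out.1 := by
          rw [mul_comm q.out.1, mul_comm q'.out.1, mul_inv_rev, mul_assoc, inv_mul_cancel_left]
        rwa [e1] at h3
      have := Nat.card_le_card_of_injective g hg
      rw [Nat.card_eq_fintype_card (α := Fin p), Fintype.card_fin] at this
      simpa [Subgroup.relIndex, Subgroup.index] using this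
    · have h1 := pow_le_relIndex (ι := Unit) M.prime (Pw p F ⊓ S.unit F) K (fun _ => Pw p F)
        (fun _ => inf_le_left) (fun _ => a) (fun _ => ha) (fun _ => mem_Pw.mpr ⟨a, rfl⟩)
        (fun e => ⟨a ^ e (), Subgroup.pow_mem _ haK _, fun _ => by
          rw [div_self']; exact Subgroup.one_mem _⟩) (by
          intro h
          rw [h, zero_mul] at hmul
          exact (pow_pos M.prime.pos _).ne hmul)
      simpa using h1
  rw [hsmall, le_antisymm hup hlow, ← pow_succ'] at hmul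
  exact Nat.pow_right_injective M.prime.two_le hmul

end Vale.Agent.P011.ArP
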