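import Vale.Agent.P011.ArP.Has3

/-!
The Hasse norm theorem and the local norm index for Kummer extensions of prime degree.
-/

open NumberField IsDedekindDomain

namespace Vale.Agent.P011.ArP

open Vale.Agent.P011.Arith (Z0 ov finite_ne_one)

variable {p : ℕ} {F : Type} [Field F] [NumberField F]

/-- Both parts of the main theorem for a large set of places. -/
theorem hasse_core (M : Mu p F) (a : Fˣ) (ha : a ∉ Pw p F) (S₀ : Set (HeightOneSpectrum (𝓞 F)))
    (hS₀ : S₀.Finite) : ∃ S : Set (HeightOneSpectrum (𝓞 F)), S₀ ⊆ S ∧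
      (∀ b ∈ S.unit F, (∀ v ∈ S, b ∈ NF M a ⊔ LS M (v.valuation F)) → b ∈ NF M a) ∧
      (∀ v ∈ S, a ∉ LS M (v.valuation F) → (NF M a ⊔ LS M (v.valuation F)).index = p) := by
  classical
  obtain ⟨S₁, hS₁, hgood⟩ := exists_good M a ha
  have hSG := hgood (S₀ ∪ S₁) Set.subset_union_right (hS₀.union hS₁)
  set S := S₀ ∪ S₁ with hSdef
  have hS := hSG.fin
  obtain ⟨T, hT, hx⟩ := exists_aux M a ha hS hSG.pr
  have hcard := card_aux M a ha hS hSG.pr hSG.unit hT hx
  have hTG : Good M a (S ∪ T) := hgood (S ∪ T)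
    (Set.subset_union_right.trans Set.subset_union_left) (hS.union T.finite_toSet)
  have hW : S.unit F ≤ (S ∪ T).unit F := fun x hx v hv => hx v fun h => hv (Or.inl h)
  have : Fintype S := hS.fintype
  have hp0 : 0 < p := M.prime.pos
  set W := (S ∪ (T : Set (HeightOneSpectrum (𝓞 F)))).unit F with hWdef
  -- `W` and its `p`-th powers
  have hWsq : (Pw p F).relIndex W = p ^ (2 * T.card + 1) := by
    rw [hWdef, Pw_relIndex_unit M _ (hS.union T.finite_toSet), Set.ncard_union_eq ?_ hS
      T.finite_toSet, Set.ncard_coe_finset]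
    · congr 1
      omega
    · rw [Set.disjoint_left]
      intro w hwS hwT
      exact hT.disj w hwT hwS
  have hK : (⨅ v : S, LS M (v.1.valuation F)).relIndex W = (Pw p F).relIndex W := by
    rw [← Subgroup.inf_relIndex_right, ← Subgroup.inf_relIndex_right (Pw p F)]
    congr 1
    ext x
    simp only [Subgroup.mem_inf, Subgroup.mem_iInf]
    constructor
    · rintro ⟨h1, h2⟩
      refine ⟨?_, h2⟩
      exact mem_Pw_of_local M hS T.finite_toSet hSG.pr hT.surj h2 (fun v hv => h1 ⟨v, hv⟩)
    · rintro ⟨h1, h2⟩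
      exact ⟨fun v => Pw_le_LS h1, h2⟩
  -- the product of the local indices
  have hprod : ∏ v : S, (LS M (v.1.valuation F)).index ≤ p ^ (2 * T.card + 2) := by
    have e1 : ∏ v : S, (LS M (v.1.valuation F)).index =
        ∏ v ∈ hS.toFinset, (LS M (v.valuation F)).index := by
      rw [Finset.prod_set_coe S (f := fun v => (LS M (v.valuation F)).index)]
      congr 1
      ext v
      simp
    rw [e1]
    have h1 := prod_LS_index_le M hS.toFinset (fun v hv => hS.mem_toFinset.mpr (hSG.pr.1 v hv))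
    rw [← Set.ncard_eq_toFinset_card _ hS, finrank_eq M, ← pow_mul, ← pow_add] at h1
    refine h1.trans (le_of_eq ?_)
    congr 1
    omega
  have hmain := prod_index_le (ι := S) W (fun v => LS M (v.1.valuation F))
    (fun v => NF M a ⊔ LS M (v.1.valuation F)) p
    (fun v => le_sup_right) (fun v => LS_finiteIndex M v.1) (by
      rw [hK, hWsq]
      calc _ ≤ p ^ (2 * T.card + 2) := hprod
        _ = p * p ^ (2 * T.card + 1) := by ring)
  -- the norm index
  have htc : tc M a (S ∪ T) = tc M a S := by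
    unfold tc
    congr 1
    ext v
    simp only [Set.mem_ofPred_eq]
    constructor
    · rintro ⟨h1 | h1, h2⟩
      · exact ⟨h1, h2⟩
      · exact absurd (hT.split v h1) h2
    · rintro ⟨h1, h2⟩
      exact ⟨Or.inl h1, h2⟩
  have hidx := hTG.idx
  rw [htc] at hidx
  change (NF M a).relIndex W * p = _ at hidx
  have hle : NF M a ≤ ⨅ v : S, NF M a ⊔ LS M (v.1.valuation F) := le_iInf fun v => le_sup_left
  have hdvd : (⨅ v : S, NF M a ⊔ LS M (v.1.valuation F)).relIndex W ∣ (NF M a).relIndex W :=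
    Subgroup.relIndex_dvd_of_le_left W hle
  have hNne : (NF M a).relIndex W ≠ 0 := by
    intro h
    rw [h, zero_mul] at hidx
    exact (pow_pos hp0 _).ne hidx
  have hle2 := Nat.le_of_dvd (Nat.pos_of_ne_zero hNne) hdvd
  -- the lower bound
  have hge : ∀ v : S, (if a ∈ LS M (v.1.valuation F) then 1 else p) ≤
      (NF M a ⊔ LS M (v.1.valuation F)).index := by
    intro v
    have h0 : (NF M a ⊔ LS M (v.1.valuation F)).index ≠ 0 := fun h0 => LS_finiteIndex M v.1
      (Nat.eq_zero_of_zero_dvd (h0 ▸ Subgroup.index_dvd_of_le le_sup_right))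
    split_ifs with h
    · omega
    · exact le_index_of_pow_mem M.prime _ (fun g => pow_mem_sup M _ a g) h0
        (NF_sup_ne_top M v.1 a h)
  have hpow : ∏ v : S, (if a ∈ LS M (v.1.valuation F) then 1 else p) = p ^ tc M a S := by
    rw [Finset.prod_ite, Finset.prod_const_one, one_mul, Finset.prod_const, tc]
    congr 1
    rw [Set.ncard_eq_toFinset_card _ (hS.subset fun p hp => hp.1),
      ← Finset.card_map (Function.Embedding.subtype _)]
    congr 1
    ext v
    simp only [Finset.mem_map, Finset.mem_filter, Finset.mem_univ, true_and,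
      Function.Embedding.subtype_apply, Subtype.exists, exists_and_left, exists_prop,
      exists_eq_right_right, Set.Finite.mem_toFinset, Set.mem_ofPred_eq]
    tauto
  have hprod2 : p ^ tc M a S ≤ ∏ v : S, (NF M a ⊔ LS M (v.1.valuation F)).index := by
    rw [← hpow]
    exact Finset.prod_le_prod' fun p _ => hge p
  have hmul : p * (⨅ v : S, NF M a ⊔ LS M (v.1.valuation F)).relIndex W ≤
      p * (NF M a).relIndex W := Nat.mul_le_mul_left p hle2
  rw [mul_comm] at hidx
  have heq : (⨅ v : S, NF M a ⊔ LS M (v.1.valuation F)).relIndex W = (NF M a).relIndex W := by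
    refine Nat.eq_of_mul_eq_mul_left hp0 ?_
    omega
  refine ⟨S, Set.subset_union_left, ?_, ?_⟩
  · intro b hb hb'
    have h1 : b ∈ ⨅ v : S, NF M a ⊔ LS M (v.1.valuation F) := by
      rw [Subgroup.mem_iInf]
      exact fun v => hb' v.1 v.2
    have h2 := Subgroup.relIndex_mul_relIndex (NF M a ⊓ W)
      ((⨅ v : S, NF M a ⊔ LS M (v.1.valuation F)) ⊓ W) W (inf_le_inf_right W hle) inf_le_right
    rw [Subgroup.inf_relIndex_right, Subgroup.inf_relIndex_right, heq] at h2
    have h3 : (NF M a ⊓ W).relIndex ((⨅ v : S, NF M a ⊔ LS M (v.1.valuation F)) ⊓ W) = 1 :=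
      Nat.eq_of_mul_eq_mul_right (Nat.pos_of_ne_zero hNne) (by rw [h2, one_mul])
    exact (Subgroup.relIndex_eq_one.mp h3 (Subgroup.mem_inf.mpr ⟨h1, hW hb⟩)).1
  · have h1 : ∏ v : S, (if a ∈ LS M (v.1.valuation F) then 1 else p) =
        ∏ v : S, (NF M a ⊔ LS M (v.1.valuation F)).index := by
      rw [hpow]
      refine le_antisymm hprod2 ?_
      rw [heq] at hmain
      rw [← hidx]
      exact hmain
    intro v hv hap
    by_contra h3
    have h4 := hge ⟨v, hv⟩
    rw [if_neg hap] at h4
    refine absurd h1 (ne_of_lt (Finset.prod_lt_prod (fun v _ => ?_) (fun v _ => hge v)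
      ⟨⟨v, hv⟩, Finset.mem_univ _, ?_⟩))
    · split_ifs
      · exact Nat.one_pos
      · exact hp0
    · rw [if_neg hap]
      exact lt_of_le_of_ne h4 (Ne.symm h3)

/-- D3: the Hasse norm theorem for Kummer extensions of degree `p`. -/
theorem hasse_norm (M : Mu p F) (a b : Fˣ)
    (h : ∀ v : HeightOneSpectrum (𝓞 F), b ∈ NF M a ⊔ LS M (v.valuation F)) : b ∈ NF M a := by
  by_cases ha : a ∈ Pw p F
  · rw [NF_eq_top M ha]
    exact Subgroup.mem_top b
  · obtain ⟨S, hS, h1, _⟩ := hasse_core M a ha _ (finite_ne_one b)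
    refine h1 b ?_ (fun v _ => h v)
    intro v hv
    by_contra h2
    exact hv (hS h2)

/-- D4: the local norm index. -/
theorem local_index (M : Mu p F) (v : HeightOneSpectrum (𝓞 F)) (a : Fˣ)
    (ha : a ∉ LS M (v.valuation F)) : (NF M a ⊔ LS M (v.valuation F)).index = p := by
  have ha' : a ∉ Pw p F := fun h => ha (Pw_le_LS h)
  obtain ⟨S, hS, _, h1⟩ := hasse_core M a ha' {v} (Set.finite_singleton v)
  exact h1 v (hS rfl) ha

end Vale.Agent.P011.ArP
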