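import Vale.Agent.P011.ArP.SUn
import Vale.Agent.P011.Arith.Quad

/-!
Kummer extensions of degree `p` of number fields and their primes.
-/

open NumberField IsDedekindDomain Polynomial

set_option linter.unusedSectionVars false

namespace Vale.Agent.P011.ArP

open Vale.Agent.P011.Arith (Z0 ov exists_above exists_below below_unique above_finite ov_finite
  val_above val_eq_one_iff val_lt_one_iff val_le_one_iff val_lt_val_iff Z0_ext exists_conj
  exists_lt_one_ge_one approxVal exp_neg_one_eq_pow)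

variable {p : ℕ} {F : Type} [Field F] [NumberField F]

theorem exists_kum (M : Mu p F) (a : Fˣ) (ha : a ∉ Pw p F) :
    ∃ (E : Type) (_ : Field E) (_ : NumberField E) (_ : Algebra F E) (θ : E) (σ : E ≃ₐ[F] E),
      KD M a E θ σ := by
  have hp0 : p ≠ 0 := M.prime.ne_zero
  have hirr : Irreducible (X ^ p - C (a : F)) :=
    X_pow_sub_C_irreducible_of_prime M.prime (not_pow_of_notMem ha hp0)
  have := Fact.mk hirr
  have hfr : Module.finrank F (AdjoinRoot (X ^ p - C (a : F))) = p := by
    rw [(AdjoinRoot.powerBasis hirr.ne_zero).finrank, AdjoinRoot.powerBasis_dim]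
    exact natDegree_X_pow_sub_C
  have hfd : FiniteDimensional F (AdjoinRoot (X ^ p - C (a : F))) :=
    Module.finite_of_finrank_pos (by rw [hfr]; exact M.prime.pos)
  have hch : CharZero (AdjoinRoot (X ^ p - C (a : F))) :=
    charZero_of_injective_algebraMap (algebraMap F (AdjoinRoot (X ^ p - C (a : F)))).injective
  have hfq : FiniteDimensional ℚ (AdjoinRoot (X ^ p - C (a : F))) :=
    Module.Finite.trans F _
  have hα : AdjoinRoot.root (X ^ p - C (a : F)) ^ p = algebraMap F _ (a : F) := by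
    have h1 := AdjoinRoot.eval₂_root (X ^ p - C (a : F))
    rw [eval₂_sub, eval₂_X_pow, eval₂_C] at h1
    exact sub_eq_zero.mp h1
  have hroot : aeval (algebraMap F (AdjoinRoot (X ^ p - C (a : F))) M.ζ *
      AdjoinRoot.root (X ^ p - C (a : F))) (X ^ p - C (a : F)) = 0 := by
    rw [map_sub, aeval_X_pow, aeval_C, mul_pow, hα, ← map_pow, M.zeta_pow, map_one, one_mul,
      sub_self]
  let τ : AdjoinRoot (X ^ p - C (a : F)) →ₐ[F] AdjoinRoot (X ^ p - C (a : F)) :=
    AdjoinRoot.liftAlgHom (X ^ p - C (a : F)) (Algebra.ofId F _)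
      (algebraMap F _ M.ζ * AdjoinRoot.root (X ^ p - C (a : F))) hroot
  have hτ : τ (AdjoinRoot.root _) = algebraMap F _ M.ζ * AdjoinRoot.root _ :=
    AdjoinRoot.liftAlgHom_root _ _ _ _
  have hbij : Function.Bijective τ := by
    have hinj : Function.Injective τ := τ.toRingHom.injective
    exact ⟨hinj, (LinearMap.injective_iff_surjective (f := τ.toLinearMap)).mp hinj⟩
  have hnf : NumberField (AdjoinRoot (X ^ p - C (a : F))) :=
    { to_charZero := hch, to_finiteDimensional := hfq }
  exact ⟨AdjoinRoot (X ^ p - C (a : F)), inferInstance, hnf, inferInstance,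
    AdjoinRoot.root _, AlgEquiv.ofBijective τ hbij, ⟨hfr, hα, hτ, ha⟩⟩

variable {E : Type} [Field E] [NumberField E] [Algebra F E] {M : Mu p F} {a : Fˣ} {θ : E}
  {σ : E ≃ₐ[F] E}

theorem KD.theta_ne (Q : KD M a E θ σ) : θ ≠ 0 := by
  rintro rfl
  have h := Q.pow
  rw [zero_pow M.prime.ne_zero] at h
  exact a.ne_zero ((algebraMap F E).injective (h.symm.trans (map_zero _).symm))

theorem KD.sig_theta (Q : KD M a E θ σ) (i : ℕ) :
    (σ ^ i) θ = algebraMap F E (M.ζ ^ i) * θ := by
  induction i with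
  | zero => rw [pow_zero, pow_zero, map_one, one_mul]; rfl
  | succ i ih =>
    rw [pow_succ', AlgEquiv.mul_apply, ih, map_mul, AlgEquiv.commutes, Q.conj, pow_succ, map_mul]
    ring

theorem KD.pow_inj (Q : KD M a E θ σ) : Function.Injective fun i : Fin p => σ ^ (i : ℕ) := by
  intro i j h
  have h1 : (σ ^ (i : ℕ)) θ = (σ ^ (j : ℕ)) θ := by
    change (fun i : Fin p => σ ^ (i : ℕ)) i θ = _
    rw [h]
  rw [Q.sig_theta, Q.sig_theta] at h1
  have h2 := (algebraMap F E).injective (mul_right_cancel₀ Q.theta_ne h1)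
  exact Fin.ext (M.prim.pow_inj i.2 j.2 h2)

theorem KD.fd (Q : KD M a E θ σ) : FiniteDimensional F E :=
  Module.finite_of_finrank_pos (by rw [Q.deg]; exact M.prime.pos)

theorem KD.card_aut (Q : KD M a E θ σ) : Nat.card (E ≃ₐ[F] E) = p := by
  have := Q.fd
  apply le_antisymm
  · rw [← Q.deg]
    rw [Nat.card_eq_fintype_card]
    exact AlgEquiv.card_le
  · have h := Nat.card_le_card_of_injective _ Q.pow_inj
    rwa [Nat.card_eq_fintype_card, Fintype.card_fin] at h

theorem KD.galois (Q : KD M a E θ σ) : IsGalois F E := by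
  have := Q.fd
  exact IsGalois.of_card_aut_eq_finrank F E (by rw [Q.card_aut, Q.deg])

theorem KD.pow_bij (Q : KD M a E θ σ) : Function.Bijective fun i : Fin p => σ ^ (i : ℕ) := by
  have := Q.fd
  rw [Nat.bijective_iff_injective_and_card]
  exact ⟨Q.pow_inj, by rw [Q.card_aut, Nat.card_eq_fintype_card, Fintype.card_fin]⟩

theorem KD.sigma_pow_eq (Q : KD M a E θ σ) : σ ^ p = 1 := by
  rw [← Q.card_aut]
  exact pow_card_eq_one'

theorem KD.sigma_pow (Q : KD M a E θ σ) (z : E) : (σ ^ p) z = z := by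
  rw [Q.sigma_pow_eq]; rfl

theorem KD.fixed (Q : KD M a E θ σ) {z : E} (h : σ z = z) : ∃ c : F, z = algebraMap F E c := by
  have := Q.fd
  have := Q.galois
  have h1 : z ∈ (⊥ : IntermediateField F E) := by
    rw [IsGalois.mem_bot_iff_fixed]
    intro g
    obtain ⟨i, rfl⟩ := Q.pow_bij.2 g
    have h2 : ∀ i : ℕ, (σ ^ i) z = z := by
      intro i
      induction i with
      | zero => rfl
      | succ i ih => rw [pow_succ, AlgEquiv.mul_apply, h, ih]
    exact h2 i
  obtain ⟨c, hc⟩ := IntermediateField.mem_bot.mp h1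
  exact ⟨c, hc.symm⟩

theorem KD.norm_eq (Q : KD M a E θ σ) (z : E) :
    algebraMap F E (Algebra.norm F z) = ∏ i ∈ Finset.range p, (σ ^ i) z := by
  have := Q.fd
  have := Q.galois
  rw [Algebra.norm_eq_prod_automorphisms, ← Fin.prod_univ_eq_prod_range (fun i => (σ ^ i) z)]
  exact (Fintype.prod_bijective _ Q.pow_bij _ _ fun i => rfl).symm

/-- Kummer: `x` becomes a `p`-th power only if it is a power of `a` times a `p`-th power. -/
theorem KD.Pw_iff (Q : KD M a E θ σ) {x : Fˣ}
    (hx : Units.map (algebraMap F E : F →* E) x ∈ Pw p E) :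
    ∃ i : ℕ, x * a ^ i ∈ Pw p F := by
  obtain ⟨z, hz⟩ := hx
  have hz' : (z : E) ^ p = algebraMap F E x := congrArg Units.val hz
  have hz0 : (z : E) ≠ 0 := z.ne_zero
  have : NeZero p := ⟨M.prime.ne_zero⟩
  have h1 : (σ z / z) ^ p = 1 := by
    rw [div_pow, ← map_pow, hz', AlgEquiv.commutes]
    exact div_self ((_root_.map_ne_zero _).mpr x.ne_zero)
  obtain ⟨j, hj, hj'⟩ := (M.map E).prim.eq_pow_of_pow_eq_one h1
  have hσz : σ z = algebraMap F E (M.ζ ^ j) * z := by
    rw [map_pow]
    rw [eq_div_iff hz0] at hj'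
    exact hj'.symm
  have h2 : σ (z * θ ^ (p - j)) = z * θ ^ (p - j) := by
    have h3 : M.ζ ^ j * M.ζ ^ (p - j) = 1 := by
      rw [← pow_add, Nat.add_sub_cancel' hj.le, M.zeta_pow]
    rw [map_mul, map_pow, hσz, Q.conj, mul_pow]
    calc _ = algebraMap F E (M.ζ ^ j * M.ζ ^ (p - j)) * (z * θ ^ (p - j)) := by
          rw [map_mul, map_pow _ _ (p - j)]; ring
      _ = _ := by rw [h3, map_one, one_mul]
  obtain ⟨c, hc⟩ := Q.fixed h2
  have h3 : c ^ p = x * a ^ (p - j) := by
    apply (algebraMap F E).injective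
    rw [map_pow, ← hc, mul_pow, hz', ← pow_mul, mul_comm (p - j), pow_mul, Q.pow, map_mul, map_pow]
  have hc0 : c ≠ 0 := by
    rintro rfl
    rw [zero_pow M.prime.ne_zero] at h3
    exact (x * a ^ (p - j)).ne_zero (by rw [Units.val_mul, Units.val_pow_eq_pow_val]; exact h3.symm)
  exact ⟨p - j, Units.mk0 c hc0, Units.ext (by
    rw [Units.val_mul, Units.val_pow_eq_pow_val, ← h3]; rfl)⟩

theorem LS_map {v : HeightOneSpectrum (𝓞 F)} {w : HeightOneSpectrum (𝓞 E)}
    (h : w.asIdeal.comap (algebraMap (𝓞 F) (𝓞 E)) = v.asIdeal) {x : Fˣ}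
    (hx : x ∈ LS M (v.valuation F)) :
    Units.map (algebraMap F E : F →* E) x ∈ LS (M.map E) (w.valuation E) := by
  obtain ⟨y, hy⟩ := hx
  refine ⟨Units.map (algebraMap F E : F →* E) y, ?_⟩
  have e1 : ((Units.map (algebraMap F E : F →* E) x : Eˣ) : E) /
      ((Units.map (algebraMap F E : F →* E) y : Eˣ) : E) ^ p - 1 =
      algebraMap F E ((x : F) / (y : F) ^ p - 1) := by
    simp
  have e2 : (M.map E).l ^ p = algebraMap F E (M.l ^ p) := by
    simp [Mu.l, Mu.map]
  rw [e1, e2, val_lt_val_iff h]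
  exact hy

/-! ### The conjugates of a prime -/

theorem exists_conj_pow (σ : E ≃ₐ[F] E) (w : HeightOneSpectrum (𝓞 E)) (i : ℕ) :
    ∃ w' : HeightOneSpectrum (𝓞 E), (∀ z, w'.valuation E z = w.valuation E ((σ ^ i) z)) ∧
      ∀ v : HeightOneSpectrum (𝓞 F), w.asIdeal.comap (algebraMap (𝓞 F) (𝓞 E)) = v.asIdeal ↔
        w'.asIdeal.comap (algebraMap (𝓞 F) (𝓞 E)) = v.asIdeal := by
  obtain ⟨w', h1, h2⟩ := exists_conj (σ ^ i)⁻¹ w
  refine ⟨w', fun z => ?_, h2⟩
  rw [← h1]
  congr 1
  exact (AlgEquiv.symm_apply_apply (σ ^ i) z).symm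

theorem spec_ext {w w' : HeightOneSpectrum (𝓞 E)} (h : ∀ z, w.valuation E z = w'.valuation E z) :
    w = w' := by
  apply HeightOneSpectrum.ext
  ext x
  rw [← w.valuation_lt_one_iff_mem (K := E), ← w'.valuation_lt_one_iff_mem (K := E), h]

theorem KD.transitive (Q : KD M a E θ σ) {v : HeightOneSpectrum (𝓞 F)}
    {w w' : HeightOneSpectrum (𝓞 E)}
    (h : w.asIdeal.comap (algebraMap (𝓞 F) (𝓞 E)) = v.asIdeal)
    (h' : w'.asIdeal.comap (algebraMap (𝓞 F) (𝓞 E)) = v.asIdeal) :
    ∃ i : ℕ, ∀ z, w'.valuation E z = w.valuation E ((σ ^ i) z) := by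
  classical
  choose u hu hu2 using fun i => exists_conj_pow σ w i
  by_contra hcon
  push Not at hcon
  have hne : ∀ i, w' ≠ u i := by
    rintro i rfl
    obtain ⟨z, hz⟩ := hcon i
    exact hz (hu i z)
  have h1 : ¬ ((w'.asIdeal : Set (𝓞 E)) ⊆ ⋃ i ∈ (Finset.range p : Set ℕ), ((u i).asIdeal : Set (𝓞 E))) := by
    rw [Ideal.subset_union_prime (s := Finset.range p) 0 0 (fun i _ _ _ => (u i).isPrime)]
    rintro ⟨i, -, hi⟩
    exact hne i (HeightOneSpectrum.ext (w'.isMaximal.eq_of_le (u i).isPrime.ne_top hi))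
  obtain ⟨x, hx, hx'⟩ := Set.not_subset.mp h1
  simp only [Set.mem_iUnion, not_exists] at hx'
  have hint : ∀ i, ∃ y : 𝓞 E, algebraMap (𝓞 E) E y = (σ ^ i) (algebraMap (𝓞 E) E x) := fun i =>
    ⟨RingOfIntegers.mapRingEquiv ((σ ^ i : E ≃ₐ[F] E) : E ≃+* E) x, rfl⟩
  have e1 : w'.valuation E (algebraMap F E (Algebra.norm F (algebraMap (𝓞 E) E x))) < 1 := by
    rw [Q.norm_eq, map_prod]
    obtain ⟨q, hq⟩ : ∃ q, p = q + 1 := ⟨p - 1, (Nat.sub_add_cancel M.prime.pos).symm⟩
    rw [hq, Finset.prod_range_succ']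
    have h3 : w'.valuation E ((σ ^ 0) (algebraMap (𝓞 E) E x)) < 1 :=
      (w'.valuation_lt_one_iff_mem x).mpr hx
    rw [mul_comm]
    refine mul_lt_one_of_lt_of_le h3 ?_
    refine Finset.prod_le_one' fun i _ => ?_
    obtain ⟨y, hy⟩ := hint (i + 1)
    rw [← hy]
    exact w'.valuation_le_one y
  rw [val_lt_one_iff h', ← val_lt_one_iff h, Q.norm_eq, map_prod] at e1
  have e2 : ∏ i ∈ Finset.range p, w.valuation E ((σ ^ i) (algebraMap (𝓞 E) E x)) = 1 := by
    refine Finset.prod_eq_one fun i hi => ?_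
    rw [← hu]
    exact (u i).valuation_eq_one_iff_notMem.mpr (hx' i (by simpa using hi))
  rw [e2] at e1
  exact lt_irrefl _ e1

/-- If a nontrivial power of `σ` fixes the valuation then so does `σ`. -/
theorem KD.val_fix_of_pow (Q : KD M a E θ σ) (w : HeightOneSpectrum (𝓞 E)) {i : ℕ}
    (hi : ¬ p ∣ i) (h : ∀ z, w.valuation E ((σ ^ i) z) = w.valuation E z) (z : E) :
    w.valuation E (σ z) = w.valuation E z := by
  have hcop : Nat.Coprime i p := (Nat.coprime_comm.mp ((M.prime.coprime_iff_not_dvd).mpr hi))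
  obtain ⟨j, -, hj⟩ := Nat.exists_mul_mod_eq_one_of_coprime hcop M.prime.one_lt
  have h1 : ∀ j : ℕ, ∀ z, w.valuation E ((σ ^ (i * j)) z) = w.valuation E z := by
    intro j
    induction j with
    | zero => intro z; rfl
    | succ j ih =>
      intro z
      rw [Nat.mul_succ, pow_add, AlgEquiv.mul_apply, ih, h]
  have h2 : σ ^ (i * j) = σ := by
    rw [← Nat.div_add_mod (i * j) p, pow_add, pow_mul, Q.sigma_pow_eq, one_pow, hj, one_mul,
      pow_one]
  rw [← h1 j z, h2]

/-! ### Traces and coordinates -/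

theorem sum_shift {A : Type} [AddCommGroup A] {n : ℕ} {g : ℕ → A} (hg : g n = g 0) :
    ∑ i ∈ Finset.range n, g (i + 1) = ∑ i ∈ Finset.range n, g i := by
  have h := (Finset.sum_range_succ' g n).symm.trans (Finset.sum_range_succ g n)
  rw [hg] at h
  exact add_right_cancel h

theorem KD.trace_mem (Q : KD M a E θ σ) (z : E) :
    ∃ c : F, ∑ i ∈ Finset.range p, (σ ^ i) z = algebraMap F E c := by
  apply Q.fixed
  rw [map_sum]
  have h1 : ∀ i, σ ((σ ^ i) z) = (σ ^ (i + 1)) z := fun i => by
    rw [pow_succ']; rfl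
  rw [Finset.sum_congr rfl fun i _ => h1 i]
  exact sum_shift (g := fun i => (σ ^ i) z) (by rw [Q.sigma_pow, pow_zero]; rfl)

theorem KD.coords (Q : KD M a E θ σ) (z : E) :
    ∃ c : ℕ → F, (p : E) * z = ∑ i ∈ Finset.range p, algebraMap F E (c i) * θ ^ i ∧
      ∀ i, algebraMap F E (c i) = ∑ j ∈ Finset.range p, (σ ^ j) (z * θ⁻¹ ^ i) := by
  choose c hc using fun i => Q.trace_mem (z * θ⁻¹ ^ i)
  refine ⟨c, ?_, fun i => (hc i).symm⟩
  have hθ := Q.theta_ne
  have h1 : ∀ i j, (σ ^ j) (z * θ⁻¹ ^ i) * θ ^ i = (σ ^ j) z * ((algebraMap F E (M.ζ ^ j))⁻¹) ^ i := by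
    intro i j
    rw [map_mul, map_pow, map_inv₀, Q.sig_theta, mul_assoc, ← mul_pow, mul_inv]
    congr 2
    rw [mul_assoc, inv_mul_cancel₀ hθ, mul_one]
  have h2 : ∀ i, algebraMap F E (c i) * θ ^ i =
      ∑ j ∈ Finset.range p, (σ ^ j) z * ((algebraMap F E (M.ζ ^ j))⁻¹) ^ i := by
    intro i
    rw [← hc, Finset.sum_mul]
    exact Finset.sum_congr rfl fun j _ => h1 i j
  rw [Finset.sum_congr rfl fun i _ => h2 i, Finset.sum_comm]
  have h3 : ∀ j ∈ Finset.range p, j ≠ 0 →
      ∑ i ∈ Finset.range p, (σ ^ j) z * ((algebraMap F E (M.ζ ^ j))⁻¹) ^ i = 0 := by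
    intro j hj hj0
    rw [← Finset.mul_sum]
    have h4 : ((algebraMap F E (M.ζ ^ j))⁻¹ - 1) *
        ∑ i ∈ Finset.range p, ((algebraMap F E (M.ζ ^ j))⁻¹) ^ i = 0 := by
      rw [mul_geom_sum, inv_pow, ← map_pow, ← pow_mul, mul_comm j, pow_mul, M.zeta_pow, one_pow,
        map_one, inv_one, sub_self]
    rcases mul_eq_zero.mp h4 with h | h
    · exfalso
      have h5 : M.ζ ^ j = 1 := by
        apply (algebraMap F E).injective
        rw [map_one, ← inv_inj, inv_one]
        exact sub_eq_zero.mp h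
      have h6 := (M.prim.pow_eq_one_iff_dvd j).mp h5
      exact absurd (Nat.le_of_dvd (Nat.pos_of_ne_zero hj0) h6)
        (not_le.mpr (Finset.mem_range.mp hj))
    · rw [h, mul_zero]
  rw [Finset.sum_eq_single_of_mem 0 (Finset.mem_range.mpr M.prime.pos) h3]
  simp

theorem KD.p_ne (_Q : KD M a E θ σ) : (p : E) ≠ 0 := by
  exact_mod_cast M.prime.ne_zero

/-- Every element is a polynomial in `θ`. -/
theorem KD.exists_poly (Q : KD M a E θ σ) (z : E) : ∃ h : F[X], z = aeval θ h := by
  obtain ⟨c, hc, -⟩ := Q.coords z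
  refine ⟨C ((p : F)⁻¹) * ∑ i ∈ Finset.range p, C (c i) * X ^ i, ?_⟩
  rw [map_mul, aeval_C, map_sum]
  simp only [map_mul, aeval_C, map_pow, aeval_X]
  rw [← hc, map_inv₀, map_natCast, ← mul_assoc, inv_mul_cancel₀ Q.p_ne, one_mul]

/-! ### Split and nonsplit primes -/

/-- At a place where `a` is a local `p`-th power, `σ` does not fix the valuation. -/
theorem KD.not_fixed (Q : KD M a E θ σ) {v : HeightOneSpectrum (𝓞 F)}
    {w : HeightOneSpectrum (𝓞 E)}
    (h : w.asIdeal.comap (algebraMap (𝓞 F) (𝓞 E)) = v.asIdeal) (ha : a ∈ LS M (v.valuation F)) :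
    ¬ ∀ z, w.valuation E (σ z) = w.valuation E z := by
  intro hw
  obtain ⟨y, hy⟩ := ha
  have hy0 : (y : F) ≠ 0 := y.ne_zero
  have hyE : algebraMap F E y ≠ 0 := (_root_.map_ne_zero _).mpr hy0
  set η : E := θ / algebraMap F E y with hη
  have hση : σ η = algebraMap F E M.ζ * η := by
    rw [hη, map_div₀, Q.conj, AlgEquiv.commutes, mul_div_assoc]
  have hζ : w.valuation E (algebraMap F E M.ζ) = 1 := (M.map E).val_zeta _
  have h1 : ∀ i : ℕ, w.valuation E (η - algebraMap F E M.ζ ^ i) = w.valuation E (η - 1) := by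
    intro i
    induction i with
    | zero => rw [pow_zero]
    | succ i ih =>
      rw [← ih, ← one_mul (w.valuation E (η - algebraMap F E M.ζ ^ i)), ← hζ, ← map_mul,
        ← hw (η - algebraMap F E M.ζ ^ (i + 1)), map_sub σ, hση, map_pow σ, AlgEquiv.commutes,
        mul_sub, ← pow_succ']
  have h2 : η ^ p - 1 = algebraMap F E ((a : F) / y ^ p - 1) := by
    rw [hη, div_pow, Q.pow, map_sub, map_div₀, map_pow, map_one]
  have h3 : ∏ i ∈ Finset.range p, (η - algebraMap F E M.ζ ^ i) = η ^ p - 1 := by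
    have h4 := congrArg (fun g : E[X] => g.eval η) (M.map E).prod_X_sub
    simp only [eval_prod, eval_sub, eval_X, eval_C, eval_pow, eval_one] at h4
    exact h4
  have h5 : w.valuation E (η - 1) ^ p < w.valuation E (algebraMap F E M.l) ^ p := by
    have h6 : w.valuation E (η - 1) ^ p = w.valuation E (η ^ p - 1) := by
      rw [← h3, map_prod, Finset.prod_congr rfl fun i _ => h1 i, Finset.prod_const,
        Finset.card_range]
    rw [h6, h2, ← map_pow, ← map_pow, val_lt_val_iff h]
    exact hy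
  have h6 : w.valuation E (η - 1) < w.valuation E (algebraMap F E M.l) :=
    lt_of_pow_lt_pow_left₀ p zero_le h5
  have h7 : w.valuation E (algebraMap F E M.l) ≤ w.valuation E (η - 1) := by
    have h8 : algebraMap F E M.l = (η - algebraMap F E M.ζ ^ 1) - (η - 1) := by
      rw [Mu.l, map_sub, map_one, pow_one]; ring
    rw [h8]
    exact (w.valuation E).map_sub_le (h1 1).le le_rfl
  exact absurd h6 (not_lt.mpr h7)

/-- The place `w` is fixed by `σ` iff `a` is not a local `p`-th power. -/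
theorem KD.split_iff (Q : KD M a E θ σ) {v : HeightOneSpectrum (𝓞 F)}
    {w : HeightOneSpectrum (𝓞 E)}
    (h : w.asIdeal.comap (algebraMap (𝓞 F) (𝓞 E)) = v.asIdeal) :
    a ∉ LS M (v.valuation F) ↔ ∀ z, w.valuation E (σ z) = w.valuation E z := by
  classical
  constructor
  swap
  · intro h1 h2
    exact Q.not_fixed h h2 h1
  intro ha
  by_contra hcon
  apply ha
  choose u hu hu2 using fun i => exists_conj_pow σ w i
  have hne : ∀ i ∈ Finset.range p, i ≠ 0 → u i ≠ w := by
    intro i hi hi0 heq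
    apply hcon
    refine Q.val_fix_of_pow w (i := i) ?_ ?_
    · intro hd
      exact absurd (Nat.le_of_dvd (Nat.pos_of_ne_zero hi0) hd)
        (not_le.mpr (Finset.mem_range.mp hi))
    · intro z
      rw [← hu, heq]
  have hu0 : ∀ z, (u 0).valuation E z = w.valuation E z := fun z => hu 0 z
  have hθ := Q.theta_ne
  have hwθ : w.valuation E θ ≠ 0 := (Valuation.ne_zero_iff _).mpr hθ
  have hwl : w.valuation E ((M.map E).l ^ p) ≠ 0 := (M.map E).val_lp_ne _
  set γ : Z0 := w.valuation E ((M.map E).l ^ p) * w.valuation E θ with hγ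
  have hγ0 : γ ≠ 0 := mul_ne_zero hwl hwθ
  obtain ⟨t, ht, -⟩ := approxVal (F := E) (insert w ((Finset.range p).image u))
    (fun v => if v = w then θ else 0) (fun _ => γ) (fun _ _ => hγ0) (fun _ => 0)
    (ε := 1) one_pos
  have ht1 : w.valuation E (t - θ) < γ := by
    have := ht w (Finset.mem_insert_self _ _)
    simpa using this
  have ht2 : ∀ i ∈ Finset.range p, i ≠ 0 → w.valuation E ((σ ^ i) t) < γ := by
    intro i hi hi0
    have := ht (u i) (Finset.mem_insert_of_mem (Finset.mem_image_of_mem u hi))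
    rw [if_neg (hne i hi hi0), sub_zero, hu] at this
    exact this
  obtain ⟨y, hy⟩ := Q.trace_mem t
  have h1 : w.valuation E (algebraMap F E y - θ) < γ := by
    obtain ⟨q, hq⟩ : ∃ q, p = q + 1 := ⟨p - 1, (Nat.sub_add_cancel M.prime.pos).symm⟩
    have e1 : algebraMap F E y - θ = (∑ i ∈ Finset.range q, (σ ^ (i + 1)) t) + (t - θ) := by
      rw [← hy, hq, Finset.sum_range_succ', pow_zero]
      change _ + t - θ = _
      ring
    rw [e1]
    refine (w.valuation E).map_add_lt ?_ ht1
    refine Valuation.map_sum_lt _ hγ0 fun i hi => ht2 (i + 1) ?_ (Nat.succ_ne_zero i)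
    rw [Finset.mem_range] at hi ⊢
    omega
  have hy0 : y ≠ 0 := by
    rintro rfl
    rw [map_zero, zero_sub, Valuation.map_neg] at h1
    refine absurd h1 (not_lt.mpr ?_)
    exact mul_le_of_le_one_left' ((M.map E).val_lp_le _)
  have h2 : w.valuation E (algebraMap F E y / θ - 1) < w.valuation E ((M.map E).l ^ p) := by
    have e : algebraMap F E y / θ - 1 = (algebraMap F E y - θ) / θ := by field_simp
    rw [e, map_div₀, div_lt_iff₀ (zero_lt_iff.mpr hwθ)]
    exact h1
  have h3 : w.valuation E (algebraMap F E y / θ) ≤ 1 := by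
    have e : algebraMap F E y / θ = (algebraMap F E y / θ - 1) + 1 := by ring
    rw [e]
    refine (w.valuation E).map_add_le (h2.le.trans ((M.map E).val_lp_le _)) (by rw [map_one])
  have h4 : w.valuation E ((algebraMap F E y / θ) ^ p - 1) < w.valuation E ((M.map E).l ^ p) := by
    refine lt_of_le_of_lt ?_ h2
    have h5 := val_one_sub_pow_le (w.valuation E) h3 p
    rw [← Valuation.map_neg, neg_sub] at h5
    rwa [← Valuation.map_neg _ (algebraMap F E y / θ - 1), neg_sub]
  have e2 : (M.map E).l ^ p = algebraMap F E (M.l ^ p) := by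
    simp [Mu.l, Mu.map]
  have e3 : (algebraMap F E y / θ) ^ p - 1 = algebraMap F E (y ^ p / a - 1) := by
    rw [div_pow, Q.pow, map_sub, map_div₀, map_pow, map_one]
  rw [e2, e3, val_lt_val_iff h] at h4
  rw [← inv_mem_iff]
  refine ⟨(Units.mk0 y hy0)⁻¹, ?_⟩
  have e4 : ((a⁻¹ : Fˣ) : F) / (((Units.mk0 y hy0)⁻¹ : Fˣ) : F) ^ p - 1 = y ^ p / a - 1 := by
    rw [Units.val_inv_eq_inv_val, Units.val_inv_eq_inv_val, Units.val_mk0, inv_pow]
    have ha0 : (a : F) ≠ 0 := a.ne_zero
    field_simp
  rw [e4]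
  exact h4

/-- At a split place there is no ramification. -/
theorem KD.val_split (Q : KD M a E θ σ) {v : HeightOneSpectrum (𝓞 F)}
    {w : HeightOneSpectrum (𝓞 E)}
    (h : w.asIdeal.comap (algebraMap (𝓞 F) (𝓞 E)) = v.asIdeal)
    (ha : a ∈ LS M (v.valuation F)) (x : F) :
    w.valuation E (algebraMap F E x) = v.valuation F x := by
  classical
  obtain ⟨e, he, hv⟩ := val_above h
  suffices e = 1 by rw [hv, this, pow_one]
  choose u hu hu2 using fun i => exists_conj_pow σ w i
  have hne : ∀ i ∈ Finset.range p, i ≠ 0 → u i ≠ w := by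
    intro i hi hi0 heq
    refine Q.not_fixed h ha (Q.val_fix_of_pow w (i := i) ?_ ?_)
    · intro hd
      exact absurd (Nat.le_of_dvd (Nat.pos_of_ne_zero hi0) hd)
        (not_le.mpr (Finset.mem_range.mp hi))
    · intro z
      rw [← hu, heq]
  obtain ⟨ϖ, hϖ⟩ := w.valuation_exists_uniformizer E
  obtain ⟨t, ht, -⟩ := approxVal (F := E) (insert w ((Finset.range p).image u))
    (fun v => if v = w then ϖ else 1) (fun _ => WithZero.exp (-1)) (fun _ _ => WithZero.exp_ne_zero)
    (fun _ => 0) (ε := 1) one_pos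
  have ht1 : w.valuation E t = WithZero.exp (-1) := by
    have := ht w (Finset.mem_insert_self _ _)
    rw [if_pos rfl, ← hϖ] at this
    have h1 := (w.valuation E).map_add_eq_of_lt_left this
    rw [add_sub_cancel] at h1
    rw [h1, hϖ]
  have ht2 : ∀ i ∈ Finset.range p, i ≠ 0 → w.valuation E ((σ ^ i) t) = 1 := by
    intro i hi hi0
    have := ht (u i) (Finset.mem_insert_of_mem (Finset.mem_image_of_mem u hi))
    rw [if_neg (hne i hi hi0)] at this
    rw [← hu]
    have h1 : (u i).valuation E (t - 1) < (u i).valuation E 1 := by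
      rw [map_one]
      refine this.trans ?_
      rw [← WithZero.exp_zero, WithZero.exp_lt_exp]
      norm_num
    have h2 := ((u i).valuation E).map_add_eq_of_lt_left h1
    rw [add_sub_cancel, map_one] at h2
    exact h2
  have h1 : w.valuation E (algebraMap F E (Algebra.norm F t)) = WithZero.exp (-1) := by
    rw [Q.norm_eq, map_prod, Finset.prod_eq_single_of_mem 0 (Finset.mem_range.mpr M.prime.pos)
      ht2]
    exact ht1
  rw [hv] at h1
  exact exp_neg_one_eq_pow h1

theorem KD.val_unram (Q : KD M a E θ σ) {v : HeightOneSpectrum (𝓞 F)}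
    {w : HeightOneSpectrum (𝓞 E)}
    (h : w.asIdeal.comap (algebraMap (𝓞 F) (𝓞 E)) = v.asIdeal)
    (hp : v.valuation F (p : F) = 1) (ha : v.valuation F (a : F) = 1) (x : F) :
    w.valuation E (algebraMap F E x) = v.valuation F x := by
  by_cases hs : a ∈ LS M (v.valuation F)
  · exact Q.val_split h hs x
  have hfix := (Q.split_iff h).mp hs
  obtain ⟨e, he, hv⟩ := val_above h
  suffices e = 1 by rw [hv, this, pow_one]
  have hwp : w.valuation E (p : E) = 1 := by
    have := hv p
    rwa [hp, one_pow, map_natCast] at this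
  have hwθ : w.valuation E θ = 1 := by
    have h1 : w.valuation E (θ ^ p) = 1 := by rw [Q.pow, hv, ha, one_pow]
    rw [map_pow] at h1
    exact (pow_eq_one_iff_left M.prime.ne_zero).mp h1
  have hfix' : ∀ (j : ℕ) z, w.valuation E ((σ ^ j) z) = w.valuation E z := by
    intro j
    induction j with
    | zero => intro z; rfl
    | succ j ih =>
      intro z
      rw [pow_succ, AlgEquiv.mul_apply, ih, hfix]
  obtain ⟨ϖ, hϖ⟩ := w.valuation_exists_uniformizer E
  obtain ⟨c, hc, hc'⟩ := Q.coords ϖ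
  have key : ∀ i, w.valuation E (algebraMap F E (c i)) ≤ WithZero.exp (-(e : ℤ)) := by
    intro i
    have h1 : w.valuation E (algebraMap F E (c i)) ≤ WithZero.exp (-1) := by
      rw [hc']
      refine Valuation.map_sum_le _ fun j _ => ?_
      rw [hfix', map_mul, hϖ, map_pow, map_inv₀, hwθ, inv_one, one_pow, mul_one]
    rw [hv] at h1 ⊢
    by_cases hp0 : v.valuation F (c i) = 0
    · rw [hp0, zero_pow he]; exact zero_le
    obtain ⟨k, hk⟩ : ∃ k : ℤ, v.valuation F (c i) = WithZero.exp k :=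
      ⟨WithZero.log _, (WithZero.exp_log hp0).symm⟩
    rw [hk, ← WithZero.exp_nsmul, WithZero.exp_le_exp, nsmul_eq_mul] at h1 ⊢
    have hk0 : k < 0 := by
      by_contra hk0
      push Not at hk0
      have : 0 ≤ (e : ℤ) * k := by positivity
      omega
    nlinarith
  have hfin : WithZero.exp (-1) ≤ (WithZero.exp (-(e : ℤ)) : Z0) := by
    have h1 : w.valuation E ((p : E) * ϖ) ≤ WithZero.exp (-(e : ℤ)) := by
      rw [hc]
      refine Valuation.map_sum_le _ fun i _ => ?_
      rw [map_mul, map_pow, hwθ, one_pow, mul_one]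
      exact key i
    rwa [map_mul, hwp, one_mul, hϖ] at h1
  rw [WithZero.exp_le_exp] at hfin
  omega

/-! ### Counting places -/

theorem KD.card_above (Q : KD M a E θ σ) (v : HeightOneSpectrum (𝓞 F)) :
    {w : HeightOneSpectrum (𝓞 E) |
      w.asIdeal.comap (algebraMap (𝓞 F) (𝓞 E)) = v.asIdeal}.ncard +
      (p - 1) * ({v' | v' = v ∧ a ∉ LS M (v'.valuation F)} : Set (HeightOneSpectrum (𝓞 F))).ncard =
      p := by
  classical
  obtain ⟨w, hw⟩ := exists_above (E := E) v
  choose u hu hu2 using fun i => exists_conj_pow σ w i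
  by_cases hs : a ∈ LS M (v.valuation F)
  · have e1 : ({v' | v' = v ∧ a ∉ LS M (v'.valuation F)} : Set (HeightOneSpectrum (𝓞 F))) = ∅ := by
      ext v'
      simp only [Set.mem_ofPred_eq, Set.mem_empty_iff_false, iff_false, not_and, not_not]
      rintro rfl
      exact hs
    have e2 : {w : HeightOneSpectrum (𝓞 E) |
        w.asIdeal.comap (algebraMap (𝓞 F) (𝓞 E)) = v.asIdeal} =
        ((Finset.range p).image u : Finset (HeightOneSpectrum (𝓞 E))) := by
      ext w'
      rw [Finset.coe_image]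
      constructor
      · intro hw'
        obtain ⟨i, hi⟩ := Q.transitive hw hw'
        refine ⟨i % p, ?_, ?_⟩
        · rw [Finset.mem_coe, Finset.mem_range]
          exact Nat.mod_lt _ M.prime.pos
        · apply spec_ext
          intro z
          have h1 : σ ^ i = σ ^ (i % p) := by
            conv_lhs => rw [← Nat.div_add_mod i p, pow_add, pow_mul, Q.sigma_pow_eq, one_pow, one_mul]
          rw [hu, hi, h1]
      · rintro ⟨i, -, rfl⟩
        exact (hu2 i v).mp hw
    have hinj : Set.InjOn u (Finset.range p : Set ℕ) := by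
      have key : ∀ i j, i < j → j < p → u i = u j → False := by
        intro i j hij hj h
        refine Q.not_fixed hw hs (Q.val_fix_of_pow w (i := j - i) ?_ ?_)
        · intro hd
          exact absurd (Nat.le_of_dvd (by omega) hd) (by omega)
        · intro z
          have h1 : ∀ z, w.valuation E ((σ ^ i) z) = w.valuation E ((σ ^ j) z) := fun z => by
            rw [← hu, ← hu, h]
          have h2 := h1 ((σ ^ (p - i)) z)
          rw [← AlgEquiv.mul_apply, ← AlgEquiv.mul_apply, ← pow_add, ← pow_add,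
            Nat.add_sub_cancel' (by omega), Q.sigma_pow,
            show j + (p - i) = (j - i) + p by omega, pow_add, Q.sigma_pow_eq, mul_one] at h2
          exact h2.symm
      intro i hi j hj h
      rw [Finset.mem_coe, Finset.mem_range] at hi hj
      rcases lt_trichotomy i j with hij | hij | hij
      · exact (key i j hij hj h).elim
      · exact hij
      · exact (key j i hij hi h.symm).elim
    rw [e1, e2, Set.ncard_coe_finset, Finset.card_image_of_injOn hinj, Finset.card_range,
      Set.ncard_empty, mul_zero, add_zero]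
  · have hfix := (Q.split_iff hw).mp hs
    have hfix' : ∀ (j : ℕ) z, w.valuation E ((σ ^ j) z) = w.valuation E z := by
      intro j
      induction j with
      | zero => intro z; rfl
      | succ j ih =>
        intro z
        rw [pow_succ, AlgEquiv.mul_apply, ih, hfix]
    have e1 : ({v' | v' = v ∧ a ∉ LS M (v'.valuation F)} : Set (HeightOneSpectrum (𝓞 F))) = {v} := by
      ext v'
      simp only [Set.mem_ofPred_eq, Set.mem_singleton_iff]
      constructor
      · exact fun h => h.1
      · rintro rfl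
        exact ⟨rfl, hs⟩
    have e2 : {w : HeightOneSpectrum (𝓞 E) |
        w.asIdeal.comap (algebraMap (𝓞 F) (𝓞 E)) = v.asIdeal} = {w} := by
      ext w'
      constructor
      · intro hw'
        obtain ⟨i, hi⟩ := Q.transitive hw hw'
        refine spec_ext fun z => ?_
        rw [hi, hfix']
      · rintro rfl
        exact hw
    have := M.prime.pos
    rw [e1, e2, Set.ncard_singleton, Set.ncard_singleton]
    omega

theorem KD.card_ov (Q : KD M a E θ σ) {S : Set (HeightOneSpectrum (𝓞 F))} (hS : S.Finite) :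
    (ov E S).ncard + (p - 1) * tc M a S = p * S.ncard := by
  classical
  unfold tc
  induction S, hS using Set.Finite.induction_on with
  | empty => simp [ov]
  | @insert v S hv hS ih =>
    have e1 : ov E (insert v S) = {w : HeightOneSpectrum (𝓞 E) |
        w.asIdeal.comap (algebraMap (𝓞 F) (𝓞 E)) = v.asIdeal} ∪ ov E S := by
      ext w
      simp [ov]
    have e2 : {v' | v' ∈ insert v S ∧ a ∉ LS M (HeightOneSpectrum.valuation F v')} =
        ({v' | v' = v ∧ a ∉ LS M (v'.valuation F)} : Set (HeightOneSpectrum (𝓞 F))) ∪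
          {v' | v' ∈ S ∧ a ∉ LS M (v'.valuation F)} := by
      ext v'
      simp only [Set.mem_insert_iff, Set.mem_ofPred_eq, Set.mem_union]
      tauto
    have d1 : Disjoint {w : HeightOneSpectrum (𝓞 E) |
        w.asIdeal.comap (algebraMap (𝓞 F) (𝓞 E)) = v.asIdeal} (ov E S) := by
      rw [Set.disjoint_left]
      rintro w hw ⟨v', hv', hwv'⟩
      exact hv (below_unique hw hwv' ▸ hv')
    have d2 : Disjoint ({v' | v' = v ∧ a ∉ LS M (v'.valuation F)} : Set (HeightOneSpectrum (𝓞 F)))
        {v' | v' ∈ S ∧ a ∉ LS M (v'.valuation F)} := by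
      rw [Set.disjoint_left]
      rintro v' ⟨rfl, -⟩ ⟨h, -⟩
      exact hv h
    have f1 := above_finite (E := E) v
    have f2 : ({v' | v' = v ∧ a ∉ LS M (v'.valuation F)} : Set (HeightOneSpectrum (𝓞 F))).Finite :=
      (Set.finite_singleton v).subset fun v' h => h.1
    have f3 : {v' | v' ∈ S ∧ a ∉ LS M (HeightOneSpectrum.valuation F v')}.Finite :=
      hS.subset fun v' h => h.1
    rw [e1, e2, Set.ncard_union_eq d1 f1 (ov_finite hS), Set.ncard_union_eq d2 f2 f3,
      Set.ncard_insert_of_notMem hv hS, mul_add, mul_add, mul_one, ← ih]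
    have := Q.card_above v
    omega

theorem KD.card_inf (Q : KD M a E θ σ) :
    Fintype.card (InfinitePlace E) = p * Fintype.card (InfinitePlace F) := by
  have h1 := finrank_eq M
  have h2 := finrank_eq (M.map E)
  have h3 := Module.finrank_mul_finrank ℚ F E
  rw [h1, h2, Q.deg] at h3
  apply Nat.eq_of_mul_eq_mul_left (show 0 < 2 by norm_num)
  rw [← h3]
  ring

end Vale.Agent.P011.ArP
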