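import Vale.Agent.P011.ArP.LocB
import Vale.Agent.P011.Arith.Quad

/-!
Irreducibility of Artin-Schreier polynomials, and orthogonality of the powers of an element with
irreducible reduction.
-/

open NumberField IsDedekindDomain Polynomial

namespace Vale.Agent.P011.ArP

open Vale.Agent.P011.Arith (Z0 exists_residue finite_residue mk_eq_zero_iff val_lt_one_iff
  val_le_one_iff)

/-- Elements fixed by the Frobenius are in the prime field. -/
theorem exists_zmod {L : Type*} [Field L] {p : ℕ} [hp : Fact p.Prime] [CharP L p] {x : L}
    (hx : x ^ p = x) : ∃ i : ZMod p, (ZMod.castHom (dvd_refl p) L) i = x := by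
  classical
  let f : ZMod p →+* L := ZMod.castHom (dvd_refl p) L
  have hf : Function.Injective f := f.injective
  have h1 : (Finset.univ.image f).card = p := by
    rw [Finset.card_image_of_injective _ hf, Finset.card_univ, ZMod.card]
  have h2 : Finset.univ.image f ⊆ (X ^ p - X : L[X]).roots.toFinset := by
    intro y hy
    obtain ⟨i, _, rfl⟩ := Finset.mem_image.mp hy
    rw [Multiset.mem_toFinset, mem_roots (FiniteField.X_pow_card_sub_X_ne_zero L hp.out.one_lt)]
    simp only [IsRoot.def, eval_sub, eval_pow, eval_X]
    rw [← map_pow, ZMod.pow_card, sub_self]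
  have h3 : (X ^ p - X : L[X]).roots.toFinset.card ≤ p := by
    refine (Multiset.toFinset_card_le _).trans ((card_roots' _).trans ?_)
    rw [FiniteField.X_pow_card_sub_X_natDegree_eq L hp.out.one_lt]
  have h4 : Finset.univ.image f = (X ^ p - X : L[X]).roots.toFinset :=
    Finset.eq_of_subset_of_card_le h2 (by rw [h1]; exact h3)
  have h5 : x ∈ (X ^ p - X : L[X]).roots.toFinset := by
    rw [Multiset.mem_toFinset, mem_roots (FiniteField.X_pow_card_sub_X_ne_zero L hp.out.one_lt)]
    simp only [IsRoot.def, eval_sub, eval_pow, eval_X]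
    rw [hx, sub_self]
  rw [← h4] at h5
  obtain ⟨i, _, hi⟩ := Finset.mem_image.mp h5
  exact ⟨i, hi⟩

theorem natDegree_AS {k : Type*} [Field k] {p : ℕ} (hp : p.Prime) (c : k) :
    (X ^ p - X - C c : k[X]).natDegree = p := by
  rw [natDegree_sub_C, FiniteField.X_pow_card_sub_X_natDegree_eq k hp.one_lt]

theorem monic_AS {k : Type*} [Field k] {p : ℕ} (hp : p.Prime) (c : k) :
    (X ^ p - X - C c : k[X]).Monic := by
  have h1 : (X ^ p - X - C c : k[X]) = X ^ p - (X + C c) := by ring
  rw [h1]
  refine monic_X_pow_sub ?_
  rw [degree_X_add_C]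
  exact_mod_cast hp.one_lt

/-- Artin-Schreier polynomials without roots are irreducible. -/
theorem irreducible_AS {k : Type*} [Field k] {p : ℕ} [hp : Fact p.Prime] [CharP k p] (c : k)
    (h : ∀ t : k, t ^ p - t ≠ c) : Irreducible (X ^ p - X - C c : k[X]) := by
  set f : k[X] := X ^ p - X - C c with hf
  have hdeg : f.natDegree = p := natDegree_AS hp.out c
  have hmon : f.Monic := monic_AS hp.out c
  have hnu : ¬ IsUnit f := by
    intro hu
    have := natDegree_eq_zero_of_isUnit hu
    rw [hdeg] at this
    exact hp.out.ne_zero this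
  obtain ⟨g, hgm, hgi, hgf⟩ := Polynomial.exists_monic_irreducible_factor f hnu
  have hgd : g.natDegree ≤ p := hdeg ▸ natDegree_le_of_dvd hgf hmon.ne_zero
  rcases eq_or_lt_of_le hgd with hd | hd
  · have : f = g := by
      symm
      apply eq_of_monic_of_associated hgm hmon
      obtain ⟨q, hq⟩ := hgf
      have hq0 : q ≠ 0 := by rintro rfl; rw [mul_zero] at hq; exact hmon.ne_zero hq
      have h1 : q.natDegree = 0 := by
        have h2 := congrArg natDegree hq
        rw [natDegree_mul hgm.ne_zero hq0, hdeg, hd] at h2
        omega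
      obtain ⟨r, hr⟩ := natDegree_eq_zero.mp h1
      have hr0 : r ≠ 0 := by rintro rfl; rw [map_zero] at hr; exact hq0 hr.symm
      rw [hq, ← hr]
      exact associated_mul_unit_right g _ (isUnit_C.mpr (isUnit_iff_ne_zero.mpr hr0))
    rw [this]
    exact hgi
  · exfalso
    have hfact : Fact (Irreducible g) := ⟨hgi⟩
    let L := AlgebraicClosure k
    have : CharP L p := charP_of_injective_algebraMap (algebraMap k L).injective p
    have hsp : (g.map (algebraMap k L)).Splits := IsAlgClosed.splits _
    obtain ⟨r, hr⟩ := IsAlgClosed.exists_aeval_eq_zero L g (by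
      rw [degree_eq_natDegree hgm.ne_zero]
      exact_mod_cast hgi.natDegree_pos.ne')
    have hroot : ∀ x : L, aeval x g = 0 → x ^ p - x = algebraMap k L c := by
      intro x hx
      have h1 := aeval_eq_zero_of_dvd_aeval_eq_zero hgf hx
      rw [hf, map_sub, map_sub, map_pow, aeval_X, aeval_C] at h1
      exact sub_eq_zero.mp h1
    have hrr := hroot r hr
    have key : ∀ s : Multiset L, (∀ x ∈ s, aeval x g = 0) →
        ∃ e : k, s.sum = (Multiset.card s) • r + algebraMap k L e := by
      intro s
      induction s using Multiset.induction_on with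
      | empty => intro _; exact ⟨0, by simp⟩
      | cons x s ih =>
        intro hs
        obtain ⟨e, he⟩ := ih fun y hy => hs y (Multiset.mem_cons_of_mem hy)
        have hx := hroot x (hs x (Multiset.mem_cons_self x s))
        obtain ⟨i, hi⟩ := exists_zmod (p := p) (x := x - r) (by
          rw [sub_pow_char]
          linear_combination hx - hrr)
        refine ⟨ZMod.castHom (dvd_refl p) k i + e, ?_⟩
        rw [Multiset.sum_cons, he, Multiset.card_cons, map_add]
        have h2 : algebraMap k L (ZMod.castHom (dvd_refl p) k i) =
            ZMod.castHom (dvd_refl p) L i := by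
          have := RingHom.congr_fun (Subsingleton.elim
            ((algebraMap k L).comp (ZMod.castHom (dvd_refl p) k)) (ZMod.castHom (dvd_refl p) L)) i
          simpa using this
        rw [h2, hi, succ_nsmul]
        ring
    obtain ⟨e, he⟩ := key (g.map (algebraMap k L)).roots (by
      intro x hx
      have := isRoot_of_mem_roots hx
      rwa [IsRoot.def, eval_map_algebraMap] at this)
    have hcard : Multiset.card (g.map (algebraMap k L)).roots = g.natDegree := by
      rw [← hsp.natDegree_eq_card_roots, natDegree_map]
    have hsum : (g.map (algebraMap k L)).roots.sum = algebraMap k L (-g.nextCoeff) := by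
      have h1 := hsp.nextCoeff_eq_neg_sum_roots_of_monic (hgm.map _)
      rw [nextCoeff_map (algebraMap k L).injective] at h1
      rw [map_neg, h1, neg_neg]
    rw [hsum, hcard] at he
    have hd0 : (g.natDegree : k) ≠ 0 := by
      intro h0
      rw [CharP.cast_eq_zero_iff k p] at h0
      exact absurd (Nat.le_of_dvd hgi.natDegree_pos h0) (not_le.mpr hd)
    have hrk : r = algebraMap k L ((-g.nextCoeff - e) / g.natDegree) := by
      have hd0' : (g.natDegree : L) ≠ 0 := by
        intro h0
        apply hd0
        apply (algebraMap k L).injective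
        rw [map_natCast, h0, map_zero]
      rw [map_div₀, map_sub, he, map_natCast, nsmul_eq_mul, add_sub_cancel_right,
        mul_div_cancel_left₀ _ hd0']
    apply h ((-g.nextCoeff - e) / g.natDegree)
    apply (algebraMap k L).injective
    rw [map_sub, map_pow, ← hrk, hrr]

end Vale.Agent.P011.ArP
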