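import Vale.Agent.P011.ArP.LocU1

/-!
Orthogonality of the powers of an element with irreducible reduction, and the values of the norm
form of an unramified extension.
-/

open NumberField IsDedekindDomain Polynomial

namespace Vale.Agent.P011.ArP

open Vale.Agent.P011.Arith (Z0 exists_residue finite_residue mk_eq_zero_iff val_lt_one_iff
  val_le_one_iff exists_above val_eq_one_iff val_lt_val_iff)

section eval

variable {R E : Type} [CommRing R] [Field E] {w : Valuation E Z0} {ι : R →+* E} {ω : E}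

theorem val_eval₂_le (hω : w ω ≤ 1) (P : R[X]) (h : ∀ i, w (ι (P.coeff i)) ≤ 1) :
    w (P.eval₂ ι ω) ≤ 1 := by
  rw [eval₂_eq_sum_range]
  refine w.map_sum_le fun i _ => ?_
  rw [map_mul, map_pow]
  exact mul_le_one' (h i) (pow_le_one' hω i)

theorem val_eval₂_lt (hω : w ω ≤ 1) (P : R[X]) (h : ∀ i, w (ι (P.coeff i)) < 1) :
    w (P.eval₂ ι ω) < 1 := by
  rw [eval₂_eq_sum_range]
  refine w.map_sum_lt one_ne_zero fun i _ => ?_
  rw [map_mul, map_pow]
  calc _ ≤ w (ι (P.coeff i)) * 1 := mul_le_mul_right (pow_le_one' hω i) _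
    _ < 1 := by rw [mul_one]; exact h i

end eval

variable {F E : Type} [Field F] [NumberField F] [Field E] [NumberField E] [Algebra F E]

/-- A polynomial with coefficients integral at a place is congruent to one with coefficients
algebraic integers. -/
theorem exists_polyres (v : HeightOneSpectrum (𝓞 F)) (P : F[X])
    (hP : ∀ i, v.valuation F (P.coeff i) ≤ 1) :
    ∃ Q : (𝓞 F)[X], Q.natDegree ≤ P.natDegree ∧
      ∀ i, v.valuation F (algebraMap (𝓞 F) F (Q.coeff i) - P.coeff i) < 1 := by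
  choose r hr using fun i => exists_residue v (hP i)
  refine ⟨∑ i ∈ Finset.range (P.natDegree + 1), monomial i (r i), ?_, fun i => ?_⟩
  · refine natDegree_sum_le_of_forall_le _ _ fun i hi => ?_
    exact (natDegree_monomial_le _).trans (Nat.lt_succ_iff.mp (Finset.mem_range.mp hi))
  · rw [finsetSum_coeff]
    simp only [coeff_monomial]
    rw [Finset.sum_ite_eq' (Finset.range (P.natDegree + 1)) i]
    split_ifs with hi
    · exact hr i
    · rw [Finset.mem_range, Nat.lt_succ_iff, not_le] at hi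
      rw [coeff_eq_zero_of_natDegree_lt hi, map_zero, sub_zero, map_zero]
      exact zero_lt_one

/-- The powers of an integral element whose reduction generates an extension of the full degree
are orthogonal. -/
theorem orth {v : HeightOneSpectrum (𝓞 F)} {w : HeightOneSpectrum (𝓞 E)}
    (hw : w.asIdeal.comap (algebraMap (𝓞 F) (𝓞 E)) = v.asIdeal) {ω : E}
    (hω : w.valuation E ω ≤ 1) {G : (𝓞 F)[X]}
    (hG : Irreducible (G.map (Ideal.Quotient.mk v.asIdeal)))
    (hGω : w.valuation E (G.eval₂ ((algebraMap F E).comp (algebraMap (𝓞 F) F)) ω) < 1)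
    {P : F[X]} (hP : ∀ i, v.valuation F (P.coeff i) ≤ 1) {j : ℕ}
    (hj : v.valuation F (P.coeff j) = 1)
    (hdeg : P.natDegree < (G.map (Ideal.Quotient.mk v.asIdeal)).natDegree) :
    w.valuation E (aeval ω P) = 1 := by
  have : v.asIdeal.IsMaximal := v.isMaximal
  let _ : Field (𝓞 F ⧸ v.asIdeal) := Ideal.Quotient.field v.asIdeal
  set ι : 𝓞 F →+* E := (algebraMap F E).comp (algebraMap (𝓞 F) F) with hι
  have hιle : ∀ r : 𝓞 F, w.valuation E (ι r) ≤ 1 := fun r =>
    (val_le_one_iff hw _).mpr (v.valuation_le_one r)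
  have hιlt : ∀ r : 𝓞 F, Ideal.Quotient.mk v.asIdeal r = 0 → w.valuation E (ι r) < 1 := fun r hr =>
    (val_lt_one_iff hw _).mpr ((mk_eq_zero_iff v r).mp hr)
  obtain ⟨Q, hQd, hQ⟩ := exists_polyres v P hP
  have hQj : Ideal.Quotient.mk v.asIdeal (Q.coeff j) ≠ 0 := residue_ne_zero hj (hQ j)
  have hQ0 : Q.map (Ideal.Quotient.mk v.asIdeal) ≠ 0 := by
    intro h
    apply hQj
    rw [← coeff_map, h, coeff_zero]
  have hcop : IsCoprime (G.map (Ideal.Quotient.mk v.asIdeal))
      (Q.map (Ideal.Quotient.mk v.asIdeal)) := by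
    rw [hG.coprime_iff_not_dvd]
    intro h
    have h1 := natDegree_le_of_dvd h hQ0
    have h2 : (Q.map (Ideal.Quotient.mk v.asIdeal)).natDegree ≤ Q.natDegree := natDegree_map_le
    omega
  obtain ⟨a, b, hab⟩ := hcop
  obtain ⟨A, rfl⟩ := map_surjective _ Ideal.Quotient.mk_surjective a
  obtain ⟨B, rfl⟩ := map_surjective _ Ideal.Quotient.mk_surjective b
  set R : (𝓞 F)[X] := A * G + B * Q - 1 with hR
  have hRc : ∀ i, Ideal.Quotient.mk v.asIdeal (R.coeff i) = 0 := by
    intro i
    rw [← coeff_map, hR, Polynomial.map_sub, Polynomial.map_add, Polynomial.map_mul,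
      Polynomial.map_mul, Polynomial.map_one, hab, sub_self, coeff_zero]
  have hRω : w.valuation E (R.eval₂ ι ω) < 1 := val_eval₂_lt hω R fun i => hιlt _ (hRc i)
  have hAω : w.valuation E (A.eval₂ ι ω) ≤ 1 := val_eval₂_le hω A fun i => hιle _
  have hBω : w.valuation E (B.eval₂ ι ω) ≤ 1 := val_eval₂_le hω B fun i => hιle _
  have hQω : w.valuation E (Q.eval₂ ι ω) ≤ 1 := val_eval₂_le hω Q fun i => hιle _
  have h1 : w.valuation E (B.eval₂ ι ω * Q.eval₂ ι ω) = 1 := by
    have e : B.eval₂ ι ω * Q.eval₂ ι ω = 1 + (R.eval₂ ι ω - A.eval₂ ι ω * G.eval₂ ι ω) := by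
      rw [hR, eval₂_sub, eval₂_add, eval₂_mul, eval₂_mul, eval₂_one]; ring
    rw [e]
    apply (w.valuation E).map_one_add_of_lt
    refine (w.valuation E).map_sub_lt hRω ?_
    rw [map_mul]
    calc _ ≤ 1 * w.valuation E (G.eval₂ ι ω) := mul_le_mul_left hAω _
      _ < 1 := by rw [one_mul]; exact hGω
  have h2 : w.valuation E (Q.eval₂ ι ω) = 1 := by
    refine le_antisymm hQω ?_
    rw [← h1, map_mul]
    calc _ ≤ 1 * w.valuation E (Q.eval₂ ι ω) := mul_le_mul_left hBω _
      _ = _ := one_mul _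
  have h3 : w.valuation E ((Q.map (algebraMap (𝓞 F) F) - P).eval₂ (algebraMap F E) ω) < 1 := by
    refine val_eval₂_lt hω _ fun i => ?_
    rw [coeff_sub, coeff_map]
    exact (val_lt_one_iff hw _).mpr (hQ i)
  rw [eval₂_sub, eval₂_map, ← hι] at h3
  have e : aeval ω P = Q.eval₂ ι ω + -(Q.eval₂ ι ω - P.eval₂ (algebraMap F E) ω) := by
    rw [aeval_def]; ring
  rw [e, Valuation.map_add_eq_of_lt_left, h2]
  rwa [Valuation.map_neg, h2]

omit [NumberField F] in
/-- The scaling of a nonzero polynomial. -/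
theorem exists_scale (v : Valuation F Z0) {P : F[X]} (hP : P ≠ 0) : ∃ c : F, c ≠ 0 ∧
    (∃ j, v ((C c⁻¹ * P).coeff j) = 1) ∧ (∀ i, v ((C c⁻¹ * P).coeff i) ≤ 1) := by
  obtain ⟨j, hj, hmax⟩ := P.support.exists_max_image (fun i => v (P.coeff i))
    (nonempty_support_iff.mpr hP)
  have hc : P.coeff j ≠ 0 := mem_support_iff.mp hj
  refine ⟨P.coeff j, hc, ⟨j, ?_⟩, fun i => ?_⟩
  · rw [coeff_C_mul, inv_mul_cancel₀ hc, map_one]
  · rw [coeff_C_mul, map_mul, map_inv₀]
    by_cases hi : i ∈ P.support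
    · have h1 : v (P.coeff j) ≠ 0 := (Valuation.ne_zero_iff v).mpr hc
      calc (v (P.coeff j))⁻¹ * v (P.coeff i) ≤ (v (P.coeff j))⁻¹ * v (P.coeff j) :=
            mul_le_mul_right (hmax i hi) _
        _ = 1 := inv_mul_cancel₀ h1
    · rw [notMem_support_iff.mp hi, map_zero, mul_zero]
      exact zero_le

variable {p : ℕ} {M : Mu p F}

/-- The values of the norm form of an unramified extension. -/
theorem ord_of_orth {v : HeightOneSpectrum (𝓞 F)} {w : HeightOneSpectrum (𝓞 E)}
    (hw : w.asIdeal.comap (algebraMap (𝓞 F) (𝓞 E)) = v.asIdeal) {ε : Fˣ} {θ : E}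
    (hθ : θ ^ p = algebraMap F E ε) {s t : F} (ht : t ≠ 0) {G : (𝓞 F)[X]}
    (hG : Irreducible (G.map (Ideal.Quotient.mk v.asIdeal)))
    (hGd : (G.map (Ideal.Quotient.mk v.asIdeal)).natDegree = p)
    (hx : ∀ x : E, x ^ p = algebraMap F E ε →
      w.valuation E ((x - algebraMap F E s) / algebraMap F E t) ≤ 1 ∧
      w.valuation E (G.eval₂ ((algebraMap F E).comp (algebraMap (𝓞 F) F))
        ((x - algebraMap F E s) / algebraMap F E t)) < 1)
    {b : Fˣ} (hb : b ∈ NF M ε) : ∃ c : F, v.valuation F (b : F) = v.valuation F c ^ p := by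
  obtain ⟨h, hh⟩ := hb
  have hmon : (X ^ p - C (ε : F) : F[X]).Monic := monic_X_pow_sub_C _ M.prime.ne_zero
  have hnd : (X ^ p - C (ε : F) : F[X]).natDegree = p := natDegree_X_pow_sub_C
  set h₁ : F[X] := h %ₘ (X ^ p - C (ε : F)) with hh₁
  have hroot : ∀ x : E, x ^ p = algebraMap F E ε → aeval x h = aeval x h₁ := by
    intro x hx
    rw [hh₁, aeval_modByMonic_eq_self_of_root]
    rw [map_sub, map_pow, aeval_X, aeval_C, hx, sub_self]
  have hζ : ∀ i, (algebraMap F E (M.ζ ^ i) * θ) ^ p = algebraMap F E ε := by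
    intro i
    rw [mul_pow, hθ, ← map_pow, ← pow_mul, mul_comm i p, pow_mul, M.zeta_pow, one_pow, map_one,
      one_mul]
  have hprod : algebraMap F E b =
      ∏ i ∈ Finset.range p, aeval (algebraMap F E (M.ζ ^ i) * θ) h₁ := by
    rw [hh, M.aeval_nf h hθ]
    exact Finset.prod_congr rfl fun i _ => hroot _ (hζ i)
  have hh0 : h₁ ≠ 0 := by
    intro h0
    rw [h0] at hprod
    simp only [map_zero] at hprod
    rw [Finset.prod_const, Finset.card_range, zero_pow M.prime.ne_zero] at hprod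
    exact b.ne_zero ((map_eq_zero _).mp hprod)
  set L : F[X] := C t * X + C s with hL
  have hLd : L.natDegree = 1 := natDegree_linear ht
  set P : F[X] := h₁.comp L with hP
  have hP0 : P ≠ 0 := by
    intro h0
    rw [hP, comp_eq_zero_iff] at h0
    rcases h0 with h0 | ⟨_, h0⟩
    · exact hh0 h0
    · rw [h0, natDegree_C] at hLd
      exact zero_ne_one hLd
  have hPd : P.natDegree < p := by
    rw [hP, natDegree_comp, hLd, mul_one]
    have h1 : h₁.degree < (X ^ p - C (ε : F) : F[X]).degree := degree_modByMonic_lt _ hmon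
    have h2 := natDegree_lt_natDegree hh0 h1
    rwa [hnd] at h2
  obtain ⟨c, hc0, ⟨j, hj⟩, hi⟩ := exists_scale (v.valuation F) hP0
  refine ⟨c, ?_⟩
  have ht' : algebraMap F E t ≠ 0 := (_root_.map_ne_zero _).mpr ht
  have hval : ∀ x : E, x ^ p = algebraMap F E ε →
      w.valuation E (aeval x h₁) = w.valuation E (algebraMap F E c) := by
    intro x hx'
    obtain ⟨h1, h2⟩ := hx x hx'
    have h3 := orth hw h1 hG h2 (P := C c⁻¹ * P) hi hj (by
      rw [hGd, natDegree_C_mul (inv_ne_zero hc0)]; exact hPd)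
    have h4 : aeval ((x - algebraMap F E s) / algebraMap F E t) L = x := by
      rw [hL, map_add, map_mul, aeval_C, aeval_X, aeval_C, mul_div_cancel₀ _ ht', sub_add_cancel]
    rw [map_mul, aeval_C, hP, aeval_comp, h4, map_mul, map_inv₀, map_inv₀] at h3
    have h5 : w.valuation E (algebraMap F E c) ≠ 0 :=
      (Valuation.ne_zero_iff _).mpr ((_root_.map_ne_zero _).mpr hc0)
    calc _ = w.valuation E (algebraMap F E c) * ((w.valuation E (algebraMap F E c))⁻¹ *
          w.valuation E (aeval x h₁)) := by rw [← mul_assoc, mul_inv_cancel₀ h5, one_mul]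
      _ = _ := by rw [h3, mul_one]
  have h6 : w.valuation E (algebraMap F E b) = w.valuation E (algebraMap F E (c ^ p)) := by
    rw [hprod, map_prod, Finset.prod_congr rfl fun i _ => hval _ (hζ i), Finset.prod_const,
      Finset.card_range, map_pow, map_pow]
  rw [← map_pow]
  refine le_antisymm (not_lt.mp fun h7 => ?_) (not_lt.mp fun h7 => ?_)
  · exact ((val_lt_val_iff hw _ _).mpr h7).ne' h6
  · exact ((val_lt_val_iff hw _ _).mpr h7).ne h6

end Vale.Agent.P011.ArP
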