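import Vale.Agent.P011.ArP.LocU2

/-!
The nontrivial unramified class at a place, and a non-norm for every class that is not a local
`p`-th power.
-/

open NumberField IsDedekindDomain Polynomial

namespace Vale.Agent.P011.ArP

open Vale.Agent.P011.Arith (Z0 exists_residue finite_residue mk_eq_zero_iff val_lt_one_iff
  val_le_one_iff exists_above val_eq_one_iff val_lt_val_iff)

section field

variable {p : ℕ} {F : Type} [Field F] (M : Mu p F) {w : Valuation F Z0}

theorem prod_congr_lt {s : Finset ℕ} {f g : ℕ → F} (hf : ∀ i ∈ s, w (f i) ≤ 1)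
    (hg : ∀ i ∈ s, w (g i) ≤ 1) (h : ∀ i ∈ s, w (f i - g i) < 1) :
    w (∏ i ∈ s, f i - ∏ i ∈ s, g i) < 1 := by
  classical
  induction s using Finset.induction_on with
  | empty => simp
  | insert a s ha ih =>
    rw [Finset.prod_insert ha, Finset.prod_insert ha]
    have h1 := ih (fun i hi => hf i (Finset.mem_insert_of_mem hi))
      (fun i hi => hg i (Finset.mem_insert_of_mem hi))
      (fun i hi => h i (Finset.mem_insert_of_mem hi))
    have e : f a * ∏ i ∈ s, f i - g a * ∏ i ∈ s, g i =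
        (f a - g a) * ∏ i ∈ s, f i + g a * (∏ i ∈ s, f i - ∏ i ∈ s, g i) := by ring
    rw [e]
    refine w.map_add_lt ?_ ?_
    · rw [map_mul]
      have h2 : w (∏ i ∈ s, f i) ≤ 1 := by
        rw [map_prod]
        exact Finset.prod_le_one' fun i hi => hf i (Finset.mem_insert_of_mem hi)
      calc _ ≤ w (f a - g a) * 1 := mul_le_mul_right h2 _
        _ < 1 := by rw [mul_one]; exact h a (Finset.mem_insert_self a s)
    · rw [map_mul]
      calc _ ≤ 1 * w (∏ i ∈ s, f i - ∏ i ∈ s, g i) :=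
            mul_le_mul_left (hg a (Finset.mem_insert_self a s)) _
        _ < 1 := by rw [one_mul]; exact h1

/-- Wilson's congruence: `p / l ^ (p - 1)` is `-1` modulo `l`. -/
theorem Mu.wilson (hl : w M.l < 1) : w ((p : F) + M.l ^ (p - 1)) < w M.l ^ (p - 1) := by
  have hp1 : p - 1 + 1 = p := Nat.sub_add_cancel M.prime.one_le
  have hprim : IsPrimitiveRoot M.ζ (p - 1 + 1) := by rw [hp1]; exact M.prim
  have h1 := hprim.prod_one_sub_pow_eq_order
  have h2 : ((p - 1 : ℕ) : F) + 1 = (p : F) := by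
    rw [← Nat.cast_add_one, hp1]
  rw [h2] at h1
  have h3 : (p : F) = M.l ^ (p - 1) * ∏ k ∈ Finset.range (p - 1),
      (∑ j ∈ Finset.range (k + 1), M.ζ ^ j) := by
    rw [← h1, ← Finset.card_range (p - 1), ← Finset.prod_const, Finset.card_range,
      ← Finset.prod_mul_distrib]
    refine Finset.prod_congr rfl fun k _ => ?_
    rw [Mu.l, mul_neg_geom_sum]
  have h4 : w (∏ k ∈ Finset.range (p - 1), (∑ j ∈ Finset.range (k + 1), M.ζ ^ j) -
      ∏ k ∈ Finset.range (p - 1), ((k + 1 : ℕ) : F)) < 1 := by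
    refine prod_congr_lt (fun k _ => ?_) (fun k _ => val_nat_le w _) (fun k _ => ?_)
    · refine w.map_sum_le fun j _ => ?_
      rw [map_pow, M.val_zeta, one_pow]
    · have e : (∑ j ∈ Finset.range (k + 1), M.ζ ^ j) - ((k + 1 : ℕ) : F) =
          ∑ j ∈ Finset.range (k + 1), (M.ζ ^ j - 1) := by
        rw [Finset.sum_sub_distrib, Finset.sum_const, Finset.card_range, nsmul_eq_mul, mul_one]
      rw [e]
      refine w.map_sum_lt one_ne_zero fun j _ => ?_
      rw [← neg_sub, Valuation.map_neg]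
      exact lt_of_le_of_lt (val_one_sub_pow_le w (M.val_zeta w).le j) hl
  have h5 : ∏ k ∈ Finset.range (p - 1), ((k + 1 : ℕ) : F) = (((p - 1).factorial : ℕ) : F) := by
    rw [← Nat.cast_prod, Finset.prod_range_add_one_eq_factorial]
  have : Fact p.Prime := ⟨M.prime⟩
  have h6 : ∃ q : ℕ, (p - 1).factorial + 1 = p * q := by
    have h7 := ZMod.wilsons_lemma p
    have h8 : (((p - 1).factorial + 1 : ℕ) : ZMod p) = 0 := by
      push_cast
      rw [h7]; ring
    exact (ZMod.natCast_eq_zero_iff _ _).mp h8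
  obtain ⟨q, hq⟩ := h6
  have hwp : w (p : F) < 1 := by
    rw [M.val_p]
    exact pow_lt_one' hl (by have := M.prime.two_le; omega)
  have h9 : w (∏ k ∈ Finset.range (p - 1), (∑ j ∈ Finset.range (k + 1), M.ζ ^ j) + 1) < 1 := by
    have e : ∏ k ∈ Finset.range (p - 1), (∑ j ∈ Finset.range (k + 1), M.ζ ^ j) + 1 =
        (∏ k ∈ Finset.range (p - 1), (∑ j ∈ Finset.range (k + 1), M.ζ ^ j) -
          ∏ k ∈ Finset.range (p - 1), ((k + 1 : ℕ) : F)) + (p : F) * q := by
      rw [h5]
      have : (((p - 1).factorial : ℕ) : F) + 1 = p * q := by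
        have h10 := congrArg (Nat.cast : ℕ → F) hq
        push_cast at h10
        exact h10
      linear_combination this
    rw [e]
    refine w.map_add_lt h4 ?_
    rw [map_mul]
    calc _ ≤ w (p : F) * 1 := mul_le_mul_right (val_nat_le w q) _
      _ < 1 := by rwa [mul_one]
  have e : (p : F) + M.l ^ (p - 1) = M.l ^ (p - 1) *
      (∏ k ∈ Finset.range (p - 1), (∑ j ∈ Finset.range (k + 1), M.ζ ^ j) + 1) := by
    rw [mul_add, ← h3, mul_one]
  rw [e, map_mul, map_pow]
  have h10 : 0 < w M.l ^ (p - 1) :=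
    pow_pos (zero_lt_iff.mpr ((Valuation.ne_zero_iff w).mpr M.l_ne_zero)) _
  exact mul_lt_of_lt_one_right h10 h9

include M in
/-- The binomial expansion modulo the square, keeping the last term. -/
theorem exists_binom (s : F) (hs : w s ≤ 1) : ∃ r : F, w r ≤ w s ∧
    (1 + s) ^ p = 1 + s ^ p + p * s * (1 + r) := by
  have h01 : (1 : ℕ) ∈ Finset.Ioo 0 p := Finset.mem_Ioo.mpr ⟨one_pos, M.prime.one_lt⟩
  refine ⟨∑ k ∈ (Finset.Ioo 0 p).erase 1,
        s ^ (k - 1) * 1 ^ (p - k - 1) * ((p.choose k / p : ℕ) : F), ?_, ?_⟩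
  · refine w.map_sum_le fun k hk => ?_
    rw [Finset.mem_erase, Finset.mem_Ioo] at hk
    obtain ⟨j, hj⟩ : ∃ j, k - 1 = j + 1 := ⟨k - 2, by omega⟩
    rw [one_pow, mul_one, map_mul, map_pow, hj, pow_succ]
    calc w s ^ j * w s * w _ ≤ w s ^ j * w s * 1 := mul_le_mul_right (val_nat_le w _) _
      _ ≤ 1 * w s * 1 := by
        rw [mul_one, mul_one]
        exact mul_le_mul_left (pow_le_one' hs j) _
      _ = w s := by rw [one_mul, mul_one]
  · rw [add_comm 1 s, add_pow_prime_eq M.prime, ← Finset.add_sum_erase _ _ h01,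
      Nat.choose_one_right, Nat.div_self M.prime.pos, Nat.cast_one, one_pow, Nat.sub_self,
      pow_zero]
    ring

/-- The `p`-th power of `1 + l ω` for `ω` integral. -/
theorem Mu.as_congr (hl : w M.l < 1) {ω : F} (hω : w ω ≤ 1) :
    w ((1 + M.l * ω) ^ p - 1 - M.l ^ p * (ω ^ p - ω)) < w (M.l ^ p) := by
  have hs : w (M.l * ω) ≤ w M.l := by
    rw [map_mul]
    calc _ ≤ w M.l * 1 := mul_le_mul_right hω _
      _ = _ := mul_one _
  obtain ⟨r, hr, hr2⟩ := exists_binom M (w := w) (M.l * ω) (hs.trans (M.val_l_le w))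
  have hl0 : w M.l ≠ 0 := (Valuation.ne_zero_iff w).mpr M.l_ne_zero
  have hlp : w (M.l ^ p) = w M.l ^ (p - 1) * w M.l := by
    rw [map_pow, ← pow_succ, Nat.sub_add_cancel M.prime.one_le]
  have e1 : M.l ^ p = M.l ^ (p - 1) * M.l := by
    rw [← pow_succ, Nat.sub_add_cancel M.prime.one_le]
  have e : (1 + M.l * ω) ^ p - 1 - M.l ^ p * (ω ^ p - ω) =
      ((p : F) + M.l ^ (p - 1)) * (M.l * ω) + (p : F) * (M.l * ω) * r := by
    rw [hr2, mul_pow, e1]
    ring
  rw [e, hlp]
  refine w.map_add_lt ?_ ?_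
  · rw [map_mul]
    calc _ ≤ w ((p : F) + M.l ^ (p - 1)) * w M.l := mul_le_mul_right hs _
      _ < w M.l ^ (p - 1) * w M.l := mul_lt_mul_of_pos_right (M.wilson hl) (zero_lt_iff.mpr hl0)
  · rw [map_mul, map_mul, M.val_p]
    have h1 : w r < 1 := lt_of_le_of_lt (hr.trans hs) hl
    have h2 : 0 < w M.l ^ (p - 1) * w M.l := mul_pos (pow_pos (zero_lt_iff.mpr hl0) _)
      (zero_lt_iff.mpr hl0)
    calc w M.l ^ (p - 1) * w (M.l * ω) * w r ≤ w M.l ^ (p - 1) * w M.l * w r :=
          mul_le_mul_left (mul_le_mul_right hs _) _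
      _ < w M.l ^ (p - 1) * w M.l := mul_lt_of_lt_one_right h2 h1

/-- An element whose `p`-th power is `1` modulo `l ^ p` is `1` modulo `l`. -/
theorem Mu.as_integral {ω : F}
    (h : w ((1 + M.l * ω) ^ p - 1) ≤ w (M.l ^ p)) : w ω ≤ 1 := by
  by_contra hω
  rw [not_le] at hω
  have hl0 : w M.l ≠ 0 := (Valuation.ne_zero_iff w).mpr M.l_ne_zero
  have h1 : w (∑ k ∈ Finset.Ioo 0 p, (M.l * ω) ^ k * 1 ^ (p - k) * ((p.choose k : ℕ) : F)) <
      w ((M.l * ω) ^ p) := by
    refine w.map_sum_lt ((Valuation.ne_zero_iff w).mpr (pow_ne_zero _ (mul_ne_zero M.l_ne_zero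
      ((Valuation.ne_zero_iff w).mp (ne_of_gt (lt_trans zero_lt_one hω)))))) fun k hk => ?_
    rw [Finset.mem_Ioo] at hk
    have h2 : w ((p.choose k : ℕ) : F) ≤ w M.l ^ (p - 1) := by
      obtain ⟨q, hq⟩ := M.prime.dvd_choose_self hk.1.ne' hk.2
      rw [hq, Nat.cast_mul, map_mul, M.val_p]
      calc _ ≤ w M.l ^ (p - 1) * 1 := mul_le_mul_right (val_nat_le w q) _
        _ = _ := mul_one _
    rw [one_pow, mul_one, map_mul, map_pow, map_pow, map_mul, mul_pow, mul_pow]
    calc w M.l ^ k * w ω ^ k * w ((p.choose k : ℕ) : F) ≤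
          w M.l ^ k * w ω ^ k * w M.l ^ (p - 1) := mul_le_mul_right h2 _
      _ = w M.l ^ (k + (p - 1)) * w ω ^ k := by rw [pow_add, mul_right_comm]
      _ ≤ w M.l ^ p * w ω ^ k := by
          refine mul_le_mul_left ?_ _
          exact pow_le_pow_right_of_le_one' (M.val_l_le w) (by omega)
      _ < w M.l ^ p * w ω ^ p := by
          refine mul_lt_mul_of_pos_left ?_ (pow_pos (zero_lt_iff.mpr hl0) _)
          exact pow_lt_pow_right₀ hω hk.2
  have e : (1 + M.l * ω) ^ p - 1 = (M.l * ω) ^ p +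
      ∑ k ∈ Finset.Ioo 0 p, (M.l * ω) ^ k * 1 ^ (p - k) * ((p.choose k : ℕ) : F) := by
    rw [add_comm 1, add_pow, Finset.sum_range_succ, Nat.choose_self, Nat.cast_one]
    obtain ⟨q, hq⟩ : ∃ q, p = q + 1 := ⟨p - 1, (Nat.sub_add_cancel M.prime.one_le).symm⟩
    have h3 : ∑ x ∈ Finset.range p, (M.l * ω) ^ x * 1 ^ (p - x) * ((p.choose x : ℕ) : F) =
        1 + ∑ k ∈ Finset.Ioo 0 p, (M.l * ω) ^ k * 1 ^ (p - k) * ((p.choose k : ℕ) : F) := by
      rw [Finset.range_eq_Ico, ← Finset.sum_Ioo_add_eq_sum_Ico M.prime.pos]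
      simp [add_comm]
    rw [h3]
    simp
    ring
  rw [e, Valuation.map_add_eq_of_lt_left _ h1, map_pow, map_mul, mul_pow, map_pow] at h
  have h4 : w M.l ^ p * 1 < w M.l ^ p * w ω ^ p :=
    mul_lt_mul_of_pos_left (one_lt_pow₀ hω M.prime.ne_zero) (pow_pos (zero_lt_iff.mpr hl0) _)
  rw [mul_one] at h4
  exact absurd h4 (not_lt.mpr h)

end field

variable {p : ℕ} {F : Type} [Field F] [NumberField F]

/-- Kummer extensions exist. -/
theorem exists_kum_field (hp : p.Prime) (a : Fˣ) (ha : a ∉ Pw p F) :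
    ∃ (E : Type) (_ : Field E) (_ : NumberField E) (_ : Algebra F E), Module.finrank F E = p ∧
      ∃ θ : E, θ ^ p = algebraMap F E a := by
  have hirr : Irreducible (Polynomial.X ^ p - Polynomial.C (a : F)) :=
    X_pow_sub_C_irreducible_of_prime hp (not_pow_of_notMem ha hp.ne_zero)
  have := Fact.mk hirr
  have hfr : Module.finrank F (AdjoinRoot (Polynomial.X ^ p - Polynomial.C (a : F))) = p := by
    rw [(AdjoinRoot.powerBasis hirr.ne_zero).finrank, AdjoinRoot.powerBasis_dim]
    exact Polynomial.natDegree_X_pow_sub_C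
  have hfd : FiniteDimensional F (AdjoinRoot (Polynomial.X ^ p - Polynomial.C (a : F))) :=
    Module.finite_of_finrank_pos (by rw [hfr]; exact hp.pos)
  have hch : CharZero (AdjoinRoot (Polynomial.X ^ p - Polynomial.C (a : F))) :=
    charZero_of_injective_algebraMap
      (algebraMap F (AdjoinRoot (Polynomial.X ^ p - Polynomial.C (a : F)))).injective
  have hfq : FiniteDimensional ℚ (AdjoinRoot (Polynomial.X ^ p - Polynomial.C (a : F))) :=
    Module.Finite.trans F _
  refine ⟨AdjoinRoot (Polynomial.X ^ p - Polynomial.C (a : F)), inferInstance,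
    ({ to_charZero := hch, to_finiteDimensional := hfq } : NumberField _), inferInstance, hfr,
    AdjoinRoot.root _, ?_⟩
  have h := AdjoinRoot.eval₂_root (Polynomial.X ^ p - Polynomial.C (a : F))
  rw [Polynomial.eval₂_sub, Polynomial.eval₂_pow, Polynomial.eval₂_X, Polynomial.eval₂_C,
    sub_eq_zero] at h
  exact h

variable {M : Mu p F}

/-- Local `p`-th powers have values divisible by `p`. -/
theorem Unr.ord_aux {v : HeightOneSpectrum (𝓞 F)} {ε b : Fˣ} (h : Unr M (v.valuation F) ε)
    (hb : b ∈ NF M ε) : ∃ c : F, v.valuation F (b : F) = v.valuation F c ^ p := by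
  have hεP : ε ∉ Pw p F := fun h1 => h.notMem (Pw_le_LS h1)
  obtain ⟨E, _, _, _, hE, θ, hθ⟩ := exists_kum_field M.prime ε hεP
  obtain ⟨w, hw⟩ := exists_above (E := E) v
  have : v.asIdeal.IsMaximal := v.isMaximal
  have : Finite (𝓞 F ⧸ v.asIdeal) := finite_residue v
  let _ : Field (𝓞 F ⧸ v.asIdeal) := Ideal.Quotient.field v.asIdeal
  have hple : v.valuation F (p : F) ≤ 1 := val_nat_le _ p
  rcases eq_or_lt_of_le hple with hp | hp
  · -- the places prime to `p`
    obtain ⟨a0, ha0⟩ := exists_residue v h.unit.le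
    have hmap : (X ^ p - C a0 : (𝓞 F)[X]).map (Ideal.Quotient.mk v.asIdeal) =
        X ^ p - C (Ideal.Quotient.mk v.asIdeal a0) := by
      rw [Polynomial.map_sub, Polynomial.map_pow, map_X, map_C]
    refine ord_of_orth hw hθ (s := 0) (t := 1) one_ne_zero (G := X ^ p - C a0) ?_ ?_ ?_ hb
    · rw [hmap]
      refine X_pow_sub_C_irreducible_of_prime M.prime fun c hc => ?_
      obtain ⟨s, rfl⟩ := Ideal.Quotient.mk_surjective c
      apply h.notMem
      refine LS_of_residue hp h.unit (s := s) ?_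
      rw [← sub_eq_zero, ← map_pow, ← map_sub, mk_eq_zero_iff] at hc
      have e : (ε : F) - algebraMap (𝓞 F) F s ^ p =
          -(algebraMap (𝓞 F) F (s ^ p - a0)) + -(algebraMap (𝓞 F) F a0 - ε) := by
        rw [map_sub, map_pow]; ring
      rw [e]
      exact (v.valuation F).map_add_lt (by rwa [Valuation.map_neg]) (by rwa [Valuation.map_neg])
    · rw [hmap]
      exact natDegree_X_pow_sub_C
    · intro x hx
      have hx1 : w.valuation E x ^ p = 1 := by
        rw [← map_pow, hx]
        exact (val_eq_one_iff hw _).mpr h.unit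
      rw [map_zero, sub_zero, map_one, div_one]
      refine ⟨((pow_eq_one_iff_left M.prime.ne_zero).mp hx1).le, ?_⟩
      rw [eval₂_sub, eval₂_pow, eval₂_X, eval₂_C, hx, RingHom.comp_apply, ← map_sub]
      refine (val_lt_one_iff hw _).mpr ?_
      rw [← neg_sub, Valuation.map_neg]
      exact ha0
  · -- the places above `p`
    have : Fact p.Prime := ⟨M.prime⟩
    have hch : CharP (𝓞 F ⧸ v.asIdeal) p := by
      refine (CharP.charP_iff_prime_eq_zero M.prime).mpr ?_
      have : Ideal.Quotient.mk v.asIdeal (p : 𝓞 F) = 0 := by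
        rw [mk_eq_zero_iff, map_natCast]
        exact hp
      rwa [map_natCast] at this
    have hl : v.valuation F M.l < 1 := by
      rw [M.val_p] at hp
      exact (pow_lt_one_iff (by have := M.prime.two_le; omega)).mp hp
    have hlp0 : M.l ^ p ≠ 0 := pow_ne_zero p M.l_ne_zero
    have hvlp : v.valuation F (M.l ^ p) ≠ 0 := M.val_lp_ne _
    have hcint : v.valuation F (((ε : F) - 1) / M.l ^ p) ≤ 1 := by
      rw [map_div₀]
      exact div_le_one_of_le₀ h.cong zero_le
    obtain ⟨c0, hc0⟩ := exists_residue v hcint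
    have hmap : (X ^ p - X - C c0 : (𝓞 F)[X]).map (Ideal.Quotient.mk v.asIdeal) =
        X ^ p - X - C (Ideal.Quotient.mk v.asIdeal c0) := by
      rw [Polynomial.map_sub, Polynomial.map_sub, Polynomial.map_pow, map_X, map_C]
    have hl' : w.valuation E ((M.map E).l) < 1 := by
      have : (M.map E).l = algebraMap F E M.l := by
        rw [Mu.l, Mu.l, map_sub, map_one]; rfl
      rw [this]
      exact (val_lt_one_iff hw _).mpr hl
    have hlE : (M.map E).l = algebraMap F E M.l := by
      rw [Mu.l, Mu.l, map_sub, map_one]; rfl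
    refine ord_of_orth hw hθ (s := 1) (t := M.l) M.l_ne_zero (G := X ^ p - X - C c0) ?_ ?_ ?_ hb
    · rw [hmap]
      refine irreducible_AS _ fun c hc => ?_
      obtain ⟨s, rfl⟩ := Ideal.Quotient.mk_surjective c
      apply h.notMem
      rw [← sub_eq_zero, ← map_pow, ← map_sub, ← map_sub, mk_eq_zero_iff] at hc
      have hs := M.as_congr hl (v.valuation_le_one s)
      have hy0 : v.valuation F ((1 + M.l * algebraMap (𝓞 F) F s) ^ p) = 1 := by
        rw [map_pow]
        have : v.valuation F (1 + M.l * algebraMap (𝓞 F) F s) = 1 := by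
          apply (v.valuation F).map_one_add_of_lt
          rw [map_mul]
          calc _ ≤ v.valuation F M.l * 1 := mul_le_mul_right (v.valuation_le_one s) _
            _ < 1 := by rwa [mul_one]
        rw [this, one_pow]
      have hy1 : 1 + M.l * algebraMap (𝓞 F) F s ≠ 0 := by
        intro h0
        rw [h0, zero_pow M.prime.ne_zero, map_zero] at hy0
        exact zero_ne_one hy0
      refine ⟨Units.mk0 _ hy1, ?_⟩
      rw [Units.val_mk0, div_sub_one (pow_ne_zero p hy1), map_div₀, hy0, div_one]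
      have e : (ε : F) - (1 + M.l * algebraMap (𝓞 F) F s) ^ p =
          -((1 + M.l * algebraMap (𝓞 F) F s) ^ p - 1 - M.l ^ p *
            (algebraMap (𝓞 F) F s ^ p - algebraMap (𝓞 F) F s)) +
          M.l ^ p * (-(algebraMap (𝓞 F) F (s ^ p - s - c0)) -
            (algebraMap (𝓞 F) F c0 - ((ε : F) - 1) / M.l ^ p)) := by
        rw [map_sub, map_sub, map_pow]
        field_simp
        ring
      rw [e]
      refine (v.valuation F).map_add_lt (by rwa [Valuation.map_neg]) ?_
      rw [map_mul]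
      refine mul_lt_of_lt_one_right (zero_lt_iff.mpr hvlp) ?_
      exact (v.valuation F).map_sub_lt (by rwa [Valuation.map_neg]) hc0
    · rw [hmap]
      exact natDegree_AS M.prime _
    · intro x hx
      rw [map_one]
      set ω : E := (x - 1) / algebraMap F E M.l with hω
      have hl0 : algebraMap F E M.l ≠ 0 := (_root_.map_ne_zero _).mpr M.l_ne_zero
      have hx' : x = 1 + (M.map E).l * ω := by
        rw [hlE, hω, mul_div_cancel₀ _ hl0]; ring
      have hωle : w.valuation E ω ≤ 1 := by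
        apply (M.map E).as_integral
        rw [← hx', hx, hlE, ← map_one (algebraMap F E), ← map_sub, ← map_pow]
        refine not_lt.mp fun h7 => ?_
        exact absurd ((val_lt_val_iff hw _ _).mp h7) (not_lt.mpr h.cong)
      refine ⟨hωle, ?_⟩
      have h1 := (M.map E).as_congr hl' hωle
      rw [← hx', hx, hlE] at h1
      have hlp0' : algebraMap F E M.l ^ p ≠ 0 := pow_ne_zero p hl0
      have h2 : w.valuation E ((algebraMap F E ε - 1) / algebraMap F E M.l ^ p - (ω ^ p - ω)) < 1 := by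
        have e : (algebraMap F E ε - 1) / algebraMap F E M.l ^ p - (ω ^ p - ω) =
            (algebraMap F E ε - 1 - algebraMap F E M.l ^ p * (ω ^ p - ω)) /
              algebraMap F E M.l ^ p := by
          field_simp
        rw [e, map_div₀]
        exact (div_lt_one₀ (zero_lt_iff.mpr ((Valuation.ne_zero_iff _).mpr hlp0'))).mpr h1
      rw [eval₂_sub, eval₂_sub, eval₂_pow, eval₂_X, eval₂_C, RingHom.comp_apply]
      have e : ω ^ p - ω - algebraMap F E (algebraMap (𝓞 F) F c0) =
          -((algebraMap F E ε - 1) / algebraMap F E M.l ^ p - (ω ^ p - ω)) -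
          algebraMap F E (algebraMap (𝓞 F) F c0 - ((ε : F) - 1) / M.l ^ p) := by
        rw [map_sub, map_div₀, map_sub, map_one, map_pow]
        ring
      rw [e]
      exact (w.valuation E).map_sub_lt (by rwa [Valuation.map_neg])
        ((val_lt_one_iff hw _).mpr hc0)

end Vale.Agent.P011.ArP
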